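import Vale.Agent.P042.H779.AbLaw

/-! Hoeffding components of a consistent family; truncated Bernoulli weights. -/

namespace Vale.Agent.P042.H482

open Finset Vale.Agent.P042.H779.Ab
open Vale.Agent.P042.H779 (bw bw_pos bw_sum)

set_option linter.unusedSectionVars false

section
variable {ι : Type*} [Fintype ι] [DecidableEq ι] {V : ι → Type*} [∀ i, Fintype (V i)]
  {w : ∀ i, V i → ℝ} {g : Finset ι → (∀ i, V i) → ℝ} {ok : Finset ι → Prop}

/-- the Hoeffding component of a consistent family -/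
noncomputable def hc (g : Finset ι → (∀ i, V i) → ℝ) (B : Finset ι) (x : ∀ i, V i) : ℝ :=
  ∑ A ∈ B.powerset, (-1 : ℝ) ^ (B.card - A.card) * g A x

/-- its squared norm -/
noncomputable def nh (w : ∀ i, V i → ℝ) (g : Finset ι → (∀ i, V i) → ℝ) (B : Finset ι) : ℝ :=
  ∑ x, pw w x * hc g B x ^ 2

lemma nh_nonneg (F : Fam w g ok) (B : Finset ι) : 0 ≤ nh w g B :=
  sum_nonneg fun x _ => mul_nonneg (pw_nonneg F x) (sq_nonneg _)

lemma hc_indep (F : Fam w g ok) {B : Finset ι} {i : ι} (hi : i ∉ B) : Indep i (hc g B) := by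
  intro x a
  unfold hc
  refine sum_congr rfl fun A hA => ?_
  rw [F.g_upd A i (fun h => hi (mem_powerset.mp hA h))]

lemma hc_empty (F : Fam w g ok) (x : ∀ i, V i) : hc g ∅ x = 1 := by
  unfold hc
  simp [F.g_empty]

/-- the components are centred -/
lemma hc_av (F : Fam w g ok) {B : Finset ι} (hB : ok B) {i : ι} (hi : i ∈ B) (x : ∀ i, V i) :
    ∑ a, w i a * hc g B (Function.update x i a) = 0 := by
  obtain ⟨C, hC, rfl⟩ : ∃ C, i ∉ C ∧ insert i C = B :=
    ⟨B.erase i, notMem_erase i B, insert_erase hi⟩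
  have e1 : ∀ a, hc g (insert i C) (Function.update x i a)
      = ∑ A ∈ C.powerset, (-1 : ℝ) ^ (C.card - A.card) *
        (g (insert i A) (Function.update x i a) - g A x) := by
    intro a
    unfold hc
    rw [sum_powerset_insert hC, ← sum_add_distrib]
    refine sum_congr rfl fun A hA => ?_
    have hA' := mem_powerset.mp hA
    have hiA : i ∉ A := fun h => hC (hA' h)
    have hc := card_le_card hA'
    rw [card_insert_of_notMem hC, card_insert_of_notMem hiA, F.g_upd A i hiA,
      show C.card + 1 - A.card = (C.card - A.card) + 1 by omega,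
      show C.card + 1 - (A.card + 1) = C.card - A.card by omega, pow_succ]
    ring
  simp only [e1, mul_sum]
  rw [sum_comm]
  refine sum_eq_zero fun A hA => ?_
  have hA' := mem_powerset.mp hA
  have hiA : i ∉ A := fun h => hC (hA' h)
  have hok : ok (insert i A) := F.ok_down _ _ (insert_subset_insert i hA') hB
  have e2 : ∀ a, w i a * ((-1 : ℝ) ^ (C.card - A.card) *
      (g (insert i A) (Function.update x i a) - g A x))
      = (-1 : ℝ) ^ (C.card - A.card) * (w i a * g (insert i A) (Function.update x i a))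
        - (-1 : ℝ) ^ (C.card - A.card) * g A x * w i a := fun a => by ring
  rw [sum_congr rfl fun a _ => e2 a, sum_sub_distrib, ← mul_sum, ← mul_sum,
    F.g_avg A i hiA hok x, F.w_sum]
  ring

/-- orthogonality -/
lemma hc_orth (F : Fam w g ok) {B B' : Finset ι} (hB : ok B) (hB' : ok B') (hne : B ≠ B') :
    ∑ x, pw w x * (hc g B x * hc g B' x) = 0 := by
  have key : ∀ {B B' : Finset ι} {i : ι}, ok B → i ∈ B → i ∉ B' →
      ∑ x, pw w x * (hc g B x * hc g B' x) = 0 := by
    intro B B' i hok hi hi'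
    rw [pw_avg F i]
    refine sum_eq_zero fun x _ => ?_
    have e1 : ∀ a, w i a * (hc g B (Function.update x i a) * hc g B' (Function.update x i a))
        = hc g B' x * (w i a * hc g B (Function.update x i a)) := by
      intro a
      rw [hc_indep F hi' x a]
      ring
    rw [sum_congr rfl fun a _ => e1 a, ← mul_sum, hc_av F hok hi, mul_zero, mul_zero]
  by_cases h : B ⊆ B'
  · obtain ⟨i, hi, hi'⟩ := exists_of_ssubset (lt_of_le_of_ne h hne)
    have h1 := key (B := B') (B' := B) hB' hi hi'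
    rw [← h1]
    exact sum_congr rfl fun x _ => by ring
  · obtain ⟨i, hi, hi'⟩ := not_subset.1 h
    exact key hB hi hi'

/-- Moebius inversion -/
theorem sum_hc (g : Finset ι → (∀ i, V i) → ℝ) (R : Finset ι) (x : ∀ i, V i) :
    ∑ B ∈ R.powerset, hc g B x = g R x := by
  unfold hc
  have h1 : ∑ B ∈ R.powerset, ∑ A ∈ B.powerset, (-1 : ℝ) ^ (B.card - A.card) * g A x =
      ∑ A ∈ R.powerset, (∑ B ∈ R.powerset.filter (fun B => A ⊆ B),
        (-1 : ℝ) ^ (B.card - A.card)) * g A x := by
    have h2 : ∑ B ∈ R.powerset, ∑ A ∈ B.powerset, (-1 : ℝ) ^ (B.card - A.card) * g A x =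
        ∑ B ∈ R.powerset, ∑ A ∈ R.powerset, if A ⊆ B then
          (-1 : ℝ) ^ (B.card - A.card) * g A x else 0 := by
      refine sum_congr rfl fun B hB => ?_
      rw [← sum_filter]
      refine sum_congr ?_ fun _ _ => rfl
      ext A
      simp only [mem_powerset, mem_filter]
      exact ⟨fun h => ⟨h.trans (mem_powerset.1 hB), h⟩, fun h => h.2⟩
    rw [h2, sum_comm]
    refine sum_congr rfl fun A _ => ?_
    rw [← sum_filter, sum_mul]
  rw [h1, sum_eq_single R]
  · have : R.powerset.filter (fun B => R ⊆ B) = {R} := by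
      ext B
      simp only [mem_filter, mem_powerset, mem_singleton]
      exact ⟨fun h => Subset.antisymm h.1 h.2, fun h => by rw [h]; simp⟩
    rw [this]
    simp
  · intro A hA hAR
    have hA' := mem_powerset.1 hA
    obtain ⟨i, hiR, hiA⟩ := exists_of_ssubset (lt_of_le_of_ne hA' hAR)
    have h3 : ∑ B ∈ R.powerset.filter (fun B => A ⊆ B), (-1 : ℝ) ^ (B.card - A.card) = 0 := by
      refine sum_involution (fun B _ => if i ∈ B then B.erase i else insert i B) ?_ ?_ ?_ ?_
      · intro B hB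
        obtain ⟨-, hAB⟩ := mem_filter.1 hB
        split_ifs with h
        · have h4 : A ⊆ B.erase i := fun j hj => mem_erase.2
            ⟨fun h => hiA (h ▸ hj), hAB hj⟩
          have h5 := card_le_card h4
          have h6 := card_erase_of_mem h
          have h7 := card_pos.2 ⟨i, h⟩
          rw [show B.card - A.card = ((B.erase i).card - A.card) + 1 by omega, pow_succ]
          ring
        · have h5 := card_le_card hAB
          rw [card_insert_of_notMem h,
            show B.card + 1 - A.card = (B.card - A.card) + 1 by omega, pow_succ]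
          ring
      · intro B hB _ h
        split_ifs at h with h4
        · exact (notMem_erase i B) (by rw [h]; exact h4)
        · exact h4 (by rw [← h]; exact mem_insert_self _ _)
      · intro B hB
        obtain ⟨hBR, hAB⟩ := mem_filter.1 hB
        rw [mem_powerset] at hBR
        rw [mem_filter, mem_powerset]
        split_ifs with h
        · exact ⟨(erase_subset _ _).trans hBR, fun j hj => mem_erase.2
            ⟨fun h => hiA (h ▸ hj), hAB hj⟩⟩
        · exact ⟨insert_subset hiR hBR, hAB.trans (subset_insert _ _)⟩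
      · intro B hB
        by_cases h : i ∈ B
        · rw [if_pos h, if_neg (notMem_erase i B), insert_erase h]
        · rw [if_neg h, if_pos (mem_insert_self _ _), erase_insert h]
    rw [h3, zero_mul]
  · intro h
    exact absurd (mem_powerset_self R) h

/-- Parseval -/
theorem wq_eq (F : Fam w g ok) {R : Finset ι} (hR : ok R) :
    Wq w g R = ∑ B ∈ R.powerset, nh w g B := by
  unfold Wq nh
  rw [sum_comm]
  have e1 : ∀ x, pw w x * g R x ^ 2
      = ∑ B ∈ R.powerset, ∑ B' ∈ R.powerset, pw w x * (hc g B x * hc g B' x) := by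
    intro x
    rw [← sum_hc g R x, sq, sum_mul_sum, mul_sum]
    refine sum_congr rfl fun B _ => ?_
    rw [mul_sum]
  rw [sum_congr rfl fun x _ => e1 x, sum_comm]
  conv_rhs => rw [sum_comm]
  refine sum_congr rfl fun B hB => ?_
  rw [sum_comm, sum_eq_single B]
  · exact sum_congr rfl fun x _ => by ring
  · intro B' hB' hne
    exact hc_orth F (F.ok_down _ _ (mem_powerset.mp hB) hR)
      (F.ok_down _ _ (mem_powerset.mp hB') hR) hne.symm
  · intro h
    exact absurd hB h

lemma nh_le_wq (F : Fam w g ok) {R : Finset ι} (hR : ok R) : nh w g R ≤ Wq w g R := by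
  rw [wq_eq F hR]
  exact single_le_sum (f := fun B => nh w g B) (fun B _ => nh_nonneg F B) (mem_powerset_self R)

lemma nh_empty (F : Fam w g ok) : nh w g ∅ = 1 := by
  unfold nh
  simp only [hc_empty F, one_pow, mul_one]
  exact pw_sum F

/-! ### sums over supersets -/

lemma sum_supersets {M : Type*} [AddCommMonoid M] {B R : Finset ι} (hB : B ⊆ R)
    (f : Finset ι → M) :
    ∑ A ∈ R.powerset.filter (fun A => B ⊆ A), f A = ∑ A ∈ (R \ B).powerset, f (B ∪ A) := by
  refine sum_nbij' (fun A => A \ B) (fun A => B ∪ A) ?_ ?_ ?_ ?_ ?_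
  · intro A hA
    rw [mem_filter, mem_powerset] at hA
    rw [mem_powerset]
    exact sdiff_subset_sdiff hA.1 (Subset.refl B)
  · intro A hA
    rw [mem_powerset] at hA
    rw [mem_filter, mem_powerset]
    exact ⟨union_subset hB (hA.trans sdiff_subset), subset_union_left⟩
  · intro A hA
    rw [mem_filter, mem_powerset] at hA
    exact union_sdiff_of_subset hA.2
  · intro A hA
    rw [mem_powerset] at hA
    ext j
    simp only [mem_sdiff, mem_union]
    constructor
    · rintro ⟨h1 | h1, h2⟩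
      · exact absurd h1 h2
      · exact h1
    · intro h1
      exact ⟨Or.inr h1, (mem_sdiff.mp (hA h1)).2⟩
  · intro A hA
    rw [mem_filter, mem_powerset] at hA
    rw [union_sdiff_of_subset hA.2]

lemma bw_up (τ : ℝ) {B R : Finset ι} (hB : B ⊆ R) :
    ∑ A ∈ R.powerset.filter (fun A => B ⊆ A), bw τ R A = τ ^ B.card := by
  rw [sum_supersets hB]
  have e1 : ∀ A ∈ (R \ B).powerset, bw τ R (B ∪ A) = τ ^ B.card * bw τ (R \ B) A := by
    intro A hA
    rw [mem_powerset] at hA
    unfold bw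
    have hd : Disjoint B A := disjoint_left.mpr fun j hj hjA => (mem_sdiff.mp (hA hjA)).2 hj
    have e2 : R \ (B ∪ A) = (R \ B) \ A := by
      ext j
      simp only [mem_union, mem_sdiff]
      tauto
    rw [card_union_of_disjoint hd, pow_add, e2]
    ring
  rw [sum_congr rfl e1, ← mul_sum, bw_sum, mul_one]

variable {β : Finset ι → ℝ}

/-- the mass of the planted law in terms of the components -/
theorem Gm_eq_nh (F : Fam w g ok) (hβ : ∀ R, β R ≠ 0 → ok R) (τ : ℝ) :
    Gm w g β τ = ∑ B ∈ (univ : Finset ι).powerset, nh w g B * τ ^ B.card *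
      ∑ R ∈ (univ : Finset ι).powerset.filter (fun R => B ⊆ R), β R := by
  have e1 : Gm w g β τ = ∑ R ∈ (univ : Finset ι).powerset,
      ∑ B ∈ (univ : Finset ι).powerset, if B ⊆ R then nh w g B * τ ^ B.card * β R else 0 := by
    unfold Gm
    refine sum_congr rfl fun R _ => ?_
    by_cases hR : β R = 0
    · rw [hR, zero_mul]
      symm
      refine sum_eq_zero fun B _ => ?_
      split_ifs
      · rw [mul_zero]
      · rfl
    have hok := hβ R hR
    have e2 : ∑ A ∈ R.powerset, bw τ R A * Wq w g A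
        = ∑ B ∈ R.powerset, nh w g B * τ ^ B.card := by
      have e3 : ∀ A ∈ R.powerset, bw τ R A * Wq w g A
          = ∑ B ∈ R.powerset, if B ⊆ A then bw τ R A * nh w g B else 0 := by
        intro A hA
        have hA' := mem_powerset.mp hA
        rw [wq_eq F (F.ok_down _ _ hA' hok), mul_sum, ← sum_filter]
        refine sum_congr ?_ fun _ _ => rfl
        ext B
        simp only [mem_powerset, mem_filter]
        exact ⟨fun h => ⟨h.trans hA', h⟩, fun h => h.2⟩
      rw [sum_congr rfl e3, sum_comm]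
      refine sum_congr rfl fun B hB => ?_
      rw [← sum_filter, ← sum_mul, bw_up τ (mem_powerset.mp hB)]
      ring
    rw [e2, mul_sum, ← sum_filter]
    refine sum_congr ?_ fun B _ => by ring
    ext B
    simp only [mem_powerset, mem_filter]
    exact ⟨fun h => ⟨subset_univ B, h⟩, fun h => h.2⟩
  rw [e1, sum_comm]
  refine sum_congr rfl fun B _ => ?_
  rw [← sum_filter, mul_sum]

end

/-! ### Bernoulli weights -/

section
variable {ι : Type*} [Fintype ι] [DecidableEq ι]

/-- full Bernoulli weights on the subsets of `U` -/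
noncomputable def fw (s : ι → ℝ) (U R : Finset ι) : ℝ := (∏ i ∈ R, s i) * ∏ i ∈ U \ R, (1 - s i)

lemma fw_insert_left {s : ι → ℝ} {U R : Finset ι} (hR : R ⊆ U) {a : ι} (ha : a ∉ U) :
    fw s (insert a U) R = (1 - s a) * fw s U R := by
  unfold fw
  have haR : a ∉ R := fun h => ha (hR h)
  have e1 : insert a U \ R = insert a (U \ R) := insert_sdiff_of_notMem U haR
  rw [e1, prod_insert (fun h => ha (mem_sdiff.mp h).1)]
  ring

lemma fw_insert_both {s : ι → ℝ} {U R : Finset ι} (hR : R ⊆ U) {a : ι} (ha : a ∉ U) :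
    fw s (insert a U) (insert a R) = s a * fw s U R := by
  unfold fw
  have haR : a ∉ R := fun h => ha (hR h)
  have e1 : insert a U \ insert a R = U \ R := by
    ext j
    simp only [mem_sdiff, mem_insert, not_or]
    constructor
    · rintro ⟨h1 | h1, h2, h3⟩
      · exact absurd h1 h2
      · exact ⟨h1, h3⟩
    · rintro ⟨h1, h2⟩
      exact ⟨Or.inr h1, fun h => ha (h ▸ h1), h2⟩
  rw [e1, prod_insert haR]
  ring

lemma fw_sum (s : ι → ℝ) (U : Finset ι) : ∑ R ∈ U.powerset, fw s U R = 1 := by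
  unfold fw
  rw [← prod_add]
  simp

lemma fw_card (s : ι → ℝ) (U : Finset ι) :
    ∑ R ∈ U.powerset, fw s U R * (R.card : ℝ) = ∑ i ∈ U, s i := by
  induction U using Finset.induction_on with
  | empty => simp
  | insert a U ha ih =>
    rw [sum_powerset_insert ha, ← sum_add_distrib, sum_insert ha]
    have e1 : ∀ R ∈ U.powerset, fw s (insert a U) R * (R.card : ℝ)
        + fw s (insert a U) (insert a R) * ((insert a R).card : ℝ)
        = fw s U R * (R.card : ℝ) + s a * fw s U R := by
      intro R hR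
      rw [mem_powerset] at hR
      rw [fw_insert_left hR ha, fw_insert_both hR ha,
        card_insert_of_notMem (fun h => ha (hR h))]
      push_cast
      ring
    rw [sum_congr rfl e1, sum_add_distrib, ih, ← mul_sum, fw_sum]
    ring

lemma fw_nonneg {s : ι → ℝ} (hs0 : ∀ i, 0 ≤ s i) (hs1 : ∀ i, s i ≤ 1) (U R : Finset ι) :
    0 ≤ fw s U R :=
  mul_nonneg (prod_nonneg fun i _ => hs0 i) (prod_nonneg fun i _ => by linarith [hs1 i])

/-- Markov: the sets of size above `K` -/
lemma fw_markov {s : ι → ℝ} (hs0 : ∀ i, 0 ≤ s i) (hs1 : ∀ i, s i ≤ 1) (U : Finset ι) (K : ℝ)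
    (hK : 0 < K) :
    1 - (∑ i, s i) / K ≤ ∑ R ∈ U.powerset, if (R.card : ℝ) ≤ K then fw s U R else 0 := by
  have h1 : ∀ R ∈ U.powerset, fw s U R - fw s U R * (R.card : ℝ) / K
      ≤ if (R.card : ℝ) ≤ K then fw s U R else 0 := by
    intro R _
    have h2 := fw_nonneg hs0 hs1 U R
    split_ifs with h3
    · have : 0 ≤ fw s U R * (R.card : ℝ) / K := by positivity
      linarith
    · push Not at h3
      have h4 : fw s U R * 1 ≤ fw s U R * ((R.card : ℝ) / K) :=
        mul_le_mul_of_nonneg_left ((one_le_div hK).mpr h3.le) h2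
      rw [mul_one] at h4
      rw [mul_div_assoc]
      linarith
  refine le_trans ?_ (sum_le_sum h1)
  rw [sum_sub_distrib, fw_sum, ← sum_div, fw_card]
  have h5 : ∑ i ∈ U, s i ≤ ∑ i, s i :=
    sum_le_sum_of_subset_of_nonneg (subset_univ U) fun i _ _ => hs0 i
  have h6 : (∑ i ∈ U, s i) / K ≤ (∑ i, s i) / K := div_le_div_of_nonneg_right h5 hK.le
  linarith

/-- the truncated Bernoulli weight of the sets containing `B` -/
lemma rw'_up {s : ι → ℝ} (hs0 : ∀ i, 0 ≤ s i) (hs1 : ∀ i, s i ≤ 1) {d : ℕ} (B : Finset ι)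
    (hB : 2 * B.card ≤ d) (hd : 0 < d) :
    (∏ i ∈ B, s i) * (1 - 2 * (∑ i, s i) / d) ≤
      ∑ R ∈ (univ : Finset ι).powerset.filter (fun R => B ⊆ R),
        rw' s (fun R => R.card ≤ d) R := by
  rw [sum_supersets (subset_univ B)]
  have hd' : (0 : ℝ) < d := by exact_mod_cast hd
  have h1 := fw_markov hs0 hs1 (univ \ B) ((d : ℝ) / 2) (by positivity)
  have h0 : 0 ≤ ∏ i ∈ B, s i := prod_nonneg fun i _ => hs0 i
  have h2 := mul_le_mul_of_nonneg_left h1 h0
  have e1 : (∑ i, s i) / ((d : ℝ) / 2) = 2 * (∑ i, s i) / d := by field_simp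
  rw [e1] at h2
  refine h2.trans ?_
  rw [mul_sum]
  refine sum_le_sum fun A hA => ?_
  rw [mem_powerset] at hA
  have hd2 : Disjoint B A := disjoint_left.mpr fun j hj hjA => (mem_sdiff.mp (hA hjA)).2 hj
  have e2 : (∏ i ∈ B ∪ A, s i) * ∏ i ∈ univ \ (B ∪ A), (1 - s i)
      = (∏ i ∈ B, s i) * fw s (univ \ B) A := by
    unfold fw
    rw [prod_union hd2]
    have : univ \ (B ∪ A) = (univ \ B) \ A := by
      ext j
      simp only [mem_sdiff, mem_univ, true_and, mem_union, not_or]
    rw [this]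
    ring
  unfold rw'
  by_cases h3 : (A.card : ℝ) ≤ (d : ℝ) / 2
  · rw [if_pos h3]
    have h4 : (B ∪ A).card ≤ d := by
      rw [card_union_of_disjoint hd2]
      have h5 : (2 * A.card : ℝ) ≤ d := by linarith
      have h6 : 2 * A.card ≤ d := by exact_mod_cast h5
      omega
    rw [if_pos h4, e2]
  · rw [if_neg h3, mul_zero]
    split_ifs
    · rw [e2]
      exact mul_nonneg h0 (fw_nonneg hs0 hs1 _ _)
    · exact le_rfl

end

section
variable {ι : Type*} [Fintype ι] [DecidableEq ι] {V : ι → Type*} [∀ i, Fintype (V i)]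
  {w : ∀ i, V i → ℝ} {g : Finset ι → (∀ i, V i) → ℝ} {ok : Finset ι → Prop}

/-- **(T3), general form**: every component sum over small sets, with the defect of the
truncation -/
theorem trunc_gen {d : ℕ} (F : Fam w g (fun R => R.card ≤ d)) {s : ι → ℝ} (hs0 : ∀ i, 0 ≤ s i)
    (hs1 : ∀ i, s i ≤ 1) {τ : ℝ} (h0 : 0 ≤ τ) (hd : 0 < d) :
    (1 - 2 * (∑ i, s i) / d) * ∑ B ∈ (univ : Finset ι).powerset.filter (fun B => 2 * B.card ≤ d),
      (∏ i ∈ B, τ * s i) * nh w g B ≤ Gm w g (rw' s (fun R => R.card ≤ d)) τ := by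
  have hβ := (wt_rw' (ok := fun R : Finset ι => R.card ≤ d) s hs0 hs1)
  rw [Gm_eq_nh F hβ.okb, mul_sum]
  have hrw0 : ∀ B : Finset ι, 0 ≤ ∑ R ∈ (univ : Finset ι).powerset.filter (fun R => B ⊆ R),
      rw' s (fun R => R.card ≤ d) R := fun B => sum_nonneg fun R _ => hβ.nonneg R
  have h1 : ∀ B ∈ (univ : Finset ι).powerset.filter (fun B => 2 * B.card ≤ d),
      (1 - 2 * (∑ i, s i) / d) * ((∏ i ∈ B, τ * s i) * nh w g B)
      ≤ nh w g B * τ ^ B.card *
        ∑ R ∈ (univ : Finset ι).powerset.filter (fun R => B ⊆ R),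
          rw' s (fun R => R.card ≤ d) R := by
    intro B hB
    have hB' := (mem_filter.mp hB).2
    have h2 := rw'_up hs0 hs1 B hB' hd
    have h3 : 0 ≤ nh w g B * τ ^ B.card := mul_nonneg (nh_nonneg F B) (pow_nonneg h0 _)
    have h4 := mul_le_mul_of_nonneg_left h2 h3
    refine le_trans (le_of_eq ?_) h4
    rw [prod_mul_distrib, prod_const]
    ring
  refine (sum_le_sum h1).trans ?_
  exact sum_le_sum_of_subset_of_nonneg (filter_subset _ _) fun B _ _ =>
    mul_nonneg (mul_nonneg (nh_nonneg F B) (pow_nonneg h0 _)) (hrw0 B)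

/-- **(T3)** -/
theorem trunc_bern {d : ℕ} (F : Fam w g (fun R => R.card ≤ d)) {s : ι → ℝ} (hs0 : ∀ i, 0 ≤ s i)
    (hs1 : ∀ i, s i ≤ 1) {τ : ℝ} (h0 : 0 ≤ τ) (hd : 0 < d) (hsum : 8 * ∑ i, s i ≤ d) :
    ∑ B ∈ (univ : Finset ι).powerset.filter (fun B => 2 * B.card ≤ d),
      (∏ i ∈ B, τ * s i) * nh w g B ≤ 2 * Gm w g (rw' s (fun R => R.card ≤ d)) τ := by
  have hd' : (0 : ℝ) < d := by exact_mod_cast hd
  have hs : 0 ≤ ∑ i, s i := sum_nonneg fun i _ => hs0 i
  have h1 := trunc_gen F hs0 hs1 h0 hd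
  have h2 : 2 * (∑ i, s i) / d ≤ 1 / 4 := by
    rw [div_le_iff₀ hd']
    linarith
  have h3 : 0 ≤ ∑ B ∈ (univ : Finset ι).powerset.filter (fun B => 2 * B.card ≤ d),
      (∏ i ∈ B, τ * s i) * nh w g B :=
    sum_nonneg fun B _ => mul_nonneg (prod_nonneg fun i _ => mul_nonneg h0 (hs0 i))
      (nh_nonneg F B)
  nlinarith

/-- **(T3), form without the empty set**: what the comparison `G - 1` consumes -/
theorem trunc_bern' {d : ℕ} (F : Fam w g (fun R => R.card ≤ d)) {s : ι → ℝ}
    (hs0 : ∀ i, 0 ≤ s i) (hs1 : ∀ i, s i ≤ 1) {τ : ℝ} (h0 : 0 ≤ τ) (hd : 0 < d)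
    (hsum : 8 * ∑ i, s i ≤ d) :
    ∑ B ∈ (univ : Finset ι).powerset.filter (fun B => 2 * B.card ≤ d ∧ B ≠ ∅),
      (∏ i ∈ B, τ * s i) * nh w g B
      ≤ 2 * (Gm w g (rw' s (fun R => R.card ≤ d)) τ - 1 + 2 * (∑ i, s i) / d) := by
  have hd' : (0 : ℝ) < d := by exact_mod_cast hd
  have hs : 0 ≤ ∑ i, s i := sum_nonneg fun i _ => hs0 i
  have h1 := trunc_gen F hs0 hs1 h0 hd
  have h2 : 2 * (∑ i, s i) / d ≤ 1 / 4 := by
    rw [div_le_iff₀ hd']
    linarith
  have h3 : 0 ≤ ∑ B ∈ (univ : Finset ι).powerset.filter (fun B => 2 * B.card ≤ d ∧ B ≠ ∅),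
      (∏ i ∈ B, τ * s i) * nh w g B :=
    sum_nonneg fun B _ => mul_nonneg (prod_nonneg fun i _ => mul_nonneg h0 (hs0 i))
      (nh_nonneg F B)
  have h4 : ∑ B ∈ (univ : Finset ι).powerset.filter (fun B => 2 * B.card ≤ d),
      (∏ i ∈ B, τ * s i) * nh w g B = 1 +
      ∑ B ∈ (univ : Finset ι).powerset.filter (fun B => 2 * B.card ≤ d ∧ B ≠ ∅),
      (∏ i ∈ B, τ * s i) * nh w g B := by
    have e1 : (univ : Finset ι).powerset.filter (fun B => 2 * B.card ≤ d)
        = insert ∅ ((univ : Finset ι).powerset.filter (fun B => 2 * B.card ≤ d ∧ B ≠ ∅)) := by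
      ext B
      simp only [mem_filter, mem_insert, mem_powerset, subset_univ, true_and]
      constructor
      · intro h
        by_cases hB : B = ∅
        · exact Or.inl hB
        · exact Or.inr ⟨h, hB⟩
      · rintro (h | h)
        · rw [h]; simp
        · exact h.1
    rw [e1, sum_insert (by simp), nh_empty F, prod_empty, one_mul]
  rw [h4] at h1
  nlinarith

/-- **(T3), tail**: from the sup bound alone -/
theorem tail_bound (F : Fam w g ok) {t : ι → ℝ} (ht0 : ∀ i, 0 ≤ t i) {gL : ℝ}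
    (hlog : ∀ M, ok M → ∀ x, 0 < g M x → Real.log (g M x) ≤ gL * M.card)
    (S : Finset (Finset ι)) (hS : ∀ B ∈ S, ok B) :
    ∑ B ∈ S, (∏ i ∈ B, t i) * nh w g B ≤ Real.exp (Real.exp gL * ∑ i, t i) := by
  have h1 : ∀ B ∈ S, (∏ i ∈ B, t i) * nh w g B ≤ ∏ i ∈ B, (Real.exp gL * t i) := by
    intro B hB
    have hok := hS B hB
    have h2 : nh w g B ≤ Real.exp gL ^ B.card := by
      refine (nh_le_wq F hok).trans ?_
      have h3 : ∀ x, pw w x * g B x ^ 2 ≤ Real.exp gL ^ B.card * (pw w x * g B x) := by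
        intro x
        have hp := pw_nonneg F x
        rcases (F.g_nonneg B x).eq_or_lt with h4 | h4
        · rw [← h4]; simp
        · have h5 : g B x ≤ Real.exp gL ^ B.card := by
            have h6 := hlog B hok x h4
            rw [← Real.exp_nat_mul, ← Real.exp_log h4]
            exact Real.exp_le_exp.mpr (by linarith)
          calc pw w x * g B x ^ 2 = (pw w x * g B x) * g B x := by ring
            _ ≤ (pw w x * g B x) * Real.exp gL ^ B.card :=
              mul_le_mul_of_nonneg_left h5 (mul_nonneg hp h4.le)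
            _ = _ := by ring
      unfold Wq
      refine (sum_le_sum fun x _ => h3 x).trans ?_
      rw [← mul_sum, pw_g_sum F hok, mul_one]
    rw [prod_mul_distrib, prod_const, mul_comm]
    exact mul_le_mul_of_nonneg_right h2 (prod_nonneg fun i _ => ht0 i)
  refine (sum_le_sum h1).trans ?_
  have h2 : ∑ B ∈ S, ∏ i ∈ B, (Real.exp gL * t i)
      ≤ ∑ B ∈ (univ : Finset ι).powerset, ∏ i ∈ B, (Real.exp gL * t i) :=
    sum_le_sum_of_subset_of_nonneg (fun B _ => by simp) fun B _ _ =>
      prod_nonneg fun i _ => mul_nonneg (Real.exp_pos _).le (ht0 i)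
  refine h2.trans ?_
  have h3 : ∑ B ∈ (univ : Finset ι).powerset, ∏ i ∈ B, (Real.exp gL * t i)
      = ∏ i, (Real.exp gL * t i + 1) := by
    rw [prod_add]
    simp
  rw [h3, mul_sum, Real.exp_sum]
  refine prod_le_prod (fun i _ => ?_) fun i _ => ?_
  · have := mul_nonneg (Real.exp_pos gL).le (ht0 i)
    linarith
  · exact Real.add_one_le_exp _

end

end Vale.Agent.P042.H482
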