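import Vale.Agent.P042.H482.Bil
import Vale.Agent.P042.H365.OneBody

/-! Two laws and kernels with a small constant part and small one-body parts: the pair sum over
small sets of coordinates is near one. -/

namespace Vale.Agent.P042.H482

open Finset Vale.Agent.P042.H779.Ab
open Vale.Agent.P042.H779 (marg m1 IsProb)
open Vale.Agent.P042.H461 (W av Inv Em gm Hc ip)

set_option linter.unusedSectionVars false

section
variable {ι : Type*} [Fintype ι] [DecidableEq ι] {V : ι → Type*} [∀ i, Fintype (V i)]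
  [∀ i, DecidableEq (V i)] {w : ∀ i, V i → ℝ} {μ μ' : (∀ i, V i) → ℝ} {K : ∀ i, V i → V i → ℝ}

/-- the pair sum as a two replica sum of components -/
theorem pr_Ph2 (H : Ref w μ) (H' : Ref w μ') (B : Finset ι) :
    pr μ μ' K B = H365.Ph2 w K B (∑ C ∈ B.powerset, Hc w (gdw w μ univ) C)
      (∑ C ∈ B.powerset, Hc w (gdw w μ' univ) C) := by
  rw [H461.sum_Hc, H461.sum_Hc, H365.Ph2_eq_ip (fun i hi => H461.gm_inv hi _),
    ← H365.pair_eq H.w_sum]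
  unfold pr
  refine sum_congr rfl fun x _ => sum_congr rfl fun y _ => ?_
  have h1 : W w x * gdw w μ univ x = μ x := H.pw_mul x
  have h2 : W w y * gdw w μ' univ y = μ' y := H'.pw_mul y
  rw [h1, h2]

/-- energies of the components over a collection of small sets -/
theorem energy_le (H : Ref w μ) {rho s : ι → ℝ} {τ η : ℝ} {d : ℕ}
    (hr : ∀ i, 0 ≤ rho i) (hrs : ∀ i, rho i ≤ τ * s i) (hs0 : ∀ i, 0 ≤ s i) (hs1 : ∀ i, s i ≤ 1)
    (h0 : 0 ≤ τ) (hd : 0 < d) (hsum : 8 * ∑ i, s i ≤ d)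
    (hG : Gm w (gdw w μ) (rw' s (fun R => R.card ≤ d)) τ ≤ 1 + η)
    (D : Finset (Finset ι)) (hD : ∀ B ∈ D, 2 * B.card ≤ d) :
    ∑ B ∈ D, (∏ i ∈ B, rho i) * nh w (gdw w μ) B ≤ 1 + 2 * (η + 2 * (∑ i, s i) / d) := by
  have hok : ∀ R S : Finset ι, R ⊆ S → S.card ≤ d → R.card ≤ d := fun R S h1 h2 =>
    (card_le_card h1).trans h2
  have F := H.fam (ok := fun R => R.card ≤ d) hok
  have h1 := trunc_bern' F hs0 hs1 h0 hd hsum
  have hterm : ∀ B : Finset ι, (∏ i ∈ B, rho i) * nh w (gdw w μ) B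
      ≤ (∏ i ∈ B, τ * s i) * nh w (gdw w μ) B := fun B =>
    mul_le_mul_of_nonneg_right (prod_le_prod (fun i _ => hr i) fun i _ => hrs i)
      (nh_nonneg H.famT B)
  have hpos : ∀ B : Finset ι, 0 ≤ (∏ i ∈ B, τ * s i) * nh w (gdw w μ) B := fun B =>
    mul_nonneg (prod_nonneg fun i _ => mul_nonneg h0 (hs0 i)) (nh_nonneg H.famT B)
  have h2 : ∑ B ∈ D, (∏ i ∈ B, rho i) * nh w (gdw w μ) B
      ≤ 1 + ∑ B ∈ (univ : Finset ι).powerset.filter (fun B => 2 * B.card ≤ d ∧ B ≠ ∅),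
        (∏ i ∈ B, τ * s i) * nh w (gdw w μ) B := by
    have e1 : ∑ B ∈ D, (∏ i ∈ B, rho i) * nh w (gdw w μ) B
        ≤ ∑ B ∈ insert ∅ ((univ : Finset ι).powerset.filter
          (fun B => 2 * B.card ≤ d ∧ B ≠ ∅)), (∏ i ∈ B, τ * s i) * nh w (gdw w μ) B := by
      refine (sum_le_sum fun B _ => hterm B).trans ?_
      refine sum_le_sum_of_subset_of_nonneg ?_ fun B _ _ => hpos B
      intro B hB
      by_cases h : B = ∅
      · rw [h]; exact mem_insert_self _ _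
      · refine mem_insert_of_mem ?_
        rw [mem_filter, mem_powerset]
        exact ⟨subset_univ B, hD B hB, h⟩
    rw [sum_insert (by simp), nh_empty H.famT, prod_empty, one_mul] at e1
    exact e1
  linarith

/-- **the local comparison with one-body parts (S.9)**: if the planted masses of both laws are at
most `1 + η`, the nonempty sets contribute at most
`exp (2 ∑ e) (1 + 2 (η + 2 ∑ s / d)) - 1` in absolute value. -/
theorem pr_near_one' (H : Ref w μ) (H' : Ref w μ') {c : ι → ℝ} {u u' : ∀ i, V i → ℝ}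
    {s0 : ∀ i, V i → V i → ℝ} {rho e s : ι → ℝ} {τ η : ℝ} {d : ℕ}
    (hK : H365.OB w K c u u' s0 rho e) (hr : ∀ i, 0 ≤ rho i)
    (hrs : ∀ i, 2 * rho i ≤ τ * s i) (hs0 : ∀ i, 0 ≤ s i) (hs1 : ∀ i, s i ≤ 1)
    (h0 : 0 ≤ τ) (hd : 0 < d) (hsum : 8 * ∑ i, s i ≤ d)
    (hG : Gm w (gdw w μ) (rw' s (fun R => R.card ≤ d)) τ ≤ 1 + η)
    (hG' : Gm w (gdw w μ') (rw' s (fun R => R.card ≤ d)) τ ≤ 1 + η)
    (D : Finset (Finset ι)) (hD0 : ∅ ∈ D) (hDc : ∀ B ∈ D, ∀ C ⊆ B, C ∈ D)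
    (hD : ∀ B ∈ D, 2 * B.card ≤ d) :
    ∑ B ∈ D.erase ∅, |pr μ μ' K B|
      ≤ Real.exp (2 * ∑ i, e i) * (1 + 2 * (η + 2 * (∑ i, s i) / d)) - 1 := by
  have h1 := H365.onebody_sum_le H.w_nonneg H.w_sum hK D hDc
    (h := Hc w (gdw w μ univ)) (h' := Hc w (gdw w μ' univ))
    (fun C i hi => H461.Hc_inv hi _) (fun C _ i hi => H461.av_Hc H.w_sum hi _)
    (fun C i hi => H461.Hc_inv hi _) (fun C _ i hi => H461.av_Hc H.w_sum hi _)
    (R := 1) zero_le_one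
  simp only [one_pow, one_mul, mul_one] at h1
  have e1 : ∀ B ∈ D, |H365.Ph2 w K B (∑ C ∈ B.powerset, Hc w (gdw w μ univ) C)
      (∑ C ∈ B.powerset, Hc w (gdw w μ' univ) C)| = |pr μ μ' K B| := fun B _ => by
    rw [pr_Ph2 H H']
  rw [sum_congr rfl e1] at h1
  have e2 : ∀ {ν : (∀ i, V i) → ℝ}, Ref w ν →
      Gm w (gdw w ν) (rw' s (fun R => R.card ≤ d)) τ ≤ 1 + η →
      ∑ C ∈ D, (∏ i ∈ C, (2 * rho i)) * ip w (Hc w (gdw w ν univ) C) (Hc w (gdw w ν univ) C)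
        ≤ 1 + 2 * (η + 2 * (∑ i, s i) / d) := by
    intro ν Hν hGν
    rw [sum_congr rfl fun C _ => by rw [ip_Hc_gdw Hν]]
    exact energy_le Hν (rho := fun i => 2 * rho i) (fun i => mul_nonneg zero_le_two (hr i)) hrs
      hs0 hs1 h0 hd hsum hGν D hD
  have h2 := e2 H hG
  have h3 := e2 H' hG'
  have hX : 0 ≤ 1 + 2 * (η + 2 * (∑ i, s i) / d) :=
    le_trans (sum_nonneg fun C _ => mul_nonneg
      (prod_nonneg fun i _ => mul_nonneg zero_le_two (hr i))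
      (H461.ip_self_nonneg H.w_nonneg _)) h2
  have h4 : √(∑ C ∈ D, (∏ i ∈ C, (2 * rho i)) *
        ip w (Hc w (gdw w μ univ) C) (Hc w (gdw w μ univ) C)) *
      √(∑ C ∈ D, (∏ i ∈ C, (2 * rho i)) *
        ip w (Hc w (gdw w μ' univ) C) (Hc w (gdw w μ' univ) C))
      ≤ 1 + 2 * (η + 2 * (∑ i, s i) / d) := by
    calc _ ≤ √(1 + 2 * (η + 2 * (∑ i, s i) / d)) * √(1 + 2 * (η + 2 * (∑ i, s i) / d)) :=
          mul_le_mul (Real.sqrt_le_sqrt h2) (Real.sqrt_le_sqrt h3) (Real.sqrt_nonneg _)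
            (Real.sqrt_nonneg _)
      _ = _ := Real.mul_self_sqrt hX
  have h5 := h1.trans (mul_le_mul_of_nonneg_left h4 (Real.exp_pos _).le)
  rw [← add_sum_erase D _ hD0, pr_empty H H', abs_one] at h5
  linarith

/-- the pair sum is at least `1/2` under concrete smallness -/
theorem pr_half (H : Ref w μ) (H' : Ref w μ') {c : ι → ℝ} {u u' : ∀ i, V i → ℝ}
    {s0 : ∀ i, V i → V i → ℝ} {rho e s : ι → ℝ} {τ X : ℝ} {d : ℕ}
    (hK : H365.OB w K c u u' s0 rho e) (hr : ∀ i, 0 ≤ rho i)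
    (hrs : ∀ i, 2 * rho i ≤ τ * s i) (hs0 : ∀ i, 0 ≤ s i) (hs1 : ∀ i, s i ≤ 1)
    (h0 : 0 ≤ τ) (hd : 0 < d) (hsum : 64 * ∑ i, s i ≤ d)
    (hG0 : 0 < Gm w (gdw w μ) (rw' s (fun R => R.card ≤ d)) τ)
    (hG0' : 0 < Gm w (gdw w μ') (rw' s (fun R => R.card ≤ d)) τ)
    (hX : X ≤ 1 / 16)
    (hG : Real.log (Gm w (gdw w μ) (rw' s (fun R => R.card ≤ d)) τ) ≤ X)
    (hG' : Real.log (Gm w (gdw w μ') (rw' s (fun R => R.card ≤ d)) τ) ≤ X)
    (he : ∑ i, e i ≤ 1 / 32)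
    (D : Finset (Finset ι)) (hD0 : ∅ ∈ D) (hDc : ∀ B ∈ D, ∀ C ⊆ B, C ∈ D)
    (hD : ∀ B ∈ D, 2 * B.card ≤ d) :
    |∑ B ∈ D, pr μ μ' K B - 1| ≤ 1 / 2 := by
  have hs : 0 ≤ ∑ i, s i := sum_nonneg fun i _ => hs0 i
  have hd' : (0 : ℝ) < d := by exact_mod_cast hd
  have hexp : Real.exp (1 / 16) ≤ 1 + 1 / 15 := by
    have h1 := Real.exp_bound_div_one_sub_of_interval (x := 1 / 16) (by norm_num) (by norm_num)
    refine h1.trans (by norm_num)
  have hη : ∀ {ν : (∀ i, V i) → ℝ}, 0 < Gm w (gdw w ν) (rw' s (fun R => R.card ≤ d)) τ →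
      Real.log (Gm w (gdw w ν) (rw' s (fun R => R.card ≤ d)) τ) ≤ X →
      Gm w (gdw w ν) (rw' s (fun R => R.card ≤ d)) τ ≤ 1 + 1 / 15 := by
    intro ν h1 h2
    rw [← Real.exp_log h1]
    exact (Real.exp_le_exp.mpr (h2.trans hX)).trans hexp
  have h1 := pr_near_one' H H' hK hr hrs hs0 hs1 h0 hd (by linarith) (hη hG0 hG) (hη hG0' hG')
    D hD0 hDc hD
  have h2 : 2 * (∑ i, s i) / d ≤ 1 / 32 := by
    rw [div_le_iff₀ hd']
    linarith
  have h3 : Real.exp (2 * ∑ i, e i) ≤ 1 + 1 / 15 :=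
    (Real.exp_le_exp.mpr (by linarith)).trans hexp
  have h4 : 0 ≤ 2 * (∑ i, s i) / d := by positivity
  have h5 : ∑ B ∈ D, pr μ μ' K B - 1 = ∑ B ∈ D.erase ∅, pr μ μ' K B := by
    rw [← add_sum_erase D _ hD0, pr_empty H H']
    ring
  rw [h5]
  refine (abs_sum_le_sum_abs _ _).trans (h1.trans ?_)
  have h6 : Real.exp (2 * ∑ i, e i) * (1 + 2 * (1 / 15 + 2 * (∑ i, s i) / d))
      ≤ (1 + 1 / 15) * (1 + 2 * (1 / 15 + 1 / 32)) := by
    refine mul_le_mul h3 (by linarith) (by linarith) (by norm_num)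
  linarith

end

end Vale.Agent.P042.H482
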