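import Vale.Agent.P042.H365.OneBody
import Vale.Agent.P042.H954.OneBody

/-! The output of the one-body step for one prime gives the kernel structure `OB`. -/

namespace Vale.Agent.P042.H482

open Finset Vale.Agent.P042.H954

set_option linter.unusedSectionVars false

section
variable {ι : Type*} [Fintype ι] [DecidableEq ι] {V : ι → Type*} [∀ i, Fintype (V i)]
  [∀ i, DecidableEq (V i)] {w : ∀ i, V i → ℝ} {K : ∀ i, V i → V i → ℝ}

/-- row average of a kernel -/
noncomputable def rowm (w : ∀ i, V i → ℝ) (K : ∀ i, V i → V i → ℝ) (i : ι) (a : V i) : ℝ :=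
  ∑ b, w i b * K i a b

/-- column average of a kernel -/
noncomputable def colm (w : ∀ i, V i → ℝ) (K : ∀ i, V i → V i → ℝ) (i : ι) (b : V i) : ℝ :=
  ∑ a, w i a * K i a b

/-- doubly centred part of a kernel of mean zero -/
noncomputable def cen (w : ∀ i, V i → ℝ) (K : ∀ i, V i → V i → ℝ) (i : ι) (a b : V i) : ℝ :=
  K i a b - rowm w K i a - colm w K i b

/-- **954's one-body output gives 365's `OB`** -/
theorem OB_of (hw0 : ∀ i a, 0 ≤ w i a) (hw1 : ∀ i, ∑ a, w i a = 1) {R b : ι → ℝ}
    (hR : ∀ i, 0 < R i) (hop : ∀ i, OpB (w i) (w i) (K i) (R i))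
    (hmean : ∀ i, ∑ x, ∑ y, w i x * w i y * K i x y = 0)
    (hrow : ∀ i, nm (w i) (fun x => ∑ y, w i y * K i x y) ≤ b i)
    (hcol : ∀ i, nm (w i) (fun y => ∑ x, w i x * K i x y) ≤ b i) :
    H365.OB w K (fun _ => 0) (rowm w K) (colm w K) (cen w K) R (fun i => b i ^ 2 / R i) := by
  have hmean1 : ∀ i, ∑ a, w i a * rowm w K i a = 0 := by
    intro i
    rw [← hmean i]
    unfold rowm
    refine sum_congr rfl fun x _ => ?_
    rw [mul_sum]
    exact sum_congr rfl fun y _ => by ring
  have hmean2 : ∀ i, ∑ b, w i b * colm w K i b = 0 := by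
    intro i
    rw [← hmean i, sum_comm]
    unfold colm
    refine sum_congr rfl fun x _ => ?_
    rw [mul_sum]
    exact sum_congr rfl fun y _ => by ring
  have hb0 : ∀ i, 0 ≤ b i := fun i => (nm_nonneg _ _).trans (hrow i)
  refine
    { rho0 := fun i => (hR i).le
      e0 := fun i => div_nonneg (sq_nonneg _) (hR i).le
      split := fun i a b => by unfold cen; ring
      sl := ?_
      sr := ?_
      ul := hmean1
      ur := hmean2
      cn := fun i => by rw [abs_zero]; exact div_nonneg (sq_nonneg _) (hR i).le
      un := ?_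
      un' := ?_
      sn := ?_ }
  · intro i b
    have e1 : ∀ a, w i a * cen w K i a b
        = w i a * K i a b - w i a * rowm w K i a - w i a * colm w K i b := fun a => by
      unfold cen; ring
    rw [sum_congr rfl fun a _ => e1 a, sum_sub_distrib, sum_sub_distrib, hmean1, ← sum_mul, hw1]
    unfold colm
    ring
  · intro i a
    have e1 : ∀ b, w i b * cen w K i a b
        = w i b * K i a b - w i b * rowm w K i a - w i b * colm w K i b := fun b => by
      unfold cen; ring
    rw [sum_congr rfl fun b _ => e1 b, sum_sub_distrib, sum_sub_distrib, hmean2, ← sum_mul, hw1]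
    unfold rowm
    ring
  · intro i
    have h1 := hrow i
    have h2 : ∑ a, w i a * rowm w K i a ^ 2 ≤ b i ^ 2 := by
      rw [← nm_sq (hw0 i)]
      exact pow_le_pow_left₀ (nm_nonneg _ _) h1 2
    rw [mul_div_cancel₀ _ (hR i).ne']
    exact h2
  · intro i
    have h1 := hcol i
    have h2 : ∑ a, w i a * colm w K i a ^ 2 ≤ b i ^ 2 := by
      rw [← nm_sq (hw0 i)]
      exact pow_le_pow_left₀ (nm_nonneg _ _) h1 2
    rw [mul_div_cancel₀ _ (hR i).ne']
    exact h2
  · intro i f
    -- centred function
    have key : ∀ a, ∑ b, w i b * (cen w K i a b * f b)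
        = (∑ b, w i b * (K i a b * (f b - ∑ z, w i z * f z)))
          - ∑ x, w i x * ∑ b, w i b * (K i x b * (f b - ∑ z, w i z * f z)) := by
      intro a
      obtain ⟨m, hm⟩ : ∃ m, m = ∑ z, w i z * f z := ⟨_, rfl⟩
      rw [← hm]
      have e1 : ∑ b, w i b * (cen w K i a b * f b)
          = ∑ b, w i b * (K i a b * f b) - rowm w K i a * m
            - ∑ b, w i b * (colm w K i b * f b) := by
        rw [hm, mul_sum, ← sum_sub_distrib, ← sum_sub_distrib]
        refine sum_congr rfl fun b _ => ?_
        unfold cen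
        ring
      have e2 : ∑ b, w i b * (K i a b * (f b - m))
          = ∑ b, w i b * (K i a b * f b) - rowm w K i a * m := by
        unfold rowm
        rw [sum_mul, ← sum_sub_distrib]
        exact sum_congr rfl fun b _ => by ring
      have e3 : ∑ x, w i x * ∑ b, w i b * (K i x b * (f b - m))
          = ∑ b, w i b * (colm w K i b * f b) := by
        have e4 : ∀ x, w i x * ∑ b, w i b * (K i x b * (f b - m))
            = ∑ b, (w i b * (w i x * K i x b) * f b) - w i x * rowm w K i x * m := by
          intro x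
          unfold rowm
          rw [mul_sum, mul_sum, sum_mul, ← sum_sub_distrib]
          exact sum_congr rfl fun b _ => by ring
        rw [sum_congr rfl fun x _ => e4 x, sum_sub_distrib, ← sum_mul, hmean1, zero_mul, sub_zero,
          sum_comm]
        refine sum_congr rfl fun b _ => ?_
        unfold colm
        rw [← sum_mul, ← mul_sum]
        ring
      rw [e1, e2, e3]
    have h1 : nm (w i) (fun a => ∑ b, w i b * (cen w K i a b * f b)) ≤ R i * nm (w i) f := by
      have e1 : (fun a => ∑ b, w i b * (cen w K i a b * f b))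
          = fun a => (∑ b, w i b * (K i a b * (f b - ∑ z, w i z * f z)))
            - ∑ x, w i x * ∑ b, w i b * (K i x b * (f b - ∑ z, w i z * f z)) := funext key
      rw [e1]
      refine (nm_centre (hw0 i) (hw1 i) _).trans ?_
      refine ((hop i).apply (hw0 i) (hR i).le _).trans ?_
      exact mul_le_mul_of_nonneg_left (nm_centre (hw0 i) (hw1 i) f) (hR i).le
    rw [← nm_sq (hw0 i), ← nm_sq (hw0 i), ← mul_pow]
    exact pow_le_pow_left₀ (nm_nonneg _ _) h1 2

end

end Vale.Agent.P042.H482
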