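import Vale.Agent.P042.H482.MixEnd
import Vale.Agent.P042.H482.OBof
import Vale.Agent.P042.H954.PrimeS

/-! The local comparison of target S for the kernels of 954's one-prime step. -/

namespace Vale.Agent.P042.H482

open Finset Vale.Agent.P042.H779.Ab Vale.Agent.P042.H954
open Vale.Agent.P042.H779 (marg m1 IsProb)

set_option linter.unusedSectionVars false

section
variable {l c B eps : ℝ} {ι : Type*} [Fintype ι] [DecidableEq ι] {prm : ι → ℕ}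
  {V : ι → Type*} [∀ i, Fintype (V i)] [∀ i, DecidableEq (V i)] {w : ∀ i, V i → ℝ}

/-- sum of the reciprocals of distinct integers -/
lemma sum_inv_prm_le (hl : 1 ≤ l) (hinj : Function.Injective prm) (hpos : ∀ i, 1 ≤ prm i)
    (hhi : ∀ i, (prm i : ℝ) ≤ Real.exp (2 * l)) : ∑ i, ((prm i : ℝ))⁻¹ ≤ 3 * l := by
  obtain ⟨N, hN⟩ : ∃ N, N = ⌊Real.exp (2 * l)⌋₊ := ⟨_, rfl⟩
  have h1 : ∑ i, ((prm i : ℝ))⁻¹ = ∑ n ∈ univ.image prm, ((n : ℝ))⁻¹ := by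
    rw [sum_image fun i _ j _ h => hinj h]
  have h2 : univ.image prm ⊆ Finset.Icc 1 N := by
    intro n hn
    rw [mem_image] at hn
    obtain ⟨i, -, rfl⟩ := hn
    rw [Finset.mem_Icc, hN]
    exact ⟨hpos i, Nat.le_floor (hhi i)⟩
  have h3 : ∑ n ∈ univ.image prm, ((n : ℝ))⁻¹ ≤ ∑ n ∈ Finset.Icc 1 N, ((n : ℝ))⁻¹ :=
    sum_le_sum_of_subset_of_nonneg h2 fun n _ _ => by positivity
  have h4 : ∑ n ∈ Finset.Icc 1 N, ((n : ℝ))⁻¹ = ((harmonic N : ℚ) : ℝ) := by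
    rw [harmonic_eq_sum_Icc]
    push_cast
    rfl
  have h5 := harmonic_le_one_add_log N
  have h6 : Real.log (N : ℝ) ≤ 2 * l := by
    rcases Nat.eq_zero_or_pos N with h | h
    · rw [h]; simp; linarith
    · have h7 : (N : ℝ) ≤ Real.exp (2 * l) := by
        rw [hN]; exact Nat.floor_le (Real.exp_pos _).le
      have h8 := Real.log_le_log (by exact_mod_cast h) h7
      rwa [Real.log_exp] at h8
  rw [h1]
  linarith [h4 ▸ h3]

/-- **kernels of one prime, all primes at once** -/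
theorem ker_S (hl : 200 ≤ l) (hc : 0 < c) (hcl : 32 * c ^ 3 ≤ l) (hinj : Function.Injective prm)
    (hlo : ∀ i, l ^ 20 ≤ (prm i : ℝ))
    (hhi : ∀ i, (prm i : ℝ) ≤ Real.exp (2 * l) / l ^ 20)
    {k : ∀ i, V i → V i → ℝ} (hSD : ∀ i, SD (w i) (w i) (k i) (c / √(prm i)) B eps) :
    ∃ (K : ∀ i, V i → V i → ℝ) (e e' : ∀ i, V i → ℝ) (u u' : ∀ i, V i → ℝ)
      (s0 : ∀ i, V i → V i → ℝ) (rho ee : ι → ℝ),
      (∀ i x y, 1 + K i x y = (1 + e i x) * (1 + k i x y) * (1 + e' i y)) ∧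
      (∀ i x, 0 < 1 + e i x) ∧ (∀ i y, 0 < 1 + e' i y) ∧
      (∀ i x, |e i x| ≤ 4) ∧ (∀ i y, |e' i y| ≤ 4) ∧
      (∀ i, nm (fun _ : V i => (Fintype.card (V i) : ℝ)⁻¹) (e i) ≤ 16 * (c / √(prm i)) * √eps) ∧
      (∀ i, nm (fun _ : V i => (Fintype.card (V i) : ℝ)⁻¹) (e' i) ≤ 16 * (c / √(prm i)) * √eps) ∧
      (∀ i, OpB (w i) (w i) (K i) (48 * (c / √(prm i)))) ∧
      H365.OB w K (fun _ => 0) u u' s0 rho ee ∧ (∀ i, rho i ≤ 48 * c / √(prm i)) ∧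
      ∑ i, ee i ≤ 1 / 32 := by
  have h0 : 0 < l := by linarith
  have hp0 : ∀ i, 0 < (prm i : ℝ) := fun i => lt_of_lt_of_le (pow_pos h0 20) (hlo i)
  have hsq : ∀ i, 0 < √(prm i : ℝ) := fun i => Real.sqrt_pos.mpr (hp0 i)
  choose K e e' h1 h2 h3 h4 h5 h6 h7 h8 h9 h10 h11 using fun i => prime_S (hSD i)
  have hR : ∀ i, 0 < 48 * (c / √(prm i)) := fun i => by have := hsq i; positivity
  have hOB := OB_of (w := w) (K := K) (R := fun i => 48 * (c / √(prm i)))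
    (b := fun i => 32 * (c / √(prm i)) ^ 2 * √eps) (fun i => (hSD i).hν) (fun i => (hSD i).sν)
    hR h8 h9 h10 h11
  refine ⟨K, e, e', _, _, _, _, _, h1, h2, h3, h4, h5, h6, h7, h8, hOB, fun i => ?_, ?_⟩
  · rw [mul_div_assoc]
  · have hterm : ∀ i, (32 * (c / √(prm i)) ^ 2 * √eps) ^ 2 / (48 * (c / √(prm i)))
        ≤ (c ^ 3 / l ^ 10) * ((prm i : ℝ))⁻¹ := by
      intro i
      have g1 := hsq i
      have g2 : √(prm i : ℝ) ^ 2 = prm i := Real.sq_sqrt (hp0 i).le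
      have g3 : √eps ^ 2 = eps := Real.sq_sqrt (hSD i).ε0
      have g4 := (hSD i).ε1
      have g5 := (hSD i).ε0
      have e1 : (32 * (c / √(prm i)) ^ 2 * √eps) ^ 2 / (48 * (c / √(prm i)))
          = (64 / 3) * c ^ 3 * eps * (√(prm i))⁻¹ * ((prm i : ℝ))⁻¹ := by
        have e2 : (32 * (c / √(prm i)) ^ 2 * √eps) ^ 2
            = 1024 * (c ^ 4 / √(prm i) ^ 4) * √eps ^ 2 := by
          rw [mul_pow, mul_pow, div_pow, div_pow]; ring
        rw [e2, g3]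
        have e3 : √(prm i : ℝ) ^ 4 = √(prm i) * √(prm i) * prm i := by
          have : √(prm i : ℝ) ^ 4 = √(prm i) * √(prm i) * √(prm i) ^ 2 := by ring
          rw [this, g2]
        rw [e3]
        have := hp0 i
        field_simp
        ring
      rw [e1]
      have g6 : (√(prm i : ℝ))⁻¹ ≤ (l ^ 10)⁻¹ := inv_anti₀ (pow_pos h0 10) (sqrt_ge hlo i)
      have g7 : 0 ≤ ((prm i : ℝ))⁻¹ := (inv_pos.mpr (hp0 i)).le
      refine mul_le_mul_of_nonneg_right ?_ g7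
      have g8 : (64 / 3) * c ^ 3 * eps ≤ c ^ 3 := by
        have : 0 ≤ c ^ 3 := by positivity
        nlinarith
      calc (64 / 3) * c ^ 3 * eps * (√(prm i))⁻¹ ≤ c ^ 3 * (l ^ 10)⁻¹ :=
            mul_le_mul g8 g6 (inv_pos.mpr g1).le (by positivity)
        _ = c ^ 3 / l ^ 10 := by rw [div_eq_mul_inv]
    refine (sum_le_sum fun i _ => hterm i).trans ?_
    rw [← mul_sum]
    have g1 := sum_inv_prm_le (l := l) (by linarith) hinj (fun i => by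
      have : (1 : ℝ) ≤ prm i := (one_le_pow₀ (by linarith)).trans (hlo i)
      exact_mod_cast this) (fun i => (hhi i).trans (div_le_self (Real.exp_pos _).le
        (one_le_pow₀ (by linarith))))
    have g2 := mul_le_mul_of_nonneg_left g1 (show 0 ≤ c ^ 3 / l ^ 10 by positivity)
    refine g2.trans ?_
    rw [div_mul_eq_mul_div, div_le_iff₀ (by positivity)]
    have g3 : l ^ 10 = l * l * l ^ 8 := by ring
    have g4 : (3 : ℝ) ≤ l ^ 8 := by
      have : l ≤ l ^ 8 := le_self_pow₀ (by linarith) (by norm_num)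
      linarith
    have g5 : l * l * 3 ≤ l * l * l ^ 8 := mul_le_mul_of_nonneg_left g4 (by positivity)
    have g6 : 32 * c ^ 3 * l ≤ l * l := mul_le_mul_of_nonneg_right hcl h0.le
    rw [g3]
    linarith

end

/-- **The local comparison of target S**, kernels of 954's one-prime step: the tilts and the
kernels are chosen first, then the comparison holds for all pairs of laws. -/
theorem Slocal_ker (c A lam0 th th1 a0 : ℝ) (hc : 0 < c) (hA : 0 ≤ A) (hlam0 : 0 < lam0)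
    (hth : 0 < th) (hth1 : 0 < th1) (ha0 : 0 ≤ a0) :
    ∃ l0 : ℝ, ∀ l ≥ l0, ∀ (ι : Type) [Fintype ι] [DecidableEq ι] (prm : ι → ℕ)
      (V : ι → Type) [∀ i, Fintype (V i)] [∀ i, DecidableEq (V i)] (w w2 : ∀ i, V i → ℝ)
      (D : ℕ) (k : ∀ i, V i → V i → ℝ) (B eps : ℝ),
      Function.Injective prm →
      (∀ i, l ^ 20 ≤ (prm i : ℝ) ∧ (prm i : ℝ) ≤ Real.exp (2 * l) / l ^ 20) →
      th * Real.exp l / l ≤ D →
      (∀ i b, w i b = 0 ∨ Real.exp (-(3 * l)) ≤ w i b) →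
      (∀ i a, 0 ≤ w2 i a) → (∀ i, ∑ a, w2 i a = 1) →
      (∀ i b, w i b = 0 ∨ (0 < w2 i b ∧ w2 i b ≤ Real.exp A * w i b)) →
      (∀ i, SD (w i) (w i) (k i) (c / √(prm i)) B eps) →
      ∃ (K : ∀ i, V i → V i → ℝ) (e e' : ∀ i, V i → ℝ),
        (∀ i x y, 1 + K i x y = (1 + e i x) * (1 + k i x y) * (1 + e' i y)) ∧
        (∀ i x, 0 < 1 + e i x) ∧ (∀ i y, 0 < 1 + e' i y) ∧
        (∀ i x, |e i x| ≤ 4) ∧ (∀ i y, |e' i y| ≤ 4) ∧
        (∀ i, nm (fun _ : V i => (Fintype.card (V i) : ℝ)⁻¹) (e i)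
          ≤ 16 * (c / √(prm i)) * √eps) ∧
        (∀ i, nm (fun _ : V i => (Fintype.card (V i) : ℝ)⁻¹) (e' i)
          ≤ 16 * (c / √(prm i)) * √eps) ∧
        (∀ i, OpB (w i) (w i) (K i) (48 * (c / √(prm i)))) ∧
        ∀ μ μ' : (∀ i, V i) → ℝ, Ref w μ → Ref w μ' →
          (∀ P : Finset ι, P.card ≤ D → ∀ x, Real.exp (-(th1 * Real.exp l / l)) ≤ gdw w μ P x →
            (lam0 / l) * ∑ j ∈ univ \ P, Di w (gdw w μ) j P x
              ≤ (1 / l ^ 16) * P.card + a0 - Real.log (gdw w2 μ P x)) →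
          (∀ P : Finset ι, P.card ≤ D → ∀ x, Real.exp (-(th1 * Real.exp l / l)) ≤ gdw w μ' P x →
            (lam0 / l) * ∑ j ∈ univ \ P, Di w (gdw w μ') j P x
              ≤ (1 / l ^ 16) * P.card + a0 - Real.log (gdw w2 μ' P x)) →
          ∀ 𝓓 : Finset (Finset ι), ∅ ∈ 𝓓 → (∀ B ∈ 𝓓, ∀ C ⊆ B, C ∈ 𝓓) →
            (∀ B ∈ 𝓓, 8 * B.card ≤ D) → |∑ B ∈ 𝓓, pr μ μ' K B - 1| ≤ 3 / 4 := by
  obtain ⟨l0, hl0⟩ := Slocal_mix (48 * c) A lam0 th th1 a0 (by positivity) hA hlam0 hth hth1 ha0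
  refine ⟨max l0 (200 + 32 * c ^ 3), fun l hl ι _ _ prm V _ _ w w2 D k B eps hinj hp hD hat h20
    h21 hw2 hSD => ?_⟩
  have h1 := (le_max_right _ _).trans hl
  have h2 : 0 ≤ 32 * c ^ 3 := by positivity
  obtain ⟨K, e, e', u, u', s0, rho, ee, g1, g2, g3, g4, g5, g6, g7, g8, g9, g10, g11⟩ :=
    ker_S (by linarith) hc (by linarith) hinj (fun i => (hp i).1) (fun i => (hp i).2) hSD
  refine ⟨K, e, e', g1, g2, g3, g4, g5, g6, g7, g8, fun μ μ' H H' hQ hQ' 𝓓 hD0 hDc hDs => ?_⟩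
  exact hl0 l ((le_max_left _ _).trans hl) ι prm V w w2 μ μ' D K _ u u' s0 rho ee 𝓓 hinj hp hD
    H H' hat h20 h21 hw2 hQ hQ' g9 g10 g11 hD0 hDc hDs

end Vale.Agent.P042.H482
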