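import Vale.Agent.P042.H779.MuBase

/-! The law-level energy increment inequality with pins gives the pinned inequalities (P), (H2). -/

namespace Vale.Agent.P042.H482

open Finset Vale.Agent.P042.H779 Vale.Agent.P042.H779.Ab

set_option linter.unusedSectionVars false

section
variable {ι : Type*} [Fintype ι] [DecidableEq ι] {V : ι → Type*} [∀ i, Fintype (V i)]
  [∀ i, DecidableEq (V i)] {w : ∀ i, V i → ℝ} {μ : (∀ i, V i) → ℝ}

/-- the `i`-marginal of the law `f μ^{x_Q}` -/
noncomputable def mi (μ : (∀ i, V i) → ℝ) (Q : Finset ι) (f : (∀ i, V i) → ℝ) (i : ι)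
    (x : ∀ i, V i) (b : V i) : ℝ :=
  ce μ Q (fun y => if y i = b then f y else 0) x

/-- the law-level energy increment inequality, with pins -/
def EIp (w : ∀ i, V i → ℝ) (μ : (∀ i, V i) → ℝ) (ok' : Finset ι → Prop) (lam gL a δ : ℝ) : Prop :=
  ∀ Q, ok' Q → ∀ x, δ ≤ marg μ Q x → ∀ f : (∀ i, V i) → ℝ, (∀ y, 0 ≤ f y) → (∀ y, f y ≤ 1 / δ) →
    ce μ Q f x = 1 →
    lam * ∑ i ∈ univ \ Q, ∑ b, w i b * phi (mi μ Q f i x b / w i b)
      ≤ ce μ Q (fun y => f y * Real.log (f y)) x + gL * Q.card + a - Real.log (gdw w μ Q x)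

lemma marg_le_one (h : IsProb μ) (R : Finset ι) (x : ∀ i, V i) : marg μ R x ≤ 1 := by
  rw [← marg_empty h x]
  exact marg_anti h (empty_subset R) x

lemma ce_one {P : Finset ι} {x : ∀ i, V i} (hx : 0 < marg μ P x) : ce μ P (fun _ => 1) x = 1 := by
  unfold ce
  simp only [mul_one]
  exact div_self hx.ne'

lemma mi_one {P : Finset ι} {i : ι} (hi : i ∉ P) (x : ∀ i, V i) (b : V i) :
    mi μ P (fun _ => 1) i x b = marg μ (insert i P) (Function.update x i b) / marg μ P x := by
  unfold mi ce
  congr 1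
  unfold marg
  refine sum_congr rfl fun y _ => ?_
  have key : (∀ j ∈ insert i P, y j = Function.update x i b j) ↔
      ((∀ j ∈ P, y j = x j) ∧ y i = b) := by
    constructor
    · intro h
      refine ⟨fun j hj => ?_, by simpa using h i (mem_insert_self i P)⟩
      have hji : j ≠ i := fun h => hi (h ▸ hj)
      have := h j (mem_insert_of_mem hj)
      simpa [hji] using this
    · rintro ⟨h2, h1⟩ j hj
      rcases mem_insert.mp hj with rfl | hj
      · simpa using h1
      · have hji : j ≠ i := fun h => hi (h ▸ hj)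
        simpa [hji] using h2 j hj
  beta_reduce
  by_cases h1 : ∀ j ∈ P, y j = x j
  · by_cases h2 : y i = b
    · rw [if_pos h1, if_pos h2, if_pos (key.mpr ⟨h1, h2⟩), mul_one]
    · rw [if_pos h1, if_neg h2, if_neg (fun hc => h2 (key.mp hc).2), mul_zero]
  · rw [if_neg h1, if_neg (fun hc => h1 (key.mp hc).1)]

lemma Di_eq (H : Ref w μ) {P : Finset ι} {i : ι} (hi : i ∉ P) {x : ∀ i, V i}
    (hx : 0 < marg μ P x) :
    Di w (gdw w μ) i P x = ∑ b, w i b * phi (mi μ P (fun _ => 1) i x b / w i b) := by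
  unfold Di
  refine sum_congr rfl fun b _ => ?_
  by_cases hw : w i b = 0
  · rw [hw, zero_mul, zero_mul]
  congr 2
  rw [mi_one hi]
  unfold Ab.rt
  rw [H.famT.g_upd P i hi x b]
  have hW := prod_w_pos_of_marg H.prob H.w_nonneg H.ac hx
  unfold gdw
  rw [prod_insert hi]
  have h3 : ∏ j ∈ P, w j (Function.update x i b j) = ∏ j ∈ P, w j (x j) := by
    refine prod_congr rfl fun j hj => ?_
    have : j ≠ i := fun h => hi (h ▸ hj)
    simp [this]
  rw [h3, Function.update_self]
  have h4 := hx.ne'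
  have h5 := hW.ne'
  field_simp

/-- the averaged inequality (P): the case `f = 1` -/
theorem hP_of_EIp (H : Ref w μ) {ok' : Finset ι → Prop} {lam gL a δ : ℝ} (hδ : 0 < δ)
    (hE : EIp w μ ok' lam gL a δ) (P : Finset ι) (hP : ok' P) (x : ∀ i, V i)
    (hx : δ ≤ marg μ P x) :
    lam * ∑ j ∈ univ \ P, Di w (gdw w μ) j P x ≤ gL * P.card + a - Real.log (gdw w μ P x) := by
  have hx0 : 0 < marg μ P x := lt_of_lt_of_le hδ hx
  have h1 : (1 : ℝ) ≤ 1 / δ := by
    rw [le_div_iff₀ hδ, one_mul]
    exact hx.trans (marg_le_one H.prob P x)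
  have h2 := hE P hP x hx (fun _ => 1) (fun _ => zero_le_one) (fun _ => h1) (ce_one hx0)
  have h3 : ce μ P (fun _ => (1 : ℝ) * Real.log 1) x = 0 := by
    unfold ce
    simp
  rw [h3, zero_add] at h2
  rw [sum_congr rfl fun j hj => Di_eq H (i := j) (by
    have := mem_sdiff.mp hj
    exact this.2) hx0]
  exact h2

/-- `y` on `s`, `x` elsewhere -/
def glue (s : Finset ι) (x y : ∀ i, V i) : ∀ i, V i := fun j => if j ∈ s then y j else x j

/-- the tilt which turns `μ^{x_Q}` on the coordinates `s` into `μ^{x_R}` -/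
noncomputable def tlt (μ : (∀ i, V i) → ℝ) (Q R s : Finset ι) (x y : ∀ i, V i) : ℝ :=
  marg μ (R ∪ s) (glue s x y) / marg μ (Q ∪ s) (glue s x y) * (marg μ Q x / marg μ R x)

lemma glue_eq {s : Finset ι} {x y y' : ∀ i, V i} (h : ∀ i ∈ s, y i = y' i) :
    glue s x y = glue s x y' := by
  funext j
  unfold glue
  by_cases hj : j ∈ s
  · rw [if_pos hj, if_pos hj, h j hj]
  · rw [if_neg hj, if_neg hj]

lemma glue_iff {s R : Finset ι} (hs : Disjoint s R) (x y y' : ∀ i, V i) :
    (∀ i ∈ R ∪ s, y' i = glue s x y i) ↔ ((∀ i ∈ R, y' i = x i) ∧ ∀ i ∈ s, y' i = y i) := by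
  constructor
  · intro h
    constructor
    · intro i hi
      have h1 := h i (mem_union_left _ hi)
      unfold glue at h1
      rwa [if_neg (fun hc => disjoint_left.mp hs hc hi)] at h1
    · intro i hi
      have h1 := h i (mem_union_right _ hi)
      unfold glue at h1
      rwa [if_pos hi] at h1
  · rintro ⟨h1, h2⟩ i hi
    unfold glue
    by_cases his : i ∈ s
    · rw [if_pos his, h2 i his]
    · rw [if_neg his]
      rcases mem_union.mp hi with h | h
      · exact h1 i h
      · exact absurd h his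

/-- the change of measure -/
theorem ce_tilt (h : IsProb μ) {Q R s : Finset ι} (hQR : Q ⊆ R) (hs : Disjoint s R)
    {x : ∀ i, V i} (hx : 0 < marg μ R x) {K : (∀ i, V i) → ℝ} (hK : Loc s K) :
    ce μ Q (fun y => tlt μ Q R s x y * K y) x = ce μ R K x := by
  have hQx : 0 < marg μ Q x := lt_of_lt_of_le hx (marg_anti h hQR x)
  have hsQ : Disjoint s Q := disjoint_of_subset_right hQR hs
  have key : (∑ y, if (∀ i ∈ Q, y i = x i) then μ y * (tlt μ Q R s x y * K y) else 0)
      = (marg μ Q x / marg μ R x) * ∑ y, if (∀ i ∈ R, y i = x i) then μ y * K y else 0 := by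
    have e1 : ∀ y, (if (∀ i ∈ Q, y i = x i) then μ y * (tlt μ Q R s x y * K y) else 0)
        = ∑ y', if ((∀ i ∈ Q, y i = x i) ∧ (∀ i ∈ R, y' i = x i) ∧ ∀ i ∈ s, y' i = y i) then
            μ y * (μ y' * K y / marg μ (Q ∪ s) (glue s x y) * (marg μ Q x / marg μ R x)) else 0 := by
      intro y
      by_cases hA : ∀ i ∈ Q, y i = x i
      · rw [if_pos hA]
        have e2 : marg μ (R ∪ s) (glue s x y)
            = ∑ y', if ((∀ i ∈ R, y' i = x i) ∧ ∀ i ∈ s, y' i = y i) then μ y' else 0 := by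
          unfold marg
          refine sum_congr rfl fun y' _ => ?_
          simp only [glue_iff hs x y y']
        unfold tlt
        rw [e2, sum_div, sum_mul, sum_mul, mul_sum]
        refine sum_congr rfl fun y' _ => ?_
        by_cases hB : (∀ i ∈ R, y' i = x i) ∧ ∀ i ∈ s, y' i = y i
        · rw [if_pos hB, if_pos ⟨hA, hB⟩]
          ring
        · rw [if_neg hB, if_neg (fun hc => hB hc.2)]
          ring
      · rw [if_neg hA]
        symm
        refine sum_eq_zero fun y' _ => ?_
        rw [if_neg (fun hc => hA hc.1)]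
    rw [sum_congr rfl fun y _ => e1 y, sum_comm, mul_sum]
    refine sum_congr rfl fun y' _ => ?_
    by_cases hB : ∀ i ∈ R, y' i = x i
    · rw [if_pos hB]
      have e3 : ∀ y, (if ((∀ i ∈ Q, y i = x i) ∧ (∀ i ∈ R, y' i = x i) ∧ ∀ i ∈ s, y' i = y i) then
            μ y * (μ y' * K y / marg μ (Q ∪ s) (glue s x y) * (marg μ Q x / marg μ R x)) else 0)
          = (if (∀ i ∈ Q ∪ s, y i = glue s x y' i) then μ y else 0) *
            (μ y' * K y' / marg μ (Q ∪ s) (glue s x y') * (marg μ Q x / marg μ R x)) := by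
        intro y
        by_cases hC : (∀ i ∈ Q, y i = x i) ∧ ∀ i ∈ s, y i = y' i
        · have hC' : ∀ i ∈ s, y' i = y i := fun i hi => (hC.2 i hi).symm
          rw [if_pos ⟨hC.1, hB, hC'⟩, if_pos ((glue_iff hsQ x y' y).mpr hC), glue_eq hC.2,
            hK y y' hC.2]
        · rw [if_neg (fun hc => hC ⟨hc.1, fun i hi => (hc.2.2 i hi).symm⟩),
            if_neg (fun hc => hC ((glue_iff hsQ x y' y).mp hc)), zero_mul]
      rw [sum_congr rfl fun y _ => e3 y, ← sum_mul]
      have e4 : (∑ y, if (∀ i ∈ Q ∪ s, y i = glue s x y' i) then μ y else 0)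
          = marg μ (Q ∪ s) (glue s x y') := rfl
      rw [e4]
      rcases (h.nonneg y').eq_or_lt with hy | hy
      · rw [← hy]
        simp
      · have h5 : μ y' ≤ marg μ (Q ∪ s) (glue s x y') := by
          have h6 : marg μ (Q ∪ s) (glue s x y') = marg μ (Q ∪ s) y' := by
            refine marg_congr _ fun i hi => ?_
            unfold glue
            by_cases his : i ∈ s
            · rw [if_pos his]
            · rw [if_neg his]
              rcases mem_union.mp hi with h7 | h7
              · exact (hB i (hQR h7)).symm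
              · exact absurd h7 his
          rw [h6]
          exact marg_ge h _ _
        have h7 : marg μ (Q ∪ s) (glue s x y') ≠ 0 := (lt_of_lt_of_le hy h5).ne'
        field_simp
    · rw [if_neg hB, mul_zero]
      refine sum_eq_zero fun y _ => ?_
      rw [if_neg (fun hc => hB hc.2.1)]
  unfold ce
  rw [key]
  have h1 := hQx.ne'
  have h2 := hx.ne'
  field_simp

/-- the logarithm of the tilt on the cell of `x_R` -/
lemma log_tlt (H : Ref w μ) {Q R s : Finset ι} (hQR : Q ⊆ R) (hs : Disjoint s R)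
    {x y : ∀ i, V i} (hy : 0 < μ y) (hyx : ∀ i ∈ R, y i = x i) :
    Real.log (tlt μ Q R s x y)
      = Real.log (gdw w μ (R ∪ s) y / gdw w μ R y) - Real.log (gdw w μ (Q ∪ s) y / gdw w μ Q y) := by
  have hsQ : Disjoint s Q := disjoint_of_subset_right hQR hs
  have hg : ∀ P : Finset ι, 0 < marg μ P y := fun P => lt_of_lt_of_le hy (marg_ge H.prob P y)
  have hW : ∀ P : Finset ι, 0 < ∏ i ∈ P, w i (y i) := fun P =>
    prod_w_pos_of_marg H.prob H.w_nonneg H.ac (hg P)
  have e1 : tlt μ Q R s x y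
      = (marg μ (R ∪ s) y / marg μ (Q ∪ s) y) * (marg μ Q y / marg μ R y) := by
    unfold tlt
    have a1 : marg μ (R ∪ s) (glue s x y) = marg μ (R ∪ s) y := by
      refine marg_congr _ fun i hi => ?_
      unfold glue
      by_cases his : i ∈ s
      · rw [if_pos his]
      · rw [if_neg his]
        rcases mem_union.mp hi with h7 | h7
        · exact (hyx i h7).symm
        · exact absurd h7 his
    have a2 : marg μ (Q ∪ s) (glue s x y) = marg μ (Q ∪ s) y := by
      refine marg_congr _ fun i hi => ?_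
      unfold glue
      by_cases his : i ∈ s
      · rw [if_pos his]
      · rw [if_neg his]
        rcases mem_union.mp hi with h7 | h7
        · exact (hyx i (hQR h7)).symm
        · exact absurd h7 his
    have a3 : marg μ Q x = marg μ Q y := marg_congr _ fun i hi => (hyx i (hQR hi)).symm
    have a4 : marg μ R x = marg μ R y := marg_congr _ fun i hi => (hyx i hi).symm
    rw [a1, a2, a3, a4]
  have e2 : gdw w μ (R ∪ s) y / gdw w μ R y
      = marg μ (R ∪ s) y / (marg μ R y * ∏ i ∈ s, w i (y i)) := by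
    unfold gdw
    rw [prod_union hs.symm]
    have := (hW R).ne'
    have := (hW s).ne'
    have := (hg R).ne'
    field_simp
  have e3 : gdw w μ (Q ∪ s) y / gdw w μ Q y
      = marg μ (Q ∪ s) y / (marg μ Q y * ∏ i ∈ s, w i (y i)) := by
    unfold gdw
    rw [prod_union hsQ.symm]
    have := (hW Q).ne'
    have := (hW s).ne'
    have := (hg Q).ne'
    field_simp
  have hR := hg R
  have hQ := hg Q
  have hRs := hg (R ∪ s)
  have hQs := hg (Q ∪ s)
  have hWs := hW s
  rw [e1, e2, e3, ← Real.log_div (by positivity) (by positivity)]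
  congr 1
  field_simp

lemma ce_congr (h : IsProb μ) {P : Finset ι} {f f' : (∀ i, V i) → ℝ} {x : ∀ i, V i}
    (hff : ∀ y, 0 < μ y → (∀ i ∈ P, y i = x i) → f y = f' y) : ce μ P f x = ce μ P f' x := by
  unfold ce
  congr 1
  refine sum_congr rfl fun y _ => ?_
  by_cases hA : ∀ i ∈ P, y i = x i
  · rw [if_pos hA, if_pos hA]
    rcases (h.nonneg y).eq_or_lt with hy | hy
    · rw [← hy, zero_mul, zero_mul]
    · rw [hff y hy hA]
  · rw [if_neg hA, if_neg hA]

/-- the inequality (H2): pins `Q`, comparison law `μ^{x_R}` on the coordinates `s` -/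
theorem hQ_of_EIp (H : Ref w μ) {ok' : Finset ι → Prop} {lam gL a δ : ℝ} (hδ : 0 < δ)
    (hlam : 0 ≤ lam) (hE : EIp w μ ok' lam gL a δ) {Q R s : Finset ι} (hQ : ok' Q) (hQR : Q ⊆ R)
    (hs : Disjoint s R) (x : ∀ i, V i) (hx : δ ≤ marg μ R x) :
    lam * ∑ i ∈ s, Di w (gdw w μ) i R x ≤ gL * Q.card + a - Real.log (gdw w μ Q x)
      + ce μ R (fun y => Real.log (gdw w μ (R ∪ s) y / gdw w μ R y)
          - Real.log (gdw w μ (Q ∪ s) y / gdw w μ Q y)) x := by
  have hxR : 0 < marg μ R x := lt_of_lt_of_le hδ hx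
  have hxQ' : marg μ R x ≤ marg μ Q x := marg_anti H.prob hQR x
  have hxQ : 0 < marg μ Q x := lt_of_lt_of_le hxR hxQ'
  have hsQ : Disjoint s Q := disjoint_of_subset_right hQR hs
  have hloc : Loc s (fun y => tlt μ Q R s x y) := by
    intro y y' hyy
    beta_reduce
    unfold tlt
    rw [glue_eq hyy]
  -- bounds of the tilt
  have hf0 : ∀ y, 0 ≤ tlt μ Q R s x y := fun y => by
    unfold tlt
    exact mul_nonneg (div_nonneg (marg_nonneg H.prob _ _) (marg_nonneg H.prob _ _))
      (div_nonneg hxQ.le hxR.le)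
  have hf1 : ∀ y, tlt μ Q R s x y ≤ 1 / δ := fun y => by
    unfold tlt
    have h1 : marg μ (R ∪ s) (glue s x y) / marg μ (Q ∪ s) (glue s x y) ≤ 1 :=
      div_le_one_of_le₀ (marg_anti H.prob (union_subset_union_left hQR) _)
        (marg_nonneg H.prob _ _)
    have h2 : marg μ Q x / marg μ R x ≤ 1 / δ :=
      div_le_div₀ zero_le_one (marg_le_one H.prob Q x) hδ hx
    calc _ ≤ 1 * (1 / δ) := mul_le_mul h1 h2 (div_nonneg hxQ.le hxR.le) zero_le_one
      _ = 1 / δ := one_mul _
  have hf2 : ce μ Q (fun y => tlt μ Q R s x y) x = 1 := by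
    have h1 := ce_tilt H.prob hQR hs hxR (K := fun _ => 1) (fun _ _ _ => rfl)
    simp only [mul_one] at h1
    rw [h1]
    exact ce_one hxR
  have h2 := hE Q hQ x (hx.trans hxQ') _ hf0 hf1 hf2
  -- entropy
  have h3 : ce μ Q (fun y => tlt μ Q R s x y * Real.log (tlt μ Q R s x y)) x
      = ce μ R (fun y => Real.log (gdw w μ (R ∪ s) y / gdw w μ R y)
          - Real.log (gdw w μ (Q ∪ s) y / gdw w μ Q y)) x := by
    rw [ce_tilt H.prob hQR hs hxR (K := fun y => Real.log (tlt μ Q R s x y))
      (fun y y' hyy => by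
        beta_reduce
        have := hloc y y' hyy
        beta_reduce at this
        rw [this])]
    exact ce_congr H.prob fun y hy hyx => log_tlt H hQR hs hy hyx
  -- marginals
  have h4 : ∀ i ∈ s, ∑ b, w i b * phi (mi μ Q (fun y => tlt μ Q R s x y) i x b / w i b)
      = Di w (gdw w μ) i R x := by
    intro i hi
    have hiR : i ∉ R := fun hc => disjoint_left.mp hs hi hc
    rw [Di_eq H hiR hxR]
    refine sum_congr rfl fun b _ => ?_
    congr 3
    unfold mi
    have h5 := ce_tilt H.prob hQR hs hxR (K := fun y => if y i = b then (1 : ℝ) else 0)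
      (fun y y' hyy => by
        beta_reduce
        rw [hyy i hi])
    rw [← h5]
    congr 1
    funext y
    split_ifs
    · rw [mul_one]
    · rw [mul_zero]
  have hsub : s ⊆ univ \ Q := fun i hi => mem_sdiff.mpr ⟨mem_univ _, fun hc =>
    disjoint_left.mp hsQ hi hc⟩
  have h6 : ∑ i ∈ s, Di w (gdw w μ) i R x
      ≤ ∑ i ∈ univ \ Q, ∑ b, w i b * phi (mi μ Q (fun y => tlt μ Q R s x y) i x b / w i b) := by
    rw [← sum_congr rfl h4]
    refine sum_le_sum_of_subset_of_nonneg hsub fun i _ _ => sum_nonneg fun b _ => ?_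
    refine mul_nonneg (H.w_nonneg i b) (phi_nonneg (div_nonneg ?_ (H.w_nonneg i b)))
    unfold mi ce
    refine div_nonneg (sum_nonneg fun y _ => ?_) hxQ.le
    by_cases h8 : ∀ j ∈ Q, y j = x j
    · rw [if_pos h8]
      refine mul_nonneg (H.prob.nonneg y) ?_
      beta_reduce
      by_cases h9 : y i = b
      · rw [if_pos h9]
        exact hf0 y
      · rw [if_neg h9]
    · rw [if_neg h8]
  have h7 := mul_le_mul_of_nonneg_left h6 hlam
  rw [h3] at h2
  linarith

end

end Vale.Agent.P042.H482
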