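import Vale.Agent.P042.H482.Mix

/-! The local comparison with pins on thick cells only. -/

namespace Vale.Agent.P042.H482

open Finset Vale.Agent.P042.H779.Ab
open Vale.Agent.P042.H779 (marg m1 IsProb marg_nonneg)

set_option linter.unusedSectionVars false

lemma mix_arith {E S S1 S2 S3 S4 : ℝ} (hE0 : 0 < E) (hE100 : E ≤ 1 / 100)
    (key : (1 - E) ^ 2 * S = S1 - E * S2 - E * S3 + E ^ 2 * S4)
    (s1 : |S1 - 1| ≤ 1 / 2) (s2 : |S2 - 1| ≤ 1 / 2) (s3 : |S3 - 1| ≤ 1 / 2)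
    (s4 : |S4 - 1| ≤ 1 / 2) : |S - 1| ≤ 3 / 4 := by
  rw [abs_le] at s1 s2 s3 s4 ⊢
  have a1 : E * S2 ≤ E * (3 / 2) := mul_le_mul_of_nonneg_left (by linarith) hE0.le
  have a2 : E * S3 ≤ E * (3 / 2) := mul_le_mul_of_nonneg_left (by linarith) hE0.le
  have a3 : 0 ≤ E * S2 := mul_nonneg hE0.le (by linarith)
  have a4 : 0 ≤ E * S3 := mul_nonneg hE0.le (by linarith)
  have a5 : E ^ 2 ≤ E * (1 / 100) := by rw [sq]; exact mul_le_mul_of_nonneg_left hE100 hE0.le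
  have a6 : E ^ 2 * S4 ≤ E ^ 2 * (3 / 2) := mul_le_mul_of_nonneg_left (by linarith) (sq_nonneg E)
  have a7 : 0 ≤ E ^ 2 * S4 := mul_nonneg (sq_nonneg E) (by linarith)
  have b1 : (1 - E) ^ 2 * S ≤ 1.52 := by linarith
  have b2 : 0.46 ≤ (1 - E) ^ 2 * S := by linarith
  have b3 : 0.98 ≤ (1 - E) ^ 2 := by nlinarith
  have b4 : (1 - E) ^ 2 ≤ 1 := by nlinarith
  have hSpos : 0 < S := by
    by_contra h
    push Not at h
    have := mul_nonpos_of_nonneg_of_nonpos (sq_nonneg (1 - E)) h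
    linarith
  have b5 : (1 - E) ^ 2 * S ≤ 1 * S := mul_le_mul_of_nonneg_right b4 hSpos.le
  have b6 : 0.98 * S ≤ (1 - E) ^ 2 * S := mul_le_mul_of_nonneg_right b3 hSpos.le
  constructor <;> linarith

section
variable {l C1 A lam0 th th1 a0 B1 : ℝ} {ι : Type*} [Fintype ι] [DecidableEq ι] {prm : ι → ℕ}
  {V : ι → Type*} [∀ i, Fintype (V i)] [∀ i, DecidableEq (V i)] {w w2 : ∀ i, V i → ℝ}
  {μ μ' : (∀ i, V i) → ℝ}

/-- exponent of the thin cells -/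
noncomputable def eS (l th1 : ℝ) : ℝ := Real.exp (-(th1 * Real.exp l / (2 * l)))

lemma eS_sq (l th1 : ℝ) : eS l th1 ^ 2 = Real.exp (-(th1 * Real.exp l / l)) := by
  unfold eS
  rw [← Real.exp_nat_mul]
  congr 1
  push_cast
  ring

lemma eS_small (hl : 200 ≤ l) (h36 : 36 ≤ th1 * l) (h4 : 4 * lam0 ≤ l) (hlam : 0 < lam0) :
    eS l th1 ≤ Real.exp (-(2 * l + 4 * lam0)) := by
  unfold eS
  apply Real.exp_le_exp.mpr
  have h0 : 0 < l := by linarith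
  have h1 := Real.pow_div_factorial_le_exp l h0.le 3
  norm_num [Nat.factorial] at h1
  have h2 : 2 * l + 4 * lam0 ≤ th1 * Real.exp l / (2 * l) := by
    rw [le_div_iff₀ (by linarith)]
    have hth : 0 < th1 := by
      by_contra h
      push Not at h
      nlinarith
    have h3 := mul_le_mul_of_nonneg_left h1 hth.le
    have h5 : th1 * (l ^ 3 / 6) = (th1 * l) * (l * l) / 6 := by ring
    rw [h5] at h3
    have h6 : 36 * (l * l) ≤ (th1 * l) * (l * l) :=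
      mul_le_mul_of_nonneg_right h36 (by positivity)
    nlinarith
  linarith

/-- **S.8n with pins on thick cells only** -/
theorem Slocal_mix_of (N : NumS l C1 (A + a0 + 1) lam0 th (a0 + 1) B1)
    (h36 : 36 ≤ th1 * l) (h4 : 4 * lam0 ≤ l) (ha0 : 0 ≤ a0) (hA : 0 ≤ A)
    (hinj : Function.Injective prm)
    (hlo : ∀ i, l ^ 20 ≤ (prm i : ℝ))
    (hhi : ∀ i, (prm i : ℝ) ≤ Real.exp (2 * l) / l ^ 20)
    {D : ℕ} (hD : th * Real.exp l / l ≤ D)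
    (H : Ref w μ) (H' : Ref w μ') (hat : ∀ i b, w i b = 0 ∨ Real.exp (-(3 * l)) ≤ w i b)
    (h20 : ∀ i a, 0 ≤ w2 i a) (h21 : ∀ i, ∑ a, w2 i a = 1)
    (hw2 : ∀ i b, w i b = 0 ∨ (0 < w2 i b ∧ w2 i b ≤ Real.exp A * w i b))
    (hQ : ∀ P : Finset ι, P.card ≤ D → ∀ x, Real.exp (-(th1 * Real.exp l / l)) ≤ gdw w μ P x →
      (lam0 / l) * ∑ j ∈ univ \ P, Di w (gdw w μ) j P x
        ≤ (1 / l ^ 16) * P.card + a0 - Real.log (gdw w2 μ P x))
    (hQ' : ∀ P : Finset ι, P.card ≤ D → ∀ x, Real.exp (-(th1 * Real.exp l / l)) ≤ gdw w μ' P x →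
      (lam0 / l) * ∑ j ∈ univ \ P, Di w (gdw w μ') j P x
        ≤ (1 / l ^ 16) * P.card + a0 - Real.log (gdw w2 μ' P x))
    {K : ∀ i, V i → V i → ℝ} {c : ι → ℝ} {u u' : ∀ i, V i → ℝ} {s0 : ∀ i, V i → V i → ℝ}
    {rho e : ι → ℝ} (hK : H365.OB w K c u u' s0 rho e) (hrho : ∀ i, rho i ≤ C1 / √(prm i))
    (he : ∑ i, e i ≤ 1 / 32)
    (𝓓 : Finset (Finset ι)) (hD0 : ∅ ∈ 𝓓) (hDc : ∀ B ∈ 𝓓, ∀ C ⊆ B, C ∈ 𝓓)
    (hDs : ∀ B ∈ 𝓓, 8 * B.card ≤ D) :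
    |∑ B ∈ 𝓓, pr μ μ' K B - 1| ≤ 3 / 4 := by
  have h0 := N.l0
  have hl := N.hl
  have hlam := N.hlam
  obtain ⟨E, hE⟩ : ∃ E, E = eS l th1 := ⟨_, rfl⟩
  have hE0 : 0 < E := by rw [hE]; exact Real.exp_pos _
  have hEs : E ≤ Real.exp (-(2 * l + 4 * lam0)) := by rw [hE]; exact eS_small hl h36 h4 hlam
  have hE100 : E ≤ 1 / 100 := by
    have h1 : Real.exp (-(2 * l + 4 * lam0)) ≤ Real.exp (-l) :=
      Real.exp_le_exp.mpr (by linarith)
    have h2 : 1 / l ≤ 1 / 200 := one_div_le_one_div_of_le (by norm_num) hl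
    linarith [N.exp_neg_le]
  have hE8 : E ≤ 1 / 8 := by linarith
  have hL0 : 0 < lam0 / l := by positivity
  have hg0 : (0 : ℝ) ≤ 1 / l ^ 16 := by positivity
  have hg1 : 1 / l ^ 16 ≤ 1 := by
    rw [div_le_one (by positivity)]
    exact one_le_pow₀ N.l1
  -- the crude bound
  have hcard : (Fintype.card ι : ℝ) ≤ Real.exp (2 * l) := by
    have h1 : (univ.image prm).card = Fintype.card ι := by
      rw [card_image_of_injective _ hinj, card_univ]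
    have h2 : univ.image prm ⊆ Finset.Icc 1 ⌊Real.exp (2 * l)⌋₊ := by
      intro n hn
      rw [mem_image] at hn
      obtain ⟨i, -, rfl⟩ := hn
      rw [Finset.mem_Icc]
      refine ⟨pr_pos N hlo i, Nat.le_floor ((hhi i).trans ?_)⟩
      exact div_le_self (Real.exp_pos _).le (one_le_pow₀ N.l1)
    have h3 := card_le_card h2
    rw [h1, Nat.card_Icc] at h3
    have h4 : (Fintype.card ι : ℝ) ≤ (⌊Real.exp (2 * l)⌋₊ : ℝ) := by
      exact_mod_cast (by omega : Fintype.card ι ≤ ⌊Real.exp (2 * l)⌋₊)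
    exact h4.trans (Nat.floor_le (Real.exp_pos _).le)
  have crude : ∀ {ν : (∀ i, V i) → ℝ}, Ref w ν → ∀ P : Finset ι, P.card ≤ D → ∀ x,
      0 < gdw w ν P x → (lam0 / l) * ∑ j ∈ univ \ P, Di w (gdw w ν) j P x
        ≤ 4 * lam0 * Real.exp (2 * l) := by
    intro ν Hν P _ x hx
    have h1 : ∑ j ∈ univ \ P, Di w (gdw w ν) j P x ≤ Fintype.card ι * (1 + 3 * l) := by
      have e1 : ∑ j ∈ univ \ P, Di w (gdw w ν) j P x ≤ ∑ _j ∈ univ \ P, (1 + 3 * l) :=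
        sum_le_sum fun j hj => Di_le Hν (by linarith) hat (mem_sdiff.mp hj).2 hx
      refine e1.trans ?_
      rw [sum_const, nsmul_eq_mul]
      refine mul_le_mul_of_nonneg_right ?_ (by linarith)
      exact_mod_cast card_le_univ _
    have h2 : (Fintype.card ι : ℝ) * (1 + 3 * l) ≤ Real.exp (2 * l) * (4 * l) :=
      mul_le_mul hcard (by linarith) (by linarith) (Real.exp_pos _).le
    calc (lam0 / l) * ∑ j ∈ univ \ P, Di w (gdw w ν) j P x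
        ≤ (lam0 / l) * (Real.exp (2 * l) * (4 * l)) :=
          mul_le_mul_of_nonneg_left (h1.trans h2) hL0.le
      _ = 4 * lam0 * Real.exp (2 * l) := by field_simp
  have hB : E * (4 * lam0 * Real.exp (2 * l)) ≤ 1 := by
    have h1 : 4 * lam0 ≤ Real.exp (4 * lam0) := by
      have := Real.add_one_le_exp (4 * lam0)
      linarith
    have h2 : 4 * lam0 * Real.exp (2 * l) ≤ Real.exp (4 * lam0) * Real.exp (2 * l) :=
      mul_le_mul_of_nonneg_right h1 (Real.exp_pos _).le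
    calc E * (4 * lam0 * Real.exp (2 * l))
        ≤ Real.exp (-(2 * l + 4 * lam0)) * (Real.exp (4 * lam0) * Real.exp (2 * l)) :=
          mul_le_mul hEs h2 (by positivity) (Real.exp_pos _).le
      _ = 1 := by
          rw [← Real.exp_add, ← Real.exp_add, Real.exp_eq_one_iff]
          ring
  -- hypotheses of the four laws
  have hEsq : Real.exp (-(th1 * Real.exp l / l)) = E ^ 2 := by rw [hE, eS_sq]
  have hQ1 : ∀ P : Finset ι, P.card ≤ D → ∀ x, E ^ 2 ≤ gdw w μ P x →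
      (lam0 / l) * ∑ j ∈ univ \ P, Di w (gdw w μ) j P x
        ≤ (1 / l ^ 16) * P.card + a0 - Real.log (gdw w2 μ P x) := fun P hP x hx =>
    hQ P hP x (by rw [hEsq]; exact hx)
  have hQ1' : ∀ P : Finset ι, P.card ≤ D → ∀ x, E ^ 2 ≤ gdw w μ' P x →
      (lam0 / l) * ∑ j ∈ univ \ P, Di w (gdw w μ') j P x
        ≤ (1 / l ^ 16) * P.card + a0 - Real.log (gdw w2 μ' P x) := fun P hP x hx =>
    hQ' P hP x (by rw [hEsq]; exact hx)
  have hac : ∀ {ν : (∀ i, V i) → ℝ}, Ref w ν → ∀ i a, w2 i a = 0 → m1 ν i a = 0 := by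
    intro ν Hν i a h
    rcases hw2 i a with h1 | h1
    · exact Hν.ac i a h1
    · exact absurd h h1.1.ne'
  have M1 := ref_mix H hE0.le (by linarith : E ≤ 1)
  have M2 := ref_mix H' hE0.le (by linarith : E ≤ 1)
  have M3 := ref_pw H
  have p1 := Pe_mix H h20 h21 (hac H) (ok' := fun M => M.card ≤ D) hE0 hE8 hL0.le hB hg0 ha0
    (fun P hP x hx => crude H P hP x hx) hQ1
  have p2 := Pe_mix H' h20 h21 (hac H') (ok' := fun M => M.card ≤ D) hE0 hE8 hL0.le hB hg0 ha0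
    (fun P hP x hx => crude H' P hP x hx) hQ1'
  have p3 : Pe w (pw w) (fun M => M.card ≤ D) (lam0 / l) (1 / l ^ 16) (a0 + 1) :=
    Pe_pw H hg0 (by linarith)
  have q1 : ∀ M : Finset ι, M.card ≤ D → ∀ x, 0 < gdw w (mix E w μ) M x →
      Real.log (gdw w (mix E w μ) M x) ≤ (A + a0 + 1) * M.card := fun M hM x hx => by
    have h1 := log_mix H (ok' := fun M => M.card ≤ D) hE0 hE8 hL0.le hg0 ha0 hA hw2 hQ1 M hM x hx
    have h2 : (0 : ℝ) ≤ M.card := by positivity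
    nlinarith
  have q2 : ∀ M : Finset ι, M.card ≤ D → ∀ x, 0 < gdw w (mix E w μ') M x →
      Real.log (gdw w (mix E w μ') M x) ≤ (A + a0 + 1) * M.card := fun M hM x hx => by
    have h1 := log_mix H' (ok' := fun M => M.card ≤ D) hE0 hE8 hL0.le hg0 ha0 hA hw2 hQ1' M hM x hx
    have h2 : (0 : ℝ) ≤ M.card := by positivity
    nlinarith
  have q3 : ∀ M : Finset ι, M.card ≤ D → ∀ x, 0 < gdw w (pw w) M x →
      Real.log (gdw w (pw w) M x) ≤ (A + a0 + 1) * M.card := fun M hM x hx => by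
    have hmm := (gdw_pos_iff M3.prob M3.w_nonneg M3.ac M x).mp hx
    rw [gdw_pw H (prod_w_pos_of_marg M3.prob M3.w_nonneg M3.ac hmm), Real.log_one]
    positivity
  have s1 := Slocal_of N hinj hlo hhi hD M1 M2 hat q1 q2 p1 p2 hK hrho he 𝓓 hD0 hDc hDs
  have s2 := Slocal_of N hinj hlo hhi hD M1 M3 hat q1 q3 p1 p3 hK hrho he 𝓓 hD0 hDc hDs
  have s3 := Slocal_of N hinj hlo hhi hD M3 M2 hat q3 q2 p3 p2 hK hrho he 𝓓 hD0 hDc hDs
  have s4 := Slocal_of N hinj hlo hhi hD M3 M3 hat q3 q3 p3 p3 hK hrho he 𝓓 hD0 hDc hDs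
  have key := sum_mix (w := w) (μ := μ) (μ' := μ') E K 𝓓
  obtain ⟨S, hS⟩ : ∃ S, S = ∑ B ∈ 𝓓, pr μ μ' K B := ⟨_, rfl⟩
  obtain ⟨S1, hS1⟩ : ∃ S, S = ∑ B ∈ 𝓓, pr (mix E w μ) (mix E w μ') K B := ⟨_, rfl⟩
  obtain ⟨S2, hS2⟩ : ∃ S, S = ∑ B ∈ 𝓓, pr (mix E w μ) (pw w) K B := ⟨_, rfl⟩
  obtain ⟨S3, hS3⟩ : ∃ S, S = ∑ B ∈ 𝓓, pr (pw w) (mix E w μ') K B := ⟨_, rfl⟩
  obtain ⟨S4, hS4⟩ : ∃ S, S = ∑ B ∈ 𝓓, pr (pw w) (pw w) K B := ⟨_, rfl⟩
  rw [← hS, ← hS1, ← hS2, ← hS3, ← hS4] at key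
  rw [← hS1] at s1
  rw [← hS2] at s2
  rw [← hS3] at s3
  rw [← hS4] at s4
  rw [← hS]
  exact mix_arith hE0 hE100 key s1 s2 s3 s4

end

/-- **S.8n with pins on thick cells only** -/
theorem Slocal_mix (C1 A lam0 th th1 a0 : ℝ) (hC1 : 0 < C1) (hA : 0 ≤ A) (hlam0 : 0 < lam0)
    (hth : 0 < th) (hth1 : 0 < th1) (ha0 : 0 ≤ a0) :
    ∃ l0 : ℝ, ∀ l ≥ l0, ∀ (ι : Type) [Fintype ι] [DecidableEq ι] (prm : ι → ℕ)
      (V : ι → Type) [∀ i, Fintype (V i)] [∀ i, DecidableEq (V i)] (w w2 : ∀ i, V i → ℝ)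
      (μ μ' : (∀ i, V i) → ℝ) (D : ℕ) (K : ∀ i, V i → V i → ℝ) (c : ι → ℝ)
      (u u' : ∀ i, V i → ℝ) (s0 : ∀ i, V i → V i → ℝ) (rho e : ι → ℝ) (𝓓 : Finset (Finset ι)),
      Function.Injective prm →
      (∀ i, l ^ 20 ≤ (prm i : ℝ) ∧ (prm i : ℝ) ≤ Real.exp (2 * l) / l ^ 20) →
      th * Real.exp l / l ≤ D →
      Ref w μ → Ref w μ' →
      (∀ i b, w i b = 0 ∨ Real.exp (-(3 * l)) ≤ w i b) →
      (∀ i a, 0 ≤ w2 i a) → (∀ i, ∑ a, w2 i a = 1) →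
      (∀ i b, w i b = 0 ∨ (0 < w2 i b ∧ w2 i b ≤ Real.exp A * w i b)) →
      (∀ P : Finset ι, P.card ≤ D → ∀ x, Real.exp (-(th1 * Real.exp l / l)) ≤ gdw w μ P x →
        (lam0 / l) * ∑ j ∈ univ \ P, Di w (gdw w μ) j P x
          ≤ (1 / l ^ 16) * P.card + a0 - Real.log (gdw w2 μ P x)) →
      (∀ P : Finset ι, P.card ≤ D → ∀ x, Real.exp (-(th1 * Real.exp l / l)) ≤ gdw w μ' P x →
        (lam0 / l) * ∑ j ∈ univ \ P, Di w (gdw w μ') j P x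
          ≤ (1 / l ^ 16) * P.card + a0 - Real.log (gdw w2 μ' P x)) →
      H365.OB w K c u u' s0 rho e → (∀ i, rho i ≤ C1 / √(prm i)) → ∑ i, e i ≤ 1 / 32 →
      ∅ ∈ 𝓓 → (∀ B ∈ 𝓓, ∀ C ⊆ B, C ∈ 𝓓) → (∀ B ∈ 𝓓, 8 * B.card ≤ D) →
      |∑ B ∈ 𝓓, pr μ μ' K B - 1| ≤ 3 / 4 := by
  obtain ⟨l0, hl0⟩ := NumS_exists C1 (A + a0 + 1) lam0 th (a0 + 1) hC1 (by linarith) hlam0 hth
    (by linarith)
  refine ⟨max l0 (36 / th1 + 4 * lam0), fun l hl ι _ _ prm V _ _ w w2 μ μ' D K c u u' s0 rho e 𝓓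
    hinj hp hD H H' hat h20 h21 hw2 hQ hQ' hK hrho he hD0 hDc hDs => ?_⟩
  have N := hl0 l ((le_max_left _ _).trans hl)
  have h1 := (le_max_right _ _).trans hl
  have h2 : 0 < 36 / th1 := by positivity
  have h36 : 36 ≤ th1 * l := by
    have h3 : 36 / th1 ≤ l := by linarith
    rw [div_le_iff₀ hth1] at h3
    linarith
  exact Slocal_mix_of N h36 (by linarith) ha0 hA hinj (fun i => (hp i).1) (fun i => (hp i).2) hD
    H H' hat h20 h21 hw2 hQ hQ' hK hrho he 𝓓 hD0 hDc hDs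

end Vale.Agent.P042.H482
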