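import Vale.Agent.P042.H419.Ctx
import Vale.Agent.P042.H359.BridgeN
import Vale.Agent.P042.H482.MixEnd

set_option autoImplicit false

/-! Target S, leaf M: the main part of the lower bound. -/

namespace Vale.Agent.P042.H482

open Finset Polynomial Vale.Agent.P042.H779.Ab Vale.Agent.P042.H74 Vale.Agent.P042.H452
  Vale.Agent.P042.H945

set_option linter.unusedSectionVars false

lemma lamS_pos : 0 < lamS := by unfold lamS; norm_num

/-- the size of the null modulus -/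
lemma qn_exp {k R E : ℕ} (hR : 1 ≤ R) {l q : ℝ} (hl : 1 ≤ l)
    (hq : q ≤ (sfac k * R : ℝ) ^ 2 * Real.exp (Real.log 4 * l ^ E)) :
    q ≤ Real.exp ((2 * Real.log (sfac k * R : ℝ) + Real.log 4) * l ^ E) := by
  have h1 : (1 : ℝ) ≤ sfac k := by exact_mod_cast sfac_pos k
  have h2 : (1 : ℝ) ≤ R := by exact_mod_cast hR
  have h3 : (1 : ℝ) ≤ sfac k * R := by nlinarith
  have h4 : 0 ≤ Real.log (sfac k * R : ℝ) := Real.log_nonneg h3
  have h5 : (1 : ℝ) ≤ l ^ E := one_le_pow₀ hl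
  have h6 : (sfac k * R : ℝ) ^ 2 = Real.exp (2 * Real.log (sfac k * R : ℝ)) := by
    have h7 : Real.exp (2 * Real.log (sfac k * R : ℝ))
        = Real.exp (Real.log (sfac k * R : ℝ)) ^ 2 := by
      rw [← Real.exp_nat_mul]
      norm_num
    rw [h7, Real.exp_log (by linarith)]
  refine hq.trans ?_
  rw [h6, ← Real.exp_add]
  apply Real.exp_le_exp.mpr
  nlinarith [mul_le_mul_of_nonneg_left h5 h4]

lemma C2_nonneg {k R : ℕ} (hR : 1 ≤ R) :
    0 ≤ 2 * Real.log (sfac k * R : ℝ) + Real.log 4 := by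
  have h1 : (1 : ℝ) ≤ sfac k := by exact_mod_cast sfac_pos k
  have h2 : (1 : ℝ) ≤ R := by exact_mod_cast hR
  have h3 : (1 : ℝ) ≤ sfac k * R := by nlinarith
  have h4 : 0 ≤ Real.log (sfac k * R : ℝ) := Real.log_nonneg h3
  have h5 : 0 ≤ Real.log (4 : ℝ) := Real.log_nonneg (by norm_num)
  linarith

section
variable {ι : Type} [Fintype ι] [DecidableEq ι] {prm : ι → ℕ} {E A' : ℕ} {l : ℝ}

lemma prm_lo (h : H419.PrmS E A' (Real.exp l) prm) (hl : 1 ≤ l) (hE : 20 ≤ E) (i : ι) :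
    l ^ 20 ≤ (prm i : ℝ) := by
  have h1 := h.lo i
  rw [Real.log_exp] at h1
  exact (pow_le_pow_right₀ hl hE).trans h1.le

lemma prm_hi (h : H419.PrmS E A' (Real.exp l) prm) (hl : 1 ≤ l) (hA' : 20 ≤ A') (i : ι) :
    (prm i : ℝ) ≤ Real.exp (2 * l) / l ^ 20 := by
  have h1 := h.hi i
  rw [Real.log_exp] at h1
  have h2 : Real.exp l ^ 2 = Real.exp (2 * l) := by
    rw [← Real.exp_nat_mul]
    norm_num
  rw [h2] at h1
  refine h1.trans ?_
  exact div_le_div_of_nonneg_left (Real.exp_pos _).le (pow_pos (by linarith) _)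
    (pow_le_pow_right₀ hl hA')

lemma prm_WS (h : H419.PrmS E A' (Real.exp l) prm) (hl : 1 ≤ l) (hA' : 20 ≤ A') (i : ι) :
    prm i ∈ WS (Real.exp l) := by
  rw [H359.mem_WS]
  refine ⟨Nat.le_floor ?_, h.prime i⟩
  have h2 : Real.exp l ^ 2 = Real.exp (2 * l) := by
    rw [← Real.exp_nat_mul]
    norm_num
  rw [h2]
  exact (prm_hi h hl hA' i).trans (div_le_self (Real.exp_pos _).le (one_le_pow₀ hl))

lemma prm_cop (h : H419.PrmS E A' (Real.exp l) prm) (hl : 0 ≤ l) {f : ℤ[X]} {Vk : ℕ → ℕ}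
    {q1 z0 : ℕ} (ht : TinyD f (H419.Ts E (Real.exp l)) Vk q1 (z0 : ℤ)) (i : ι) :
    Nat.Coprime (qnul f q1 z0) (prm i) := by
  refine ((Nat.Prime.coprime_iff_not_dvd (h.prime i)).2 fun hd => ?_).symm
  have h1 := ht.mem_of_dvd_qnul (h.prime i) hd
  unfold H419.Ts at h1
  rw [mem_filter, mem_range, Nat.lt_succ_iff, Real.log_exp] at h1
  have h2 := h.lo i
  rw [Real.log_exp] at h2
  have h3 := (Nat.le_floor_iff (pow_nonneg hl _)).1 h1.1
  linarith

lemma wS_same [∀ i, NeZero (prm i)] (h : ∀ i, (prm i).Prime) {N' : ℕ} {mu : ℕ → ℝ}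
    (hlaw : H599.Law mu 1 N') :
    H419.wS prm N' mu = H359.wS prm N' (H419.GG N' mu) := by
  funext i a
  unfold H419.wS H359.wS
  exact (H359.w_eq h (G := H419.GG N' mu) (fun n => rfl) hlaw i a).symm

lemma D_le {k D : ℕ} {th : ℝ} {m0 : ℕ} (hk : 1 ≤ k) (hl : 0 < l)
    (hD : H419.NumD k th (Real.exp l) D m0) (R' : Finset ι) (hR' : R'.card ≤ D) :
    (R'.card : ℝ) ≤ H359.thB k * (Real.exp l / l) := by
  have g0 : (R'.card : ℝ) ≤ D := by exact_mod_cast hR'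
  have hk0 : (0 : ℝ) < k := by exact_mod_cast hk
  refine g0.trans ?_
  have g1 := hD.hi
  have g2 := hD.hi'
  rw [Real.log_exp] at g1 g2
  unfold H359.thB
  rw [min_mul_of_nonneg _ _ (by positivity)]
  refine le_min ?_ ?_
  · rw [div_mul_div_comm, one_mul, le_div_iff₀ (by positivity)]
    linarith
  · rw [div_mul_div_comm, one_mul, le_div_iff₀ (by positivity)]
    linarith

end

/-- **(Qμ) for one cell of the state** -/
theorem cell_Q {k R E A' C : ℕ} {κ th C2 l : ℝ} (hk : 1 ≤ k) (hκ : 0 < κ) (hC2 : 0 ≤ C2)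
    (hA' : 20 ≤ A') (hC : 18 ≤ C) (B : H359.BN k κ C2 E C l)
    {ι : Type} [Fintype ι] [DecidableEq ι] {prm : ι → ℕ} [∀ i, NeZero (prm i)] {f : ℤ[X]}
    {N' : ℕ} {mu : ℕ → ℝ} {q1 z0 h0 : ℕ} (hprm : H419.PrmS E A' (Real.exp l) prm)
    (ht : TinyD f (H419.Ts E (Real.exp l)) (Vp k R) q1 (z0 : ℤ))
    (hst : StS1 k κ C (Real.exp l) N' mu)
    (hqP : (qnul f q1 z0 : ℝ) ≤ Real.exp (C2 * l ^ E)) (hh0 : 1 ≤ h0) (hN : N' ≤ 1000 * h0)
    {D m0 : ℕ} (hD : H419.NumD k th (Real.exp l) D m0) {c u v : ℕ} (hu : 1 ≤ u) (hv : v ≤ N')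
    (huv : v + 1 - u = h0)
    (hm : (h0 : ℝ) / 2 ≤ qnul f q1 z0 *
      ∑ n ∈ H359.cellZ (qnul f q1 z0) c u v, H419.GG N' mu n) :
    Ref (H359.wS prm N' (H419.GG N' mu))
      (H359.push (H359.redZ prm) (H359.cellZ (qnul f q1 z0) c u v) (H419.GG N' mu)) ∧
    ∀ R' : Finset ι, R'.card ≤ D → ∀ x : ∀ i, ZMod (prm i),
      Real.exp (-(1 / 400 * Real.exp l / l)) ≤
        gdw (H359.wS prm N' (H419.GG N' mu))
          (H359.push (H359.redZ prm) (H359.cellZ (qnul f q1 z0) c u v) (H419.GG N' mu)) R' x →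
      lamS / l * ∑ j ∈ univ \ R',
          Di (H359.wS prm N' (H419.GG N' mu)) (gdw (H359.wS prm N' (H419.GG N' mu))
            (H359.push (H359.redZ prm) (H359.cellZ (qnul f q1 z0) c u v) (H419.GG N' mu))) j R' x ≤
        (1 / l ^ 16) * R'.card + 7 -
          Real.log (gdw (H359.uw prm)
            (H359.push (H359.redZ prm) (H359.cellZ (qnul f q1 z0) c u v) (H419.GG N' mu)) R' x) := by
  have hl1 : 1 ≤ l := by linarith [B.l1]
  have hG : ∀ n : ℤ, H419.GG N' mu n = if 1 ≤ n then (N' : ℝ) * mu n.toNat else 0 := fun n => rfl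
  have hh0r : (1 : ℝ) ≤ h0 := by exact_mod_cast hh0
  have Q1 := H359.bridge_Q B hk hκ hC2 hC hst hG hprm.inj (prm_WS hprm hl1 hA')
    (q := qnul f q1 z0) (c := c) (u := u) (v := v) (qnul_pos _ ht.q1_pos)
    (prm_cop hprm (by linarith) ht) hqP hu hv (by rw [huv]; exact hN) (by
      rw [H359.sum_cellZ' hG hu hv] at hm
      rw [huv]
      linarith [mul_comm (N' : ℝ) (ms mu N' (cl (qnul f q1 z0) c u v))])
  exact ⟨Q1.1, fun R' hR' x hx => Q1.2 R' (D_le hk (by linarith) hD R' hR') x hx⟩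

/-- **leaf M** of target S -/
theorem leafM : H419.LeafM := by
  intro k R E A' C κ th hk hR hE hA' hC hκ hκ1 hth
  have hk1 : 1 ≤ k := by omega
  have hk0 : (0 : ℝ) < k := by exact_mod_cast hk1
  obtain ⟨l1, hl1⟩ := H359.exists_BN k hk1 κ (2 * Real.log (sfac k * R : ℝ) + Real.log 4) hκ
    (C2_nonneg hR) E C (by omega) (by omega)
  obtain ⟨l2, hl2⟩ := Slocal_mix (48 * (4 * k)) 14 lamS th (1 / 400) 7 (by positivity)
    (by norm_num) lamS_pos hth (by norm_num) (by norm_num)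
  refine ⟨Real.exp (max (max l1 l2) 14), fun P hP ι _ _ prm _ f N' mu q1 z0 Hw h0 c1 c2 hprm hobj
    K e e' u u' s0 rho ee hK D m0 hD => ?_⟩
  have hP0 : 0 < P := lt_of_lt_of_le (Real.exp_pos _) hP
  obtain ⟨l, rfl⟩ : ∃ l, P = Real.exp l := ⟨Real.log P, (Real.exp_log hP0).symm⟩
  have hl : max (max l1 l2) 14 ≤ l := Real.exp_le_exp.mp hP
  have hll2 : l2 ≤ l := (le_max_right _ _).trans ((le_max_left _ _).trans hl)
  have hl14 : 14 ≤ l := (le_max_right _ _).trans hl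
  have hl1' : 1 ≤ l := by linarith
  have B := hl1 l ((le_max_left _ _).trans ((le_max_left _ _).trans hl))
  have hqP : (qnul f q1 z0 : ℝ)
      ≤ Real.exp ((2 * Real.log (sfac k * R : ℝ) + Real.log 4) * l ^ E) := by
    have h1 := hobj.qn_le
    rw [Real.log_exp] at h1
    exact qn_exp hR hl1' h1
  have hG : ∀ n : ℤ, H419.GG N' mu n = if 1 ≤ n then (N' : ℝ) * mu n.toNat else 0 := fun n => rfl
  have hst := hobj.st
  have hN1000 : N' ≤ 1000 * h0 := hobj.w1000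
  have hwN := hobj.wN
  have hh0 := hobj.h0pos
  have Q1 := cell_Q hk1 hκ (C2_nonneg hR) hA' (by omega) B hprm hobj.tiny hst hqP hh0 hN1000
    hD (c := c1) (u := 3 * Hw + h0 + 1) (v := 3 * Hw + 2 * h0) (by omega) hwN (by omega) hobj.m1
  have Q2 := cell_Q hk1 hκ (C2_nonneg hR) hA' (by omega) B hprm hobj.tiny hst hqP hh0 hN1000
    hD (c := c2) (u := 1) (v := h0) le_rfl (by omega) (by omega) hobj.m2
  have hDlo : th * Real.exp l / l ≤ D := by
    have := hD.lo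
    rwa [Real.log_exp] at this
  have hob := hK.ob
  rw [wS_same hprm.prime hst.law] at hob
  exact hl2 l hll2 ι prm (fun i => ZMod (prm i)) (H359.wS prm N' (H419.GG N' mu))
    (H359.uw prm) _ _ D K (fun _ => 0) u u' s0 rho ee
    (low ι m0) hprm.inj (fun i => ⟨prm_lo hprm hl1' hE i, prm_hi hprm hl1' hA' i⟩) hDlo Q1.1 Q2.1
    (H359.bridge_atom B hst hG (prm_WS hprm hl1' hA')) H359.uw_nonneg H359.uw_sum
    (H359.bridge_w2 hst hG (prm_WS hprm hl1' hA')) Q1.2 Q2.2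
    hob hK.rho_le hK.see (low_empty m0) (low_down m0) (fun B' hB' => by
      rw [mem_low] at hB'
      have := hD.m16
      omega)

end Vale.Agent.P042.H482
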