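import Vale.Agent.P042.H482.LeafM
import Vale.Agent.P042.H482.KerS
import Vale.Agent.P042.H386.K4

set_option autoImplicit false

/-! Target S, leaf K: the kernels of all primes. -/

namespace Vale.Agent.P042.H482

open Finset Polynomial Vale.Agent.P042.H779.Ab Vale.Agent.P042.H74 Vale.Agent.P042.H452
  Vale.Agent.P042.H945 Vale.Agent.P042.H954

set_option linter.unusedSectionVars false

section
variable {ι : Type} [Fintype ι] [DecidableEq ι] {prm : ι → ℕ} {k R E A' C : ℕ} {l κ : ℝ}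
  {f : ℤ[X]} {Vk : ℕ → ℕ} {q1 z0 : ℕ}

lemma prm_notMem (h : H419.PrmS E A' (Real.exp l) prm) (hl : 0 ≤ l) (i : ι) :
    prm i ∉ H419.Ts E (Real.exp l) := by
  intro h1
  unfold H419.Ts at h1
  rw [mem_filter, mem_range, Nat.lt_succ_iff, Real.log_exp] at h1
  have h2 := h.lo i
  rw [Real.log_exp] at h2
  have h3 := (Nat.le_floor_iff (pow_nonneg hl _)).1 h1.1
  linarith

lemma prm_nc (h : H419.PrmS E A' (Real.exp l) prm) (hl : 1 ≤ l) (hE : 1 ≤ E) (hR : 1 ≤ R)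
    (hRl : (R : ℝ) ≤ l) (ht : TinyD f (H419.Ts E (Real.exp l)) Vk q1 (z0 : ℤ))
    (hcont : ∀ g : ℤ, (∀ j : ℕ, 1 ≤ j → g ∣ f.coeff j) → g ∣ (R : ℤ)) (i : ι) :
    ∃ j : ℕ, 1 ≤ j ∧ ¬ ((prm i : ℕ) : ℤ) ∣ (fer f q1 z0).coeff j := by
  have hq : ¬ prm i ∣ q1 := fun hd =>
    prm_notMem h (by linarith) i (ht.mem_of_dvd_q1 (h.prime i) hd)
  refine nonconst_fer f (h.prime i) hq z0 ?_
  by_contra hcon
  push Not at hcon
  have h1 := hcont ((prm i : ℕ) : ℤ) (fun j hj => hcon j hj)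
  have h2 : prm i ∣ R := by exact_mod_cast h1
  have h3 := Nat.le_of_dvd (by omega) h2
  have h4 := h.lo i
  rw [Real.log_exp] at h4
  have h5 : l ≤ l ^ E := le_self_pow₀ hl (by omega)
  have h6 : (prm i : ℝ) ≤ R := by exact_mod_cast h3
  linarith

lemma wS_nonneg [∀ i, NeZero (prm i)] {N' : ℕ} {mu : ℕ → ℝ} (hlaw : H599.Law mu 1 N') (i : ι)
    (a : ZMod (prm i)) : 0 ≤ H419.wS prm N' mu i a :=
  H599.cm_nonneg hlaw.nonneg _ _

lemma wS_sum [∀ i, NeZero (prm i)] {N' : ℕ} {mu : ℕ → ℝ} (hlaw : H599.Law mu 1 N') (i : ι) :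
    ∑ a, H419.wS prm N' mu i a = 1 := by
  unfold H419.wS
  rw [(rs_zmod (prm i)).sum fun a => H599.cm mu 1 N' (prm i) a]
  exact H599.sum_cm hlaw.sum (Nat.pos_of_ne_zero (NeZero.ne _))

/-- the kernel of one prime -/
theorem SD_one [∀ i, NeZero (prm i)] {N' : ℕ} {mu : ℕ → ℝ}
    (h : H419.PrmS E A' (Real.exp l) prm) (hl : 200 ≤ l) (hk : 1 ≤ k) (hE : 20 ≤ E)
    (hA' : 20 ≤ A') (hR : 1 ≤ R) (hRl : (R : ℝ) ≤ l) (hkl : 32 * (4 * (k : ℝ)) ^ 3 ≤ l)
    (hdeg : f.natDegree = k) (ht : TinyD f (H419.Ts E (Real.exp l)) Vk q1 (z0 : ℤ))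
    (hcont : ∀ g : ℤ, (∀ j : ℕ, 1 ≤ j → g ∣ f.coeff j) → g ∣ (R : ℤ))
    (B : H359.BN k κ 0 0 C l) (hκ : 0 < κ) (hst : StS1 k κ C (Real.exp l) N' mu) (i : ι) :
    SD (H419.wS prm N' mu i) (H419.wS prm N' mu i)
      (fun x y => kN (fer f q1 z0) (prm i) ((x.val : ℤ) - y.val)) (4 * k / √(prm i))
      (2 * (k : ℝ) - 1) (1 / l ^ 14) := by
  have hl1 : 1 ≤ l := by linarith
  have hk1 : (1 : ℝ) ≤ k := by exact_mod_cast hk
  have hp := h.prime i
  have hp0 : (0 : ℝ) < prm i := by exact_mod_cast hp.pos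
  have hlo := prm_lo h hl1 hE i
  have hlp : l ≤ prm i := (le_self_pow₀ hl1 (by norm_num)).trans hlo
  have hnc := prm_nc h hl1 (by omega) hR hRl ht hcont i
  have hfd : (fer f q1 z0).natDegree = k := by
    rw [fer_natDegree f q1 ht.q1_pos z0, hdeg]
  have hk3 : (k : ℝ) ≤ (k : ℝ) ^ 3 := le_self_pow₀ hk1 (by norm_num)
  have hk2 : (k : ℝ) ^ 2 ≤ (k : ℝ) ^ 3 := pow_le_pow_right₀ hk1 (by norm_num)
  have hkl' : 2048 * (k : ℝ) ^ 3 ≤ l := by
    have e1 : 32 * (4 * (k : ℝ)) ^ 3 = 2048 * (k : ℝ) ^ 3 := by ring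
    rwa [e1] at hkl
  have h2k : 2 * (fer f q1 z0).natDegree ≤ prm i := by
    rw [hfd]
    have : (2 : ℝ) * k ≤ prm i := by linarith
    exact_mod_cast this
  have hkp : (fer f q1 z0).natDegree < prm i := by
    have := hp.pos
    rw [hfd] at h2k ⊢
    omega
  have hdns := dns_ge (fer f q1 z0) (prm i) hp (by rw [hfd]; exact hk) hkp hnc
  have hdpos : 0 < dns (fer f q1 z0) (prm i) := by
    refine lt_of_lt_of_le ?_ hdns
    rw [hfd]
    have h3 : ((k : ℝ) - 1) / prm i < 1 := by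
      rw [div_lt_one hp0]
      linarith
    linarith
  have hNS : NS (fer f q1 z0) {prm i} := by
    intro p hpm
    rw [mem_singleton] at hpm
    rw [hpm]
    exact ⟨hp, hdpos⟩
  have hmem : prm i ∈ ({prm i} : Finset ℕ) := mem_singleton_self _
  have hG := fun (a : ℤ) (ha : IsCoprime a ((prm i : ℕ) : ℤ)) =>
    GamN_le hNS hmem (by rw [hfd]; exact hk) h2k hnc (a := a) (H386.Gam_weil hp hkp hnc ha)
  have hd2 := (hG 1 isCoprime_one_left).2
  rw [hfd] at hG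
  have hsq0 : 0 < √(prm i : ℝ) := Real.sqrt_pos.mpr hp0
  have hsq : 4 * (k : ℝ) ≤ √(prm i : ℝ) := by
    apply Real.le_sqrt_of_sq_le
    have e1 : (4 * (k : ℝ)) ^ 2 = 16 * (k : ℝ) ^ 2 := by ring
    rw [e1]
    linarith
  have hwe : H419.wS prm N' mu = H359.wS prm N' (H419.GG N' mu) := wS_same h.prime hst.law
  have hl14 : 0 < l ^ 14 := pow_pos (by linarith) _
  have hll : l ≤ l ^ 14 := le_self_pow₀ hl1 (by norm_num)
  have hkk := kN_SD (f := fer f q1 z0) hNS hmem (ρ := 4 * k / √(prm i)) (ε := 1 / l ^ 14)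
    (by positivity) (by rw [div_le_one hsq0]; exact hsq) (fun a ha => (hG a ha).1) hnc hd2
    (by positivity) (by
      rw [div_le_div_iff₀ hl14 (by norm_num)]
      linarith) (by
      rw [hfd, mul_one_div, div_le_one hl14]
      linarith) (rs_zmod (prm i)) (rs_zmod (prm i)) (wS_nonneg hst.law i) (wS_nonneg hst.law i)
    (wS_sum hst.law i) (wS_sum hst.law i)
    (fun x => by
      rw [hwe]
      exact H359.bridge_up B hκ hst (fun n => rfl) (prm_WS h hl1 hA') i x)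
    (fun x => by
      rw [hwe]
      exact H359.bridge_up B hκ hst (fun n => rfl) (prm_WS h hl1 hA') i x)
  rw [hfd] at hkk
  exact hkk

end

/-- **leaf K** of target S -/
theorem leafK : H419.LeafK := by
  intro k R E A' C κ hk hR hE hA' hC hκ hκ1
  have hk1 : 1 ≤ k := by omega
  have hk0 : (0 : ℝ) < k := by exact_mod_cast hk1
  obtain ⟨l1, hl1⟩ := H359.exists_BN k hk1 κ 0 hκ le_rfl 0 C (by omega) (by omega)
  refine ⟨Real.exp (max (max l1 200) (max (32 * (4 * (k : ℝ)) ^ 3) R)),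
    fun P hP ι _ _ prm _ f N' mu q1 z0 Hw h0 c1 c2 hprm hobj => ?_⟩
  have hP0 : 0 < P := lt_of_lt_of_le (Real.exp_pos _) hP
  obtain ⟨l, rfl⟩ : ∃ l, P = Real.exp l := ⟨Real.log P, (Real.exp_log hP0).symm⟩
  have hl : max (max l1 200) (max (32 * (4 * (k : ℝ)) ^ 3) R) ≤ l := Real.exp_le_exp.mp hP
  have hll1 : l1 ≤ l := (le_max_left _ _).trans ((le_max_left _ _).trans hl)
  have hl200 : 200 ≤ l := (le_max_right _ _).trans ((le_max_left _ _).trans hl)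
  have hkl : 32 * (4 * (k : ℝ)) ^ 3 ≤ l := (le_max_left _ _).trans ((le_max_right _ _).trans hl)
  have hRl : (R : ℝ) ≤ l := (le_max_right _ _).trans ((le_max_right _ _).trans hl)
  have hl1' : 1 ≤ l := by linarith
  obtain ⟨K, e, e', u, u', s0, rho, ee, g1, g2, g3, g4, g5, g6, g7, g8, g9, g10, g11⟩ :=
    ker_S (w := H419.wS prm N' mu) (c := 4 * k) hl200 (by positivity) hkl hprm.inj
      (prm_lo hprm hl1' hE) (prm_hi hprm hl1' hA')
      (SD_one hprm hl200 hk1 hE hA' hR hRl hkl hobj.deg hobj.tiny hobj.cont (hl1 l hll1) hκ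
        hobj.st)
  refine ⟨K, e, e', u, u', s0, rho, ee, ?_⟩
  rw [Real.log_exp]
  exact ⟨g1, g2, g3, g4, g5, g6, g7, g8, g9, g10, g11⟩

end Vale.Agent.P042.H482
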