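import Vale.Agent.P042.H482.Trunc
import Vale.Agent.P042.H779.MuBase
import Vale.Agent.P042.H365.Bridge

/-! Two laws and centred kernels: the pair sum over small sets of coordinates. -/

namespace Vale.Agent.P042.H482

open Finset Vale.Agent.P042.H779.Ab
open Vale.Agent.P042.H779 (marg m1 IsProb)
open Vale.Agent.P042.H461 (W av Inv Em gm Hc ip)

set_option linter.unusedSectionVars false

section
variable {ι : Type*} [Fintype ι] [DecidableEq ι] {V : ι → Type*} [∀ i, Fintype (V i)]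
  [∀ i, DecidableEq (V i)] {w : ∀ i, V i → ℝ} {μ μ' : (∀ i, V i) → ℝ}

/-- the conditional averages of the density of a law -/
theorem gm_gdw (H : Ref w μ) (R : Finset ι) : gm w (gdw w μ univ) R = gdw w μ R := by
  have key : ∀ A : Finset ι, Em w A (gdw w μ univ) = gdw w μ Aᶜ := by
    intro A
    induction A using Finset.induction_on with
    | empty =>
      rw [H461.Em_empty H.w_sum, compl_empty]
    | insert i A hi ih =>
      rw [H461.Em_insert H.w_sum hi, ih]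
      funext x
      unfold av
      have h1 : i ∉ (insert i A)ᶜ := by simp
      have h2 : insert i (insert i A)ᶜ = Aᶜ := by
        ext j
        simp only [mem_insert, mem_compl, not_or]
        constructor
        · rintro (h | h)
          · rw [h]; exact hi
          · exact h.2
        · intro h
          by_cases hj : j = i
          · exact Or.inl hj
          · exact Or.inr ⟨hj, h⟩
      have h3 := H.famT.g_avg (insert i A)ᶜ i h1 trivial x
      rw [h2] at h3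
      exact h3
  unfold gm
  rw [key, compl_compl]

/-- the Hoeffding components of the density of a law -/
theorem Hc_gdw (H : Ref w μ) (B : Finset ι) : Hc w (gdw w μ univ) B = hc (gdw w μ) B := by
  funext x
  unfold Hc hc
  rw [Finset.sum_apply]
  refine sum_congr rfl fun A _ => ?_
  rw [gm_gdw H, Pi.smul_apply, smul_eq_mul]

theorem ip_Hc_gdw (H : Ref w μ) (B : Finset ι) :
    ip w (Hc w (gdw w μ univ) B) (Hc w (gdw w μ univ) B) = nh w (gdw w μ) B := by
  rw [Hc_gdw H]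
  unfold ip nh
  exact sum_congr rfl fun x _ => by
    rw [← sq]
    rfl

/-- the pair sum -/
noncomputable def pr (μ μ' : (∀ i, V i) → ℝ) (K : ∀ i, V i → V i → ℝ) (B : Finset ι) : ℝ :=
  ∑ x, ∑ y, μ x * μ' y * ∏ i ∈ B, K i (x i) (y i)

theorem pr_empty (H : Ref w μ) (H' : Ref w μ') (K : ∀ i, V i → V i → ℝ) :
    pr μ μ' K ∅ = 1 := by
  unfold pr
  simp only [prod_empty, mul_one]
  rw [← sum_mul_sum, H.prob.sum_eq, H'.prob.sum_eq, one_mul]

variable {K : ∀ i, V i → V i → ℝ}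

theorem pr_eq (H : Ref w μ) (H' : Ref w μ')
    (hKl : ∀ i b, ∑ a, w i a * K i a b = 0) (hKr : ∀ i a, ∑ b, w i b * K i a b = 0)
    (B : Finset ι) : pr μ μ' K B
      = ip w (Hc w (gdw w μ univ) B) (H365.Tm w K B (Hc w (gdw w μ' univ) B)) := by
  rw [← H365.KB_eq H.w_sum hKl hKr]
  unfold pr
  refine sum_congr rfl fun x _ => sum_congr rfl fun y _ => ?_
  have h1 : W w x * gdw w μ univ x = μ x := H.pw_mul x
  have h2 : W w y * gdw w μ' univ y = μ' y := H'.pw_mul y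
  rw [h1, h2]

/-- **the bilinear step** -/
theorem pr_sum_le (H : Ref w μ) (H' : Ref w μ') {rho : ι → ℝ} (hr : ∀ i, 0 ≤ rho i)
    (hKl : ∀ i b, ∑ a, w i a * K i a b = 0) (hKr : ∀ i a, ∑ b, w i b * K i a b = 0)
    (hK : ∀ i, ∀ u : V i → ℝ, ∑ a, w i a * (∑ b, w i b * (K i a b * u b)) ^ 2
      ≤ rho i ^ 2 * ∑ b, w i b * u b ^ 2) (D : Finset (Finset ι)) :
    ∑ B ∈ D, |pr μ μ' K B| ≤ √(∑ B ∈ D, (∏ i ∈ B, rho i) * nh w (gdw w μ) B)
      * √(∑ B ∈ D, (∏ i ∈ B, rho i) * nh w (gdw w μ') B) := by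
  have hp : ∀ B : Finset ι, 0 ≤ ∏ i ∈ B, rho i := fun B => prod_nonneg fun i _ => hr i
  have hn : ∀ B : Finset ι, 0 ≤ nh w (gdw w μ) B := fun B => nh_nonneg H.famT B
  have hn' : ∀ B : Finset ι, 0 ≤ nh w (gdw w μ') B := fun B => nh_nonneg H'.famT B
  refine le_trans (sum_le_sum (g := fun B => √((∏ i ∈ B, rho i) * nh w (gdw w μ) B)
    * √((∏ i ∈ B, rho i) * nh w (gdw w μ') B)) fun B _ => ?_)
    (Real.sum_sqrt_mul_sqrt_le _ (fun B => mul_nonneg (hp B) (hn B))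
      (fun B => mul_nonneg (hp B) (hn' B)))
  rw [pr_eq H H' hKl hKr]
  have h1 := H365.tens_op H.w_nonneg H.w_sum hr hK B (Hc w (gdw w μ univ) B)
    (Hc w (gdw w μ' univ) B)
  rw [ip_Hc_gdw H, ip_Hc_gdw H'] at h1
  refine h1.trans (le_of_eq ?_)
  rw [Real.sqrt_mul (hp B), Real.sqrt_mul (hp B), mul_mul_mul_comm, Real.mul_self_sqrt (hp B)]

/-- **the local comparison**: if the planted masses of both laws are at most `1 + η`, the pair
sum over small sets (any collection containing the empty set) is `1` up to `2 (η + 2 ∑ s / d)`. -/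
theorem pr_near_one (H : Ref w μ) (H' : Ref w μ') {rho s : ι → ℝ} {τ η : ℝ} {d : ℕ}
    (hr : ∀ i, 0 ≤ rho i) (hrs : ∀ i, rho i ≤ τ * s i) (hs0 : ∀ i, 0 ≤ s i) (hs1 : ∀ i, s i ≤ 1)
    (h0 : 0 ≤ τ) (hd : 0 < d) (hsum : 8 * ∑ i, s i ≤ d)
    (hKl : ∀ i b, ∑ a, w i a * K i a b = 0) (hKr : ∀ i a, ∑ b, w i b * K i a b = 0)
    (hK : ∀ i, ∀ u : V i → ℝ, ∑ a, w i a * (∑ b, w i b * (K i a b * u b)) ^ 2
      ≤ rho i ^ 2 * ∑ b, w i b * u b ^ 2)
    (hG : Gm w (gdw w μ) (rw' s (fun R => R.card ≤ d)) τ ≤ 1 + η)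
    (hG' : Gm w (gdw w μ') (rw' s (fun R => R.card ≤ d)) τ ≤ 1 + η)
    (D : Finset (Finset ι)) (hD0 : ∅ ∈ D) (hD : ∀ B ∈ D, 2 * B.card ≤ d) :
    |∑ B ∈ D, pr μ μ' K B - 1| ≤ 2 * (η + 2 * (∑ i, s i) / d) := by
  have hok : ∀ R S : Finset ι, R ⊆ S → S.card ≤ d → R.card ≤ d := fun R S h1 h2 =>
    (card_le_card h1).trans h2
  have F := H.fam (ok := fun R => R.card ≤ d) hok
  have F' := H'.fam (ok := fun R => R.card ≤ d) hok
  have h1 := trunc_bern' F hs0 hs1 h0 hd hsum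
  have h1' := trunc_bern' F' hs0 hs1 h0 hd hsum
  have hsub : D.erase ∅ ⊆ (univ : Finset ι).powerset.filter (fun B => 2 * B.card ≤ d ∧ B ≠ ∅) := by
    intro B hB
    rw [mem_erase] at hB
    rw [mem_filter, mem_powerset]
    exact ⟨subset_univ B, hD B hB.2, hB.1⟩
  have key : ∀ {ν : (∀ i, V i) → ℝ}, Ref w ν →
      ∑ B ∈ (univ : Finset ι).powerset.filter (fun B => 2 * B.card ≤ d ∧ B ≠ ∅),
        (∏ i ∈ B, τ * s i) * nh w (gdw w ν) B ≤ 2 * (η + 2 * (∑ i, s i) / d) →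
      ∑ B ∈ D.erase ∅, (∏ i ∈ B, rho i) * nh w (gdw w ν) B ≤ 2 * (η + 2 * (∑ i, s i) / d) := by
    intro ν Hν h2
    refine le_trans ?_ h2
    refine le_trans (sum_le_sum (g := fun B => (∏ i ∈ B, τ * s i) * nh w (gdw w ν) B)
      fun B _ => mul_le_mul_of_nonneg_right (prod_le_prod (fun i _ => hr i) fun i _ => hrs i)
        (nh_nonneg Hν.famT B)) ?_
    exact sum_le_sum_of_subset_of_nonneg hsub fun B _ _ =>
      mul_nonneg (prod_nonneg fun i _ => mul_nonneg h0 (hs0 i)) (nh_nonneg Hν.famT B)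
  have h2 := key H (by linarith)
  have h2' := key H' (by linarith)
  have h3 := pr_sum_le H H' hr hKl hKr hK (D.erase ∅)
  have h4 : ∑ B ∈ D, pr μ μ' K B - 1 = ∑ B ∈ D.erase ∅, pr μ μ' K B := by
    rw [← add_sum_erase D _ hD0, pr_empty H H']
    ring
  rw [h4]
  refine (abs_sum_le_sum_abs _ _).trans (h3.trans ?_)
  have h5 : 0 ≤ 2 * (η + 2 * (∑ i, s i) / d) :=
    le_trans (sum_nonneg fun B _ => mul_nonneg (prod_nonneg fun i _ => hr i)
      (nh_nonneg H.famT B)) h2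
  calc √(∑ B ∈ D.erase ∅, (∏ i ∈ B, rho i) * nh w (gdw w μ) B)
      * √(∑ B ∈ D.erase ∅, (∏ i ∈ B, rho i) * nh w (gdw w μ') B)
      ≤ √(2 * (η + 2 * (∑ i, s i) / d)) * √(2 * (η + 2 * (∑ i, s i) / d)) :=
        mul_le_mul (Real.sqrt_le_sqrt h2) (Real.sqrt_le_sqrt h2') (Real.sqrt_nonneg _)
          (Real.sqrt_nonneg _)
    _ = _ := Real.mul_self_sqrt h5

end

end Vale.Agent.P042.H482
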