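import Vale.Agent.P042.H482.PushZ
import Vale.Agent.P042.H945.State10

/-! Bridge of target S, part 1: cells of integers and the product space of residues. -/

namespace Vale.Agent.P042.H482

open Finset Vale.Agent.P042.H779.Ab Vale.Agent.P042.H599 Vale.Agent.P042.H945
open Vale.Agent.P042.H779 (marg m1 IsProb marg_nonneg m1_nonneg m1_sum marg_congr marg_anti
  marg_empty marg_insert_sum)

set_option linter.unusedSectionVars false

/-- chinese remainder for two moduli -/
lemma crt2 {D p a b : ℕ} (hD : 0 < D) (hp : 0 < p) (h : D.Coprime p) (ha : a < D) (hb : b < p) :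
    ∃ c < D * p, ∀ n : ℕ, (n % D = a ∧ n % p = b) ↔ n % (D * p) = c := by
  refine ⟨Nat.chineseRemainder h a b, Nat.chineseRemainder_lt_mul h a b hD.ne' hp.ne', ?_⟩
  intro n
  have hc := (Nat.chineseRemainder h a b).2
  have hlt := Nat.chineseRemainder_lt_mul h a b hD.ne' hp.ne'
  obtain ⟨c, hcd⟩ : ∃ c : ℕ, c = (Nat.chineseRemainder h a b : ℕ) := ⟨_, rfl⟩
  rw [← hcd] at hc hlt ⊢
  have h1 : n % D = a ↔ n ≡ c [MOD D] := by
    unfold Nat.ModEq
    rw [show c % D = a % D from hc.1, Nat.mod_eq_of_lt ha]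
  have h2 : n % p = b ↔ n ≡ c [MOD p] := by
    unfold Nat.ModEq
    rw [show c % p = b % p from hc.2, Nat.mod_eq_of_lt hb]
  rw [h1, h2, Nat.modEq_and_modEq_iff_modEq_mul h]
  unfold Nat.ModEq
  rw [Nat.mod_eq_of_lt hlt]

lemma zmod_eq_iff {p : ℕ} [NeZero p] (n : ℕ) (b : ZMod p) : ((n : ZMod p) = b) ↔ n % p = b.val := by
  constructor
  · intro h
    rw [← h, ZMod.val_natCast]
  · intro h
    apply ZMod.val_injective p
    rw [ZMod.val_natCast, h]

lemma sum_zmod (p : ℕ) [NeZero p] (f : ℕ → ℝ) : ∑ b : ZMod p, f b.val = ∑ a ∈ range p, f a := by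
  refine sum_bij (fun b _ => b.val) (fun b _ => mem_range.mpr (ZMod.val_lt b))
    (fun a _ b _ h => ZMod.val_injective p h) (fun a ha => ?_) (fun b _ => rfl)
  refine ⟨(a : ZMod p), mem_univ _, ?_⟩
  rw [ZMod.val_natCast]
  exact Nat.mod_eq_of_lt (mem_range.mp ha)

/-- mass as a sum over an interval -/
lemma ms_eq {mu : ℕ → ℝ} {N' u v : ℕ} (hu : 1 ≤ u) (hv : v ≤ N') (F : ℕ → Prop)
    [DecidablePred F] :
    ms mu N' (fun n => F n ∧ u ≤ n ∧ n ≤ v) = ∑ n ∈ Finset.Icc u v, if F n then mu n else 0 := by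
  classical
  unfold ms SM
  have h1 : ∑ i ∈ range N', (if (F (1 + i) ∧ u ≤ 1 + i ∧ 1 + i ≤ v) then mu (1 + i) else 0)
      = ∑ n ∈ Finset.Ico 1 (N' + 1), (if (F n ∧ u ≤ n ∧ n ≤ v) then mu n else 0) := by
    rw [Finset.sum_Ico_eq_sum_range]
    simp
  have h2 : ∑ n ∈ Finset.Icc u v, (if F n then mu n else 0)
      = ∑ n ∈ Finset.Ico 1 (N' + 1), (if (F n ∧ u ≤ n ∧ n ≤ v) then mu n else 0) := by
    have h3 : Finset.Icc u v ⊆ Finset.Ico 1 (N' + 1) := by
      intro n hn
      rw [Finset.mem_Icc] at hn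
      rw [Finset.mem_Ico]
      omega
    rw [← Finset.sum_subset h3 (f := fun n => if (F n ∧ u ≤ n ∧ n ≤ v) then mu n else 0)]
    · refine sum_congr rfl fun n hn => ?_
      rw [Finset.mem_Icc] at hn
      by_cases hF : F n
      · rw [if_pos hF, if_pos ⟨hF, hn.1, hn.2⟩]
      · rw [if_neg hF, if_neg fun h => hF h.1]
    · intro n _ hn
      rw [Finset.mem_Icc] at hn
      rw [if_neg fun h => hn ⟨h.2.1, h.2.2⟩]
  rw [h2, ← h1]
  refine sum_congr rfl fun i _ => ?_
  by_cases h : F (1 + i) ∧ u ≤ 1 + i ∧ 1 + i ≤ v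
  · exact (if_pos h).trans (if_pos h).symm
  · exact (if_neg h).trans (if_neg h).symm

lemma ms_congr {mu : ℕ → ℝ} {N' : ℕ} {F G : ℕ → Prop} (h : ∀ n, F n ↔ G n) :
    ms mu N' F = ms mu N' G := by
  have : F = G := funext fun n => propext (h n)
  rw [this]

/-- the set of integers of a cell -/
def cN (q c u v : ℕ) : Finset ℕ := (Finset.Icc u v).filter (fun n => n % q = c)

section
variable {ι : Type*} [Fintype ι] [DecidableEq ι] {prm : ι → ℕ} [∀ i, NeZero (prm i)]

/-- residues -/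
def rd (prm : ι → ℕ) (n : ℕ) (i : ι) : ZMod (prm i) := (n : ZMod (prm i))

/-- the cells of the product space are cells of integers -/
lemma cell_crt (hcop : ∀ i j, i ≠ j → (prm i).Coprime (prm j)) {q c : ℕ} (hq : 0 < q)
    (hqc : ∀ i, q.Coprime (prm i)) (hc : c < q) (x : ∀ i, ZMod (prm i)) (P : Finset ι) :
    ∃ c' < q * ∏ i ∈ P, prm i, ∀ n : ℕ,
      (n % q = c ∧ ∀ i ∈ P, rd prm n i = x i) ↔ n % (q * ∏ i ∈ P, prm i) = c' := by
  induction P using Finset.induction_on with
  | empty => exact ⟨c, by simpa using hc, fun n => by simp⟩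
  | insert j P hj ih =>
    obtain ⟨c1, hc1, h1⟩ := ih
    have hpos : 0 < q * ∏ i ∈ P, prm i :=
      Nat.mul_pos hq (prod_pos fun i _ => Nat.pos_of_ne_zero (NeZero.ne _))
    have hpj : 0 < prm j := Nat.pos_of_ne_zero (NeZero.ne _)
    have hcp : (q * ∏ i ∈ P, prm i).Coprime (prm j) := by
      refine Nat.Coprime.mul_left (hqc j) (Nat.Coprime.prod_left fun i hi => ?_)
      exact hcop i j (fun h => hj (h ▸ hi))
    obtain ⟨c2, hc2, h2⟩ := crt2 hpos hpj hcp hc1 (ZMod.val_lt (x j))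
    have e1 : q * ∏ i ∈ insert j P, prm i = (q * ∏ i ∈ P, prm i) * prm j := by
      rw [prod_insert hj]; ring
    refine ⟨c2, by rw [e1]; exact hc2, fun n => ?_⟩
    rw [e1, ← h2 n, ← h1 n]
    constructor
    · rintro ⟨g1, g2⟩
      refine ⟨⟨g1, fun i hi => g2 i (mem_insert_of_mem hi)⟩, ?_⟩
      exact (zmod_eq_iff n (x j)).mp (g2 j (mem_insert_self j P))
    · rintro ⟨⟨g1, g2⟩, g3⟩
      refine ⟨g1, fun i hi => ?_⟩
      rcases mem_insert.mp hi with rfl | hi
      · exact (zmod_eq_iff n (x i)).mpr g3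
      · exact g2 i hi

/-- the window law -/
noncomputable def muW (prm : ι → ℕ) [∀ i, NeZero (prm i)] (mu : ℕ → ℝ) (q c u v : ℕ) :
    (∀ i, ZMod (prm i)) → ℝ := psh (rd prm) (cN q c u v) mu

/-- the reference weights: marginals of the whole law -/
noncomputable def wW (prm : ι → ℕ) [∀ i, NeZero (prm i)] (mu : ℕ → ℝ) (N' : ℕ) (i : ι) :
    ZMod (prm i) → ℝ := m1 (psh (rd prm) (Finset.Icc 1 N') mu) i

variable {mu : ℕ → ℝ} {N' : ℕ}

lemma sum_law (hL : Law mu 1 N') : ∑ n ∈ Finset.Icc 1 N', mu n = 1 := by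
  have h1 := hL.sum
  have h2 : ∑ n ∈ Finset.Icc 1 N', mu n = ∑ i ∈ range N', mu (1 + i) := by
    have : Finset.Icc 1 N' = Finset.Ico 1 (N' + 1) := by
      ext n; simp only [Finset.mem_Icc, Finset.mem_Ico]; omega
    rw [this, Finset.sum_Ico_eq_sum_range]
    simp
  rw [h2, h1]

lemma law_nonneg (hL : Law mu 1 N') {n : ℕ} (hn : n ∈ Finset.Icc 1 N') : 0 ≤ mu n := by
  rw [Finset.mem_Icc] at hn
  have := hL.nonneg (n - 1) (by omega)
  rwa [show 1 + (n - 1) = n by omega] at this

/-- the weights are the class masses -/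
lemma wW_eq (hL : Law mu 1 N') (i : ι) (b : ZMod (prm i)) :
    wW prm mu N' i b = cm mu 1 N' (prm i) b.val := by
  unfold wW
  rw [m1_psh, sum_law hL, div_one]
  unfold cm
  have : Finset.Icc 1 N' = Finset.Ico 1 (N' + 1) := by
    ext n; simp only [Finset.mem_Icc, Finset.mem_Ico]; omega
  rw [this, Finset.sum_Ico_eq_sum_range]
  simp only [add_tsub_cancel_right]
  refine sum_congr rfl fun k _ => ?_
  have h1 := zmod_eq_iff (p := prm i) (1 + k) b
  by_cases h : (1 + k) % prm i = b.val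
  · rw [if_pos h]
    exact if_pos (h1.mpr h)
  · rw [if_neg h]
    exact if_neg fun hc => h (h1.mp hc)

lemma cel_ms {q c u v : ℕ} (hu : 1 ≤ u) (hv : v ≤ N') (P : Finset ι) (x : ∀ i, ZMod (prm i)) :
    cel (rd prm) (cN q c u v) mu P x
      = ms mu N' (fun n => (n % q = c ∧ ∀ i ∈ P, rd prm n i = x i) ∧ u ≤ n ∧ n ≤ v) := by
  classical
  rw [ms_eq hu hv]
  unfold cel cN
  rw [sum_filter]
  refine sum_congr rfl fun n _ => ?_
  by_cases h1 : n % q = c
  · rw [if_pos h1]
    by_cases h2 : ∀ i ∈ P, rd prm n i = x i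
    · rw [if_pos h2, if_pos ⟨h1, h2⟩]
    · rw [if_neg h2, if_neg fun hc => h2 hc.2]
  · rw [if_neg h1, if_neg fun hc => h1 hc.1]

lemma tot_ms {q c u v : ℕ} (hu : 1 ≤ u) (hv : v ≤ N') :
    ∑ n ∈ cN q c u v, mu n = ms mu N' (cl q c u v) := by
  classical
  have h1 := ms_eq (mu := mu) hu hv (fun n => n % q = c)
  unfold cN
  rw [sum_filter, ← h1]
  refine ms_congr fun n => ?_
  unfold cl
  tauto

lemma cN_sub {q c u v : ℕ} (hu : 1 ≤ u) (hv : v ≤ N') : cN q c u v ⊆ Finset.Icc 1 N' := by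
  intro n hn
  unfold cN at hn
  rw [mem_filter, Finset.mem_Icc] at hn
  rw [Finset.mem_Icc]
  omega

/-- **divergences of the window law are relative entropies of the cells** -/
theorem Di_klc (hL : Law mu 1 N') {q c u v D c' : ℕ} (hu : 1 ≤ u) (hv : v ≤ N')
    (htot : 0 < ms mu N' (cl q c u v)) {P : Finset ι} {x : ∀ i, ZMod (prm i)}
    (hcell : ∀ n : ℕ, (n % q = c ∧ ∀ i ∈ P, rd prm n i = x i) ↔ n % D = c')
    (hpos : 0 < ms mu N' (cl D c' u v)) {j : ι} (hj : j ∉ P) :
    Di (wW prm mu N') (gdw (wW prm mu N') (muW prm mu q c u v)) j P x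
      = klc (rst mu N' (cl D c' u v)) mu N' (prm j) := by
  classical
  have hS0 : 0 < ∑ n ∈ cN q c u v, mu n := by rw [tot_ms hu hv]; exact htot
  have H : Ref (wW prm mu N') (muW prm mu q c u v) :=
    psh_ref (red := rd prm) (cN_sub hu hv) (fun n hn => law_nonneg hL hn) hS0
  have hmP : marg (muW prm mu q c u v) P x
      = ms mu N' (cl D c' u v) / ms mu N' (cl q c u v) := by
    unfold muW
    rw [marg_psh, cel_ms hu hv, tot_ms hu hv]
    congr 1
    refine ms_congr fun n => ?_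
    unfold cl
    have := hcell n
    tauto
  have hx : 0 < marg (muW prm mu q c u v) P x := by rw [hmP]; exact div_pos hpos htot
  rw [Di_kl H hj hx]
  have hR : ∀ b : ZMod (prm j), marg (muW prm mu q c u v) (insert j P) (Function.update x j b)
      / marg (muW prm mu q c u v) P x
      = cm (rst mu N' (cl D c' u v)) 1 N' (prm j) b.val := by
    intro b
    have h1 : marg (muW prm mu q c u v) (insert j P) (Function.update x j b)
        = ms mu N' (fun n => n % prm j = b.val ∧ cl D c' u v n) / ms mu N' (cl q c u v) := by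
      unfold muW
      rw [marg_psh, cel_ms hu hv, tot_ms hu hv]
      congr 1
      refine ms_congr fun n => ?_
      have h2 : (∀ i ∈ insert j P, rd prm n i = Function.update x j b i) ↔
          ((∀ i ∈ P, rd prm n i = x i) ∧ n % prm j = b.val) := by
        constructor
        · intro h
          refine ⟨fun i hi => ?_, ?_⟩
          · have hij : i ≠ j := fun h => hj (h ▸ hi)
            have := h i (mem_insert_of_mem hi)
            rwa [Function.update_of_ne hij] at this
          · have := h j (mem_insert_self j P)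
            rw [Function.update_self] at this
            exact (zmod_eq_iff n b).mp this
        · rintro ⟨h3, h4⟩ i hi
          rcases mem_insert.mp hi with rfl | hi
          · rw [Function.update_self]
            exact (zmod_eq_iff n b).mpr h4
          · have hij : i ≠ j := fun h => hj (h ▸ hi)
            rw [Function.update_of_ne hij]
            exact h3 i hi
      have h3 := hcell n
      unfold cl
      tauto
    rw [h1, hmP, ← ms_class, ms_rst, div_div_div_cancel_right₀ htot.ne']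
  rw [sum_congr rfl fun b _ => by rw [hR b, wW_eq hL]]
  unfold klc
  rw [← sum_zmod (prm j) (fun a => cm (rst mu N' (cl D c' u v)) 1 N' (prm j) a *
    (Real.log (cm (rst mu N' (cl D c' u v)) 1 N' (prm j) a)
      - Real.log (cm mu 1 N' (prm j) a)))]

end

end Vale.Agent.P042.H482
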