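import Vale.Agent.P042.H779.MuTr

/-! Sums over dyadic scales. -/

namespace Vale.Agent.P042.H482

open Finset Vale.Agent.P042.H779.Ab

set_option linter.unusedSectionVars false

/-- `√2` -/
noncomputable def r2 : ℝ := √2

lemma r2_sq : r2 * r2 = 2 := Real.mul_self_sqrt (by norm_num)

lemma r2_pos : 0 < r2 := Real.sqrt_pos.mpr (by norm_num)

lemma r2_gt : 1.4 < r2 := by
  unfold r2
  rw [Real.lt_sqrt (by norm_num)]
  norm_num

lemma r2_lt : r2 < 1.5 := by
  unfold r2
  rw [Real.sqrt_lt' (by norm_num)]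
  norm_num

lemma r2_one_le : 1 ≤ r2 := by linarith [r2_gt]

lemma r2_pow_sq (s : ℕ) : r2 ^ s * r2 ^ s = 2 ^ s := by
  rw [← mul_pow, r2_sq]

/-- geometric sum -/
lemma r2_geom (n : ℕ) : ∑ s ∈ range n, r2 ^ s ≤ 3 * r2 ^ n := by
  induction n with
  | zero => simp
  | succ n ih =>
    rw [sum_range_succ, pow_succ]
    have h1 : 0 < r2 ^ n := pow_pos r2_pos n
    have h2 := r2_gt
    nlinarith

section
variable {ι : Type*} [Fintype ι] [DecidableEq ι] {pr : ι → ℕ}

/-- the dyadic scale -/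
def dsc (pr : ι → ℕ) (i : ι) : ℕ := Nat.log 2 (pr i)

lemma card_At_le (hinj : Function.Injective pr) (hpos : ∀ i, 1 ≤ pr i) (s : ℕ) :
    (At (dsc pr) s).card ≤ 2 ^ s := by
  have h1 : ((At (dsc pr) s).image pr).card = (At (dsc pr) s).card :=
    card_image_of_injective _ hinj
  have h2 : (At (dsc pr) s).image pr ⊆ Finset.Ico (2 ^ s) (2 ^ (s + 1)) := by
    intro n hn
    rw [mem_image] at hn
    obtain ⟨i, hi, rfl⟩ := hn
    unfold At dsc at hi
    rw [mem_filter] at hi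
    rw [Finset.mem_Ico, ← hi.2]
    exact ⟨Nat.pow_log_le_self 2 (by have := hpos i; omega), Nat.lt_pow_succ_log_self (by norm_num) _⟩
  have h3 := card_le_card h2
  rw [h1, Nat.card_Ico, pow_succ] at h3
  omega

lemma sqrt_pr_ge (hpos : ∀ i, 1 ≤ pr i) (i : ι) : r2 ^ dsc pr i ≤ √(pr i) := by
  apply Real.le_sqrt_of_sq_le
  rw [sq, r2_pow_sq]
  have : 2 ^ dsc pr i ≤ pr i := Nat.pow_log_le_self 2 (by have := hpos i; omega)
  exact_mod_cast this

lemma sqrt_pr_lt (i : ι) : √(pr i) < r2 ^ (dsc pr i + 1) := by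
  rw [Real.sqrt_lt' (pow_pos r2_pos _), sq, r2_pow_sq]
  have : pr i < 2 ^ (dsc pr i + 1) := Nat.lt_pow_succ_log_self (by norm_num) _
  exact_mod_cast this

/-- sum over the scales below `n` of a function bounded by `q / √p` -/
lemma sum_Lo_le (hinj : Function.Injective pr) (hpos : ∀ i, 1 ≤ pr i) {v : ι → ℝ} {q : ℝ}
    (hq : 0 ≤ q) (hv : ∀ i, v i ≤ q / √(pr i)) (n : ℕ) :
    ∑ i ∈ Lo (dsc pr) n, v i ≤ q * ∑ s ∈ range n, r2 ^ s := by
  induction n with
  | zero =>
    have : Lo (dsc pr) 0 = ∅ := by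
      ext i; simp [Lo]
    rw [this]; simp
  | succ n ih =>
    rw [Lo_succ, sum_range_succ, mul_add]
    have hd : Disjoint (Lo (dsc pr) n) (At (dsc pr) n) := by
      rw [disjoint_left]
      intro i hi hi'
      unfold Lo at hi
      unfold At at hi'
      rw [mem_filter] at hi hi'
      omega
    rw [sum_union hd]
    refine add_le_add ih ?_
    have h1 : ∀ i ∈ At (dsc pr) n, v i ≤ q / r2 ^ n := by
      intro i hi
      unfold At at hi
      rw [mem_filter] at hi
      refine (hv i).trans ?_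
      have h2 := sqrt_pr_ge hpos i
      rw [hi.2] at h2
      exact div_le_div_of_nonneg_left hq (pow_pos r2_pos n) h2
    refine (sum_le_sum h1).trans ?_
    rw [sum_const, nsmul_eq_mul]
    have h3 : ((At (dsc pr) n).card : ℝ) ≤ 2 ^ n := by exact_mod_cast card_At_le hinj hpos n
    have h4 : 0 < r2 ^ n := pow_pos r2_pos n
    calc ((At (dsc pr) n).card : ℝ) * (q / r2 ^ n) ≤ 2 ^ n * (q / r2 ^ n) :=
          mul_le_mul_of_nonneg_right h3 (by positivity)
      _ = q * r2 ^ n := by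
          rw [← r2_pow_sq]
          field_simp

/-- the total sum -/
lemma sum_all_le (hinj : Function.Injective pr) (hpos : ∀ i, 1 ≤ pr i) {v : ι → ℝ} {q : ℝ}
    (hq : 0 ≤ q) (hv : ∀ i, v i ≤ q / √(pr i)) {n : ℕ} (hn : ∀ i, dsc pr i < n) :
    ∑ i, v i ≤ 3 * q * r2 ^ n := by
  have h1 : Lo (dsc pr) n = univ := by
    ext i
    simp [Lo, hn i]
  have h2 := sum_Lo_le hinj hpos hq hv n
  rw [h1] at h2
  have h3 := mul_le_mul_of_nonneg_left (r2_geom n) hq
  linarith

end

end Vale.Agent.P042.H482
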