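import Vale.Agent.P042.H168.ThL

/-!
# P042: the two pointwise hypotheses of `H635.sideIn_of` at the state of the power regime
-/

set_option autoImplicit false
set_option linter.unusedSectionVars false

namespace Vale.Agent.P042.H482

open Finset Vale.Agent.P042.H461 Vale.Agent.P042.H858
open Vale.Agent.P042.H599 (cm Law)
open Vale.Agent.P042.H945 (SM kl2 klc ms cl)
open Vale.Agent.P042.H779 (marg m1 phi)
open Vale.Agent.P042.H359 (cellZ)

section
variable {ι : Type} [Fintype ι] [DecidableEq ι] {V : ι → Type} [∀ i, Fintype (V i)]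
  [∀ i, DecidableEq (V i)] {N : ℕ} {mu : ℕ → ℝ} {G f : ℤ → ℝ}

/-- the class masses at a charged point are positive -/
theorem m1_pos_of (hG : ∀ n : ℤ, G n = if 1 ≤ n then (N : ℝ) * mu n.toNat else 0)
    (nn : ∀ n, 0 ≤ mu n) {n : ℤ} (hn : n ≤ N) (h0 : G n ≠ 0) (red : ℤ → ∀ i, V i) (i : ι) :
    0 < m1 (pf (fun i (n : ℕ) => red (n : ℤ) i) mu 1 N) i (red n i) := by
  have h1n : 1 ≤ n := by
    by_contra hcon
    rw [hG, if_neg hcon] at h0
    exact h0 rfl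
  obtain ⟨m, rfl⟩ : ∃ m : ℕ, n = m := ⟨n.toNat, (Int.toNat_of_nonneg (by omega)).symm⟩
  have hm : mu m ≠ 0 := by
    intro h
    rw [hG, if_pos h1n, Int.toNat_natCast, h, mul_zero] at h0
    exact h0 rfl
  have hmp : 0 < mu m := lt_of_le_of_ne (nn m) hm.symm
  have h1 : m1 (pf (fun i (n : ℕ) => red (n : ℤ) i) mu 1 N) i (red (m : ℤ) i) =
      SM N (fun n => mu n * if red (n : ℤ) i = red (m : ℤ) i then 1 else 0) := by
    unfold m1
    have h2 : ∀ y : ∀ i, V i, (if y i = red (m : ℤ) i then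
        pf (fun i (n : ℕ) => red (n : ℤ) i) mu 1 N y else 0) =
        pf (fun i (n : ℕ) => red (n : ℤ) i) mu 1 N y *
          (if y i = red (m : ℤ) i then 1 else 0) := fun y => by split_ifs <;> simp
    rw [Finset.sum_congr rfl fun y _ => h2 y, sum_pf]
  rw [h1]
  unfold SM
  have hmN : m - 1 < N := by omega
  refine lt_of_lt_of_le ?_ (Finset.single_le_sum (f := fun k => (fun n => mu n *
    if red (n : ℤ) i = red (m : ℤ) i then (1 : ℝ) else 0) (1 + k)) (fun k _ => ?_)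
    (Finset.mem_range.2 hmN))
  · show 0 < mu (1 + (m - 1)) * (if red ((1 + (m - 1) : ℕ) : ℤ) i = red (m : ℤ) i then 1 else 0)
    have e1 : 1 + (m - 1) = m := by omega
    rw [e1, if_pos rfl, mul_one]
    exact hmp
  · show 0 ≤ mu (1 + k) * (if red ((1 + k : ℕ) : ℤ) i = red (m : ℤ) i then (1 : ℝ) else 0)
    refine mul_nonneg (nn _) ?_
    split_ifs <;> norm_num

/-- slot `W w (red n) ≠ 0` of `sideIn_of` -/
theorem Ww_slot (hG : ∀ n : ℤ, G n = if 1 ≤ n then (N : ℝ) * mu n.toNat else 0)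
    (nn : ∀ n, 0 ≤ mu n) {D0 w0 u v : ℕ} (hv : v ≤ N) {t : ℝ} (hf : ∀ n, f n = G n / t)
    (red : ℤ → ∀ i, V i) : ∀ n ∈ cellZ D0 w0 u v, f n ≠ 0 →
      Vale.Agent.P042.H461.W (fun i => m1 (pf (fun i (n : ℕ) => red (n : ℤ) i) mu 1 N) i)
        (red n) ≠ 0 := by
  intro n hn hne
  have hG0 : G n ≠ 0 := by
    intro h
    rw [hf, h, zero_div] at hne
    exact hne rfl
  have hnN : n ≤ N := by
    unfold cellZ at hn
    have h1 := (mem_Icc.1 (mem_filter.1 hn).1).2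
    have h2 : (v : ℤ) ≤ N := by exact_mod_cast hv
    linarith
  unfold Vale.Agent.P042.H461.W
  exact prod_ne_zero_iff.2 fun i _ => (m1_pos_of hG nn hnN hG0 red i).ne'

/-- slot `sup` of `sideIn_of`: `M` = length of the window -/
theorem sup_slot (hG : ∀ n : ℤ, G n = if 1 ≤ n then (N : ℝ) * mu n.toNat else 0)
    (law : Law mu 1 N) (nn : ∀ n, 0 ≤ mu n) {D0 w0 u v : ℕ} (hw0 : w0 < D0)
    (hm0 : 0 < ms mu N (cl D0 w0 u v))
    (hf : ∀ n, f n = G n / (N * ms mu N (cl D0 w0 u v)))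
    {q : ι → ℕ} {red : ℤ → ∀ i, V i}
    (hres : ∀ (i : ι) (n m : ℕ), red (n : ℤ) i = red (m : ℤ) i ↔ n ≡ m [MOD q i])
    {γ A0 g be ga a Λ : ℝ} {W : Finset ℕ} {sc : ι → ℕ} {ns : ℕ}
    (hN : H743.PinNum γ A0 g be ga W q sc ns Λ a)
    (atom : ∀ p ∈ W, ∀ a, cm mu 1 N p a = 0 ∨ (p : ℝ) ^ (-g) / (4 * p) ≤ cm mu 1 N p a)
    {Dm : ℝ} (cap : ∀ n, N * mu n ≤ 2 * Real.exp (32 * Dm)) {Vv hh lm A1 : ℝ} (hV : 0 < Vv)
    (hdens : -hh ≤ Real.log (D0 * ms mu N (cl D0 w0 u v) * N / Vv)) {M d : ℕ} (hMV : (M : ℝ) ≤ Vv)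
    (hlm0 : 0 ≤ lm) (hlm : ∀ i, Real.log (q i) ≤ lm)
    (hA : 2 * D0 * Real.exp (hh + 32 * Dm + d * ((1 + g) * lm + Real.log 4)) ≤ A1) :
    ∀ (T : Finset ι) (x : ∀ i, V i), T.card ≤ d →
      (∀ i ∈ T, 0 < m1 (pf (fun i (n : ℕ) => red (n : ℤ) i) mu 1 N) i (x i)) →
      ∀ n : ℤ, (M : ℝ) * (f n *
        ∏ i ∈ T, (m1 (pf (fun i (n : ℕ) => red (n : ℤ) i) mu 1 N) i (x i))⁻¹) ≤ A1 := by
  intro T x hT hx n
  have hNN : (0 : ℝ) < N := by exact_mod_cast law.pos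
  have hD0 : (0 : ℝ) < D0 := by exact_mod_cast lt_of_le_of_lt (Nat.zero_le _) hw0
  have hl4 : (0 : ℝ) ≤ Real.log 4 := Real.log_nonneg (by norm_num)
  obtain ⟨ms0, hms⟩ : ∃ y, y = ms mu N (cl D0 w0 u v) := ⟨_, rfl⟩
  rw [← hms] at hm0 hf hdens
  -- the density
  have h1 : Vv / D0 * Real.exp (-hh) ≤ N * ms0 := by
    have h2 : Real.exp (-hh) ≤ D0 * ms0 * N / Vv := by
      rw [← Real.exp_log (show 0 < D0 * ms0 * N / Vv by positivity)]
      exact Real.exp_le_exp.2 hdens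
    rw [le_div_iff₀ hV] at h2
    rw [div_mul_eq_mul_div, div_le_iff₀ hD0]
    nlinarith
  have hG0 : 0 ≤ G n := by
    rw [hG]
    split_ifs
    · exact mul_nonneg hNN.le (nn _)
    · exact le_rfl
  have hGc : G n ≤ 2 * Real.exp (32 * Dm) := by
    rw [hG]
    split_ifs
    · exact cap _
    · positivity
  -- the value
  have h3 : (M : ℝ) * f n ≤ 2 * D0 * Real.exp (hh + 32 * Dm) := by
    rw [hf, ← mul_div_assoc, div_le_iff₀ (by positivity)]
    calc (M : ℝ) * G n ≤ Vv * (2 * Real.exp (32 * Dm)) :=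
          mul_le_mul hMV hGc hG0 hV.le
      _ = 2 * D0 * Real.exp (hh + 32 * Dm) * (Vv / D0 * Real.exp (-hh)) := by
          rw [Real.exp_add, Real.exp_neg]
          field_simp
      _ ≤ 2 * D0 * Real.exp (hh + 32 * Dm) * (N * ms0) :=
          mul_le_mul_of_nonneg_left h1 (by positivity)
  have hf0 : 0 ≤ f n := by
    rw [hf]; positivity
  -- the product
  have h4 : ∏ i ∈ T, (m1 (pf (fun i (n : ℕ) => red (n : ℤ) i) mu 1 N) i (x i))⁻¹ ≤
      Real.exp (d * ((1 + g) * lm + Real.log 4)) := by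
    have h5 : ∏ i ∈ T, (m1 (pf (fun i (n : ℕ) => red (n : ℤ) i) mu 1 N) i (x i))⁻¹ ≤
        ∏ _i ∈ T, Real.exp ((1 + g) * lm + Real.log 4) := by
      refine prod_le_prod (fun i hi => (inv_pos.2 (hx i hi)).le) fun i hi => ?_
      rcases H743.atoms_w hN law (r := fun i (n : ℕ) => red (n : ℤ) i) hres atom i (x i) with h | h
      · exact absurd h (hx i hi).ne'
      · refine (inv_anti₀ (Real.exp_pos _) h).trans ?_
        rw [← Real.exp_neg, neg_neg, Real.exp_le_exp]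
        unfold H743.Lq
        have := hlm i
        have hg := hN.g0
        nlinarith
    refine h5.trans ?_
    rw [prod_const, ← Real.exp_nat_mul, Real.exp_le_exp]
    refine mul_le_mul_of_nonneg_right (by exact_mod_cast hT) ?_
    have hg := hN.g0
    nlinarith
  have h6 : 0 ≤ ∏ i ∈ T, (m1 (pf (fun i (n : ℕ) => red (n : ℤ) i) mu 1 N) i (x i))⁻¹ :=
    prod_nonneg fun i hi => (inv_pos.2 (hx i hi)).le
  calc (M : ℝ) * (f n * ∏ i ∈ T, (m1 (pf (fun i (n : ℕ) => red (n : ℤ) i) mu 1 N) i (x i))⁻¹)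
      = (M * f n) * ∏ i ∈ T, (m1 (pf (fun i (n : ℕ) => red (n : ℤ) i) mu 1 N) i (x i))⁻¹ := by
        ring
    _ ≤ (2 * D0 * Real.exp (hh + 32 * Dm)) * Real.exp (d * ((1 + g) * lm + Real.log 4)) :=
        mul_le_mul h3 h4 h6 (by positivity)
    _ = 2 * D0 * Real.exp (hh + 32 * Dm + d * ((1 + g) * lm + Real.log 4)) := by
        rw [Real.exp_add (hh + 32 * Dm)]; ring
    _ ≤ A1 := hA

end

end Vale.Agent.P042.H482
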