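import Vale.Agent.P042.H482.SEnd

/-! Mixing with the product of the reference weights: pins on thick cells suffice. -/

namespace Vale.Agent.P042.H482

open Finset Vale.Agent.P042.H779.Ab
open Vale.Agent.P042.H779 (marg m1 IsProb marg_nonneg marg_congr marg_anti marg_empty phi
  phi_nonneg)

set_option linter.unusedSectionVars false

section
variable {ι : Type*} [Fintype ι] [DecidableEq ι] {V : ι → Type*} [∀ i, Fintype (V i)]
  [∀ i, DecidableEq (V i)] {w w2 : ∀ i, V i → ℝ} {μ μ' ν : (∀ i, V i) → ℝ}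

/-- mixture of a law with the product of the reference weights -/
noncomputable def mix (e : ℝ) (w : ∀ i, V i → ℝ) (μ : (∀ i, V i) → ℝ) (x : ∀ i, V i) : ℝ :=
  (1 - e) * μ x + e * pw w x

lemma marg_pw (h1 : ∀ i, ∑ a, w i a = 1) (P : Finset ι) (x : ∀ i, V i) :
    marg (pw w) P x = ∏ i ∈ P, w i (x i) := by
  unfold marg
  have e1 : ∀ y : ∀ i, V i, (if (∀ i ∈ P, y i = x i) then pw w y else 0)
      = ∏ i, (if i ∈ P then (if y i = x i then w i (y i) else 0) else w i (y i)) := by
    intro y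
    by_cases hy : ∀ i ∈ P, y i = x i
    · rw [if_pos hy]
      unfold pw
      refine prod_congr rfl fun i _ => ?_
      by_cases hi : i ∈ P
      · rw [if_pos hi, if_pos (hy i hi)]
      · rw [if_neg hi]
    · rw [if_neg hy]
      push Not at hy
      obtain ⟨i, hi, hne⟩ := hy
      symm
      refine prod_eq_zero (mem_univ i) ?_
      rw [if_pos hi, if_neg hne]
  rw [sum_congr rfl fun y _ => e1 y]
  have e2 : ∑ y : ∀ i, V i, ∏ i, (if i ∈ P then (if y i = x i then w i (y i) else 0)
      else w i (y i)) = ∏ i, ∑ a, (if i ∈ P then (if a = x i then w i a else 0)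
      else w i a) := by
    rw [Finset.prod_univ_sum, Fintype.piFinset_univ]
  rw [e2]
  have e3 : ∀ i, ∑ a, (if i ∈ P then (if a = x i then w i a else 0) else w i a)
      = if i ∈ P then w i (x i) else 1 := by
    intro i
    by_cases hi : i ∈ P
    · simp only [if_pos hi, sum_ite_eq', mem_univ, if_true]
    · simp only [if_neg hi, h1]
  rw [prod_congr rfl fun i _ => e3 i, prod_ite]
  simp

lemma marg_mix (h1 : ∀ i, ∑ a, w i a = 1) (e : ℝ) (P : Finset ι) (x : ∀ i, V i) :
    marg (mix e w μ) P x = (1 - e) * marg μ P x + e * ∏ i ∈ P, w i (x i) := by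
  rw [← marg_pw h1]
  unfold marg mix
  rw [mul_sum, mul_sum, ← sum_add_distrib]
  refine sum_congr rfl fun y _ => ?_
  split_ifs
  · rfl
  · ring

lemma m1_mix_zero (hac : ∀ i a, w i a = 0 → m1 μ i a = 0) (e : ℝ) (i : ι) (a : V i)
    (ha : w i a = 0) : m1 (mix e w μ) i a = 0 := by
  have h1 : m1 (mix e w μ) i a = (1 - e) * m1 μ i a := by
    unfold m1 mix
    rw [mul_sum]
    refine sum_congr rfl fun y _ => ?_
    split_ifs with h
    · have : pw w y = 0 := by
        unfold pw
        exact prod_eq_zero (mem_univ i) (by rw [h, ha])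
      rw [this]; ring
    · ring
  rw [h1, hac i a ha, mul_zero]

theorem ref_mix (H : Ref w μ) {e : ℝ} (h0 : 0 ≤ e) (h1 : e ≤ 1) : Ref w (mix e w μ) where
  prob :=
    { nonneg := fun x => add_nonneg (mul_nonneg (by linarith) (H.prob.nonneg x))
        (mul_nonneg h0 (pw_nonneg H.famT x))
      sum_eq := by
        unfold mix
        rw [sum_add_distrib, ← mul_sum, ← mul_sum, H.prob.sum_eq, pw_sum H.famT]
        ring }
  w_nonneg := H.w_nonneg
  w_sum := H.w_sum
  ac := m1_mix_zero H.ac e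

lemma mix_one (w : ∀ i, V i → ℝ) (μ : (∀ i, V i) → ℝ) : mix 1 w μ = pw w := by
  funext x
  unfold mix
  ring

theorem ref_pw (H : Ref w μ) : Ref w (pw w) := by
  rw [← mix_one w μ]
  exact ref_mix H zero_le_one le_rfl

lemma gdw_mix (H : Ref w μ) {e : ℝ} {P : Finset ι} {x : ∀ i, V i}
    (hx : 0 < ∏ i ∈ P, w i (x i)) : gdw w (mix e w μ) P x = (1 - e) * gdw w μ P x + e := by
  unfold gdw
  rw [marg_mix H.w_sum, add_div, mul_div_assoc, mul_div_assoc, div_self hx.ne', mul_one]

lemma gdw_pw (H : Ref w μ) {P : Finset ι} {x : ∀ i, V i}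
    (hx : 0 < ∏ i ∈ P, w i (x i)) : gdw w (pw w) P x = 1 := by
  unfold gdw
  rw [marg_pw H.w_sum, div_self hx.ne']

/-- the fraction of the law in the mixture -/
noncomputable def fr (e g : ℝ) : ℝ := (1 - e) * g / ((1 - e) * g + e)

lemma phi_mix {r s : ℝ} (hr : 0 ≤ r) (hs0 : 0 ≤ s) (hs1 : s ≤ 1) :
    phi (s * r + (1 - s)) ≤ s * phi r := by
  have h1 := Real.convexOn_mul_log.2 (Set.mem_Ici.mpr hr)
    (Set.mem_Ici.mpr zero_le_one : (1 : ℝ) ∈ Set.Ici 0) hs0
    (by linarith : 0 ≤ 1 - s) (by ring)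
  simp only [smul_eq_mul, mul_one, Real.log_one, mul_zero, add_zero] at h1
  unfold phi
  linarith

/-- divergences of the mixture -/
lemma Di_mix (H : Ref w μ) {e : ℝ} (he0 : 0 < e) (he1 : e ≤ 1) {j : ι} {P : Finset ι}
    (hj : j ∉ P) {x : ∀ i, V i} (hx : 0 < ∏ i ∈ P, w i (x i)) :
    Di w (gdw w (mix e w μ)) j P x ≤ fr e (gdw w μ P x) * Di w (gdw w μ) j P x := by
  unfold Di
  rw [mul_sum]
  refine sum_le_sum fun a _ => ?_
  rcases (H.w_nonneg j a).eq_or_lt with ha | ha
  · rw [← ha]; simp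
  have hup : ∀ i ∈ P, (Function.update x j a) i = x i := fun i hi => by
    rw [Function.update_of_ne]
    rintro rfl
    exact hj hi
  have hy : ∏ i ∈ P, w i ((Function.update x j a) i) = ∏ i ∈ P, w i (x i) :=
    prod_congr rfl fun i hi => by rw [hup i hi]
  have hP : 0 < ∏ i ∈ P, w i ((Function.update x j a) i) := by rw [hy]; exact hx
  have hjP : 0 < ∏ i ∈ insert j P, w i ((Function.update x j a) i) := by
    rw [prod_insert hj, Function.update_self]
    exact mul_pos ha hP
  have hg : gdw w μ P (Function.update x j a) = gdw w μ P x := by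
    unfold gdw
    rw [hy, marg_congr P hup]
  have hg0 : 0 ≤ gdw w μ P x := H.famT.g_nonneg P x
  have hgi0 : 0 ≤ gdw w μ (insert j P) (Function.update x j a) := H.famT.g_nonneg _ _
  unfold rt
  rw [gdw_mix H hP, gdw_mix H hjP, hg]
  have hden : 0 < (1 - e) * gdw w μ P x + e := by
    have : 0 ≤ (1 - e) * gdw w μ P x := mul_nonneg (by linarith) hg0
    linarith
  rcases hg0.eq_or_lt with h0 | h0
  · have h2 : gdw w μ (insert j P) (Function.update x j a) = 0 := by
      by_contra hne
      have h3 : 0 < gdw w μ (insert j P) (Function.update x j a) :=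
        lt_of_le_of_ne hgi0 (Ne.symm hne)
      have h4 := H.famT.g_pos P (insert j P) (subset_insert _ _) trivial _ h3
      rw [hg, ← h0] at h4
      exact lt_irrefl _ h4
    have h5 : fr e (0 : ℝ) = 0 := by unfold fr; simp
    rw [h2, ← h0, h5, mul_zero, zero_add, div_self he0.ne']
    have : phi 1 = 0 := by unfold phi; simp
    rw [this]; simp
  · have hs0 : 0 ≤ fr e (gdw w μ P x) := by
      unfold fr
      exact div_nonneg (mul_nonneg (by linarith) hg0) hden.le
    have hs1 : fr e (gdw w μ P x) ≤ 1 := by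
      unfold fr
      rw [div_le_one hden]
      linarith
    have h2 := phi_mix (r := gdw w μ (insert j P) (Function.update x j a) / gdw w μ P x)
      (div_nonneg hgi0 hg0) hs0 hs1
    have h3 : fr e (gdw w μ P x) * (gdw w μ (insert j P) (Function.update x j a) / gdw w μ P x)
        + (1 - fr e (gdw w μ P x))
        = ((1 - e) * gdw w μ (insert j P) (Function.update x j a) + e)
          / ((1 - e) * gdw w μ P x + e) := by
      unfold fr
      field_simp
      ring
    rw [h3] at h2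
    calc w j a * phi (((1 - e) * gdw w μ (insert j P) (Function.update x j a) + e)
          / ((1 - e) * gdw w μ P x + e))
        ≤ w j a * (fr e (gdw w μ P x) *
          phi (gdw w μ (insert j P) (Function.update x j a) / gdw w μ P x)) :=
          mul_le_mul_of_nonneg_left h2 ha.le
      _ = _ := by ring

/-- the divergences of the product law vanish -/
lemma Di_pw (H : Ref w μ) {j : ι} {P : Finset ι}
    (hj : j ∉ P) {x : ∀ i, V i} (hx : 0 < ∏ i ∈ P, w i (x i)) :
    Di w (gdw w (pw w)) j P x = 0 := by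
  unfold Di
  refine sum_eq_zero fun a _ => ?_
  rcases (H.w_nonneg j a).eq_or_lt with ha | ha
  · rw [← ha]; simp
  have hup : ∀ i ∈ P, (Function.update x j a) i = x i := fun i hi => by
    rw [Function.update_of_ne]
    rintro rfl
    exact hj hi
  have hP : 0 < ∏ i ∈ P, w i ((Function.update x j a) i) := by
    rw [prod_congr rfl fun i hi => by rw [hup i hi]]; exact hx
  have hjP : 0 < ∏ i ∈ insert j P, w i ((Function.update x j a) i) := by
    rw [prod_insert hj, Function.update_self]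
    exact mul_pos ha hP
  unfold rt
  rw [gdw_pw H hP, gdw_pw H hjP, div_one]
  have : phi 1 = 0 := by unfold phi; simp
  rw [this, mul_zero]

/-- **(Pe) of the mixture**: the pins inequality is needed only on thick cells -/
theorem Pe_mix (H : Ref w μ) (h20 : ∀ i a, 0 ≤ w2 i a) (h21 : ∀ i, ∑ a, w2 i a = 1)
    (h2ac : ∀ i a, w2 i a = 0 → m1 μ i a = 0) {ok' : Finset ι → Prop} {lam gP a e B0 : ℝ}
    (he0 : 0 < e) (he1 : e ≤ 1 / 8) (hlam : 0 ≤ lam) (hB : e * B0 ≤ 1) (hgP : 0 ≤ gP)
    (ha : 0 ≤ a)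
    (hB0 : ∀ P, ok' P → ∀ x, 0 < gdw w μ P x → lam * ∑ j ∈ univ \ P, Di w (gdw w μ) j P x ≤ B0)
    (hQ : ∀ P, ok' P → ∀ x, e ^ 2 ≤ gdw w μ P x → lam * ∑ j ∈ univ \ P, Di w (gdw w μ) j P x
      ≤ gP * P.card + a - Real.log (gdw w2 μ P x)) :
    Pe w (mix e w μ) ok' lam gP (a + 1) := by
  intro P hok
  have Hm := ref_mix H he0.le (by linarith : e ≤ 1)
  obtain ⟨F, hF⟩ : ∃ F : (∀ i, V i) → ℝ, F = fun x => lam * ∑ j ∈ univ \ P,
    Di w (gdw w μ) j P x := ⟨_, rfl⟩
  have hFloc : Loc P F := by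
    intro x y hxy
    rw [hF]
    beta_reduce
    congr 1
    exact sum_congr rfl fun j _ => loc_Di j P x y hxy
  have hF0 : ∀ x, 0 ≤ F x := fun x => by
    rw [hF]
    exact mul_nonneg hlam (sum_nonneg fun j _ => Di_nonneg H.famT _ _ _)
  have hloc : Loc P (fun x => Real.exp (lam * ∑ j ∈ univ \ P, Di w (gdw w (mix e w μ)) j P x)) := by
    intro x y hxy
    beta_reduce
    congr 2
    exact sum_congr rfl fun j _ => loc_Di j P x y hxy
  rw [Hm.mu_sum hloc]
  obtain ⟨K', hK'⟩ : ∃ K' : (∀ i, V i) → ℝ, K' = fun x => if e ^ 2 ≤ gdw w μ P x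
    then Real.exp (F x) else 0 := ⟨_, rfl⟩
  have hK'loc : Loc P K' := by
    intro x y hxy
    rw [hK']
    beta_reduce
    rw [loc_gdw P x y hxy, hFloc x y hxy]
  have hE : 1 ≤ Real.exp (gP * P.card + a) := Real.one_le_exp (by positivity)
  -- pointwise
  have hpt : ∀ x, pw w x * (Real.exp (lam * ∑ j ∈ univ \ P, Di w (gdw w (mix e w μ)) j P x)
      * gdw w (mix e w μ) P x)
      ≤ pw w x * ((1 - e) * (K' x * gdw w μ P x) + 7 * e) := by
    intro x
    rcases (pw_nonneg H.famT x).eq_or_lt with hx | hx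
    · rw [← hx]; simp
    refine mul_le_mul_of_nonneg_left ?_ hx.le
    have hPx : 0 < ∏ i ∈ P, w i (x i) := by
      refine prod_pos fun i _ => lt_of_le_of_ne (H.w_nonneg i _) fun h0 => ?_
      have : pw w x = 0 := prod_eq_zero (mem_univ i) h0.symm
      exact hx.ne' this
    have hg0 : 0 ≤ gdw w μ P x := H.famT.g_nonneg P x
    rw [gdw_mix H hPx]
    have hden : 0 < (1 - e) * gdw w μ P x + e := by
      have : 0 ≤ (1 - e) * gdw w μ P x := mul_nonneg (by linarith) hg0
      linarith
    have hFt : lam * ∑ j ∈ univ \ P, Di w (gdw w (mix e w μ)) j P x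
        ≤ fr e (gdw w μ P x) * F x := by
      rw [hF]
      beta_reduce
      have h1 : fr e (gdw w μ P x) * (lam * ∑ j ∈ univ \ P, Di w (gdw w μ) j P x)
          = lam * ∑ j ∈ univ \ P, fr e (gdw w μ P x) * Di w (gdw w μ) j P x := by
        rw [← mul_sum]; ring
      rw [h1]
      refine mul_le_mul_of_nonneg_left (sum_le_sum fun j hj => ?_) hlam
      exact Di_mix H he0 (by linarith) (mem_sdiff.mp hj).2 hPx
    have hs0 : 0 ≤ fr e (gdw w μ P x) := by
      unfold fr
      exact div_nonneg (mul_nonneg (by linarith) hg0) hden.le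
    have hs1 : fr e (gdw w μ P x) ≤ 1 := by
      unfold fr
      rw [div_le_one hden]
      linarith
    have hfg : fr e (gdw w μ P x) * ((1 - e) * gdw w μ P x + e) = (1 - e) * gdw w μ P x := by
      unfold fr
      field_simp
    by_cases hth : e ^ 2 ≤ gdw w μ P x
    · -- thick
      have hK1 : K' x = Real.exp (F x) := by rw [hK']; beta_reduce; rw [if_pos hth]
      rw [hK1]
      have h1 := convexOn_exp.2 (Set.mem_univ (F x)) (Set.mem_univ 0) hs0
        (by linarith : 0 ≤ 1 - fr e (gdw w μ P x)) (by ring)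
      simp only [smul_eq_mul, mul_zero, add_zero, Real.exp_zero, mul_one] at h1
      have h2 := (Real.exp_le_exp.mpr hFt).trans h1
      have h3 := mul_le_mul_of_nonneg_right h2 hden.le
      have h4 : (fr e (gdw w μ P x) * Real.exp (F x) + (1 - fr e (gdw w μ P x))) *
          ((1 - e) * gdw w μ P x + e)
          = (fr e (gdw w μ P x) * ((1 - e) * gdw w μ P x + e)) * Real.exp (F x)
            + (((1 - e) * gdw w μ P x + e)
              - fr e (gdw w μ P x) * ((1 - e) * gdw w μ P x + e)) := by ring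
      rw [h4, hfg] at h3
      refine h3.trans ?_
      have h5 : (1 - e) * gdw w μ P x * Real.exp (F x)
          = (1 - e) * (Real.exp (F x) * gdw w μ P x) := by ring
      rw [h5]
      linarith
    · -- thin
      push Not at hth
      have hK1 : K' x = 0 := by rw [hK']; beta_reduce; rw [if_neg (not_le.mpr hth)]
      rw [hK1, zero_mul, mul_zero, zero_add]
      have h1 : fr e (gdw w μ P x) * F x ≤ 1 := by
        rcases hg0.eq_or_lt with h0 | h0
        · have : fr e (0 : ℝ) = 0 := by unfold fr; simp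
          rw [← h0, this, zero_mul]; norm_num
        · have h2 : F x ≤ B0 := by rw [hF]; exact hB0 P hok x h0
          have h3 : fr e (gdw w μ P x) ≤ e := by
            unfold fr
            rw [div_le_iff₀ hden]
            nlinarith
          calc fr e (gdw w μ P x) * F x ≤ e * B0 :=
                mul_le_mul h3 h2 (hF0 x) he0.le
            _ ≤ 1 := hB
      have h2 : Real.exp (lam * ∑ j ∈ univ \ P, Di w (gdw w (mix e w μ)) j P x) ≤ 3 := by
        refine (Real.exp_le_exp.mpr (hFt.trans h1)).trans ?_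
        have := Real.exp_one_lt_d9
        linarith
      have h3 : (1 - e) * gdw w μ P x + e ≤ 2 * e := by nlinarith
      calc Real.exp (lam * ∑ j ∈ univ \ P, Di w (gdw w (mix e w μ)) j P x) *
            ((1 - e) * gdw w μ P x + e) ≤ 3 * (2 * e) :=
            mul_le_mul h2 h3 hden.le (by norm_num)
        _ ≤ 7 * e := by linarith
  refine (sum_le_sum fun x _ => hpt x).trans ?_
  have e1 : ∑ x, pw w x * ((1 - e) * (K' x * gdw w μ P x) + 7 * e)
      = (1 - e) * ∑ x, pw w x * (K' x * gdw w μ P x) + 7 * e * ∑ x, pw w x := by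
    rw [mul_sum, mul_sum, ← sum_add_distrib]
    exact sum_congr rfl fun x _ => by ring
  rw [e1, pw_sum H.famT, ← H.mu_sum hK'loc]
  have key : ∀ x, μ x * K' x
      ≤ Real.exp (gP * P.card + a) * (μ x * ((∏ i ∈ P, w2 i (x i)) / marg μ P x)) := by
    intro x
    rcases (H.prob.nonneg x).eq_or_lt with hx | hx
    · rw [← hx]; simp
    have hm : 0 < marg μ P x := lt_of_lt_of_le hx (marg_ge H.prob P x)
    have hw : 0 < ∏ i ∈ P, w2 i (x i) := prod_w_pos_of_marg H.prob h20 h2ac hm
    by_cases hth : e ^ 2 ≤ gdw w μ P x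
    · have hK1 : K' x = Real.exp (F x) := by rw [hK']; beta_reduce; rw [if_pos hth]
      rw [hK1]
      have h2 := hQ P hok x hth
      have h3 : Real.exp (gP * P.card + a - Real.log (gdw w2 μ P x))
          = Real.exp (gP * P.card + a) * ((∏ i ∈ P, w2 i (x i)) / marg μ P x) := by
        unfold gdw
        rw [Real.exp_sub, Real.exp_log (div_pos hm hw), div_div_eq_mul_div, mul_div_assoc]
      calc μ x * Real.exp (F x)
          ≤ μ x * Real.exp (gP * P.card + a - Real.log (gdw w2 μ P x)) :=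
            mul_le_mul_of_nonneg_left (Real.exp_le_exp.mpr (by rw [hF]; exact h2)) hx.le
        _ = _ := by rw [h3]; ring
    · have hK1 : K' x = 0 := by rw [hK']; beta_reduce; rw [if_neg hth]
      rw [hK1, mul_zero]
      positivity
  have h2 : ∑ x, μ x * K' x ≤ Real.exp (gP * P.card + a) := by
    refine (sum_le_sum fun x _ => key x).trans ?_
    rw [← mul_sum]
    calc Real.exp (gP * P.card + a) * ∑ x, μ x * ((∏ i ∈ P, w2 i (x i)) / marg μ P x)
        ≤ Real.exp (gP * P.card + a) * 1 :=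
          mul_le_mul_of_nonneg_left (sum_inv_le H.prob h20 h21 P) (Real.exp_pos _).le
      _ = _ := mul_one _
  have h3 : Real.exp (gP * P.card + (a + 1)) = Real.exp (gP * P.card + a) * Real.exp 1 := by
    rw [← Real.exp_add]; ring_nf
  rw [h3]
  have h4 := Real.exp_one_gt_d9
  have h5 : (1 - e) * ∑ x, μ x * K' x ≤ (1 - e) * Real.exp (gP * P.card + a) :=
    mul_le_mul_of_nonneg_left h2 (by linarith)
  have h6 : Real.exp (gP * P.card + a) * 2.7 ≤ Real.exp (gP * P.card + a) * Real.exp 1 :=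
    mul_le_mul_of_nonneg_left (by linarith) (Real.exp_pos _).le
  nlinarith

/-- the product law satisfies (Pe) -/
theorem Pe_pw (H : Ref w μ) {ok' : Finset ι → Prop} {lam gP a : ℝ} (hgP : 0 ≤ gP)
    (ha : 0 ≤ a) : Pe w (pw w) ok' lam gP a := by
  intro P _
  have h1 : ∀ x, pw w x * Real.exp (lam * ∑ j ∈ univ \ P, Di w (gdw w (pw w)) j P x)
      = pw w x := by
    intro x
    rcases (pw_nonneg H.famT x).eq_or_lt with hx | hx
    · rw [← hx]; simp
    have hPx : 0 < ∏ i ∈ P, w i (x i) := by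
      refine prod_pos fun i _ => lt_of_le_of_ne (H.w_nonneg i _) fun h0 => ?_
      have : pw w x = 0 := prod_eq_zero (mem_univ i) h0.symm
      exact hx.ne' this
    rw [sum_eq_zero fun j hj => Di_pw H (mem_sdiff.mp hj).2 hPx]
    simp
  rw [sum_congr rfl fun x _ => h1 x, pw_sum H.famT]
  exact Real.one_le_exp (by positivity)

/-- density bound from the pins inequality on thick cells -/
theorem log_mix (H : Ref w μ) {ok' : Finset ι → Prop} {lam gP a A e : ℝ}
    (he0 : 0 < e) (he1 : e ≤ 1 / 8) (hlam : 0 ≤ lam) (hgP : 0 ≤ gP) (ha : 0 ≤ a) (hA : 0 ≤ A)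
    (hw2 : ∀ i b, w i b = 0 ∨ (0 < w2 i b ∧ w2 i b ≤ Real.exp A * w i b))
    (hQ : ∀ P, ok' P → ∀ x, e ^ 2 ≤ gdw w μ P x → lam * ∑ j ∈ univ \ P, Di w (gdw w μ) j P x
      ≤ gP * P.card + a - Real.log (gdw w2 μ P x)) (M : Finset ι) (hM : ok' M) (x : ∀ i, V i)
    (hx : 0 < gdw w (mix e w μ) M x) :
    Real.log (gdw w (mix e w μ) M x) ≤ (A + a + gP) * M.card := by
  have Hm := ref_mix H he0.le (by linarith : e ≤ 1)
  have hmm := (gdw_pos_iff Hm.prob Hm.w_nonneg Hm.ac M x).mp hx
  have hPx : 0 < ∏ i ∈ M, w i (x i) := prod_w_pos_of_marg Hm.prob Hm.w_nonneg Hm.ac hmm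
  have hr : 0 ≤ (A + a + gP) * M.card := by positivity
  have hg0 : 0 ≤ gdw w μ M x := H.famT.g_nonneg M x
  rw [gdw_mix H hPx] at hx ⊢
  rcases lt_or_ge (gdw w μ M x) 1 with h1 | h1
  · refine (Real.log_nonpos hx.le ?_).trans hr
    nlinarith
  rcases M.eq_empty_or_nonempty with h2 | h2
  · rw [h2] at h1 ⊢
    have : gdw w μ ∅ x = 1 := H.famT.g_empty x
    rw [this]
    simp
  have hM1 : (1 : ℝ) ≤ M.card := by exact_mod_cast h2.card_pos
  have h3 : (1 - e) * gdw w μ M x + e ≤ gdw w μ M x := by nlinarith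
  refine (Real.log_le_log hx h3).trans ?_
  have hgpos : 0 < gdw w μ M x := by linarith
  have hmarg := (gdw_pos_iff H.prob H.w_nonneg H.ac M x).mp hgpos
  have hw2pos : 0 < ∏ i ∈ M, w2 i (x i) := prod_pos fun i hi => by
    rcases hw2 i (x i) with h | h
    · exact absurd (prod_eq_zero hi h) hPx.ne'
    · exact h.1
  have hw2le : ∏ i ∈ M, w2 i (x i) ≤ Real.exp (A * M.card) * ∏ i ∈ M, w i (x i) := by
    have h4 : ∏ i ∈ M, w2 i (x i) ≤ ∏ i ∈ M, (Real.exp A * w i (x i)) := by
      refine prod_le_prod (fun i hi => ?_) fun i hi => ?_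
      · rcases hw2 i (x i) with h | h
        · exact absurd (prod_eq_zero hi h) hPx.ne'
        · exact h.1.le
      · rcases hw2 i (x i) with h | h
        · exact absurd (prod_eq_zero hi h) hPx.ne'
        · exact h.2
    rw [prod_mul_distrib, prod_const, ← Real.exp_nat_mul, mul_comm (M.card : ℝ)] at h4
    exact h4
  have h5 : gdw w μ M x ≤ Real.exp (A * M.card) * gdw w2 μ M x := by
    unfold gdw
    rw [mul_div_assoc', div_le_div_iff₀ hPx hw2pos]
    calc marg μ M x * ∏ i ∈ M, w2 i (x i)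
        ≤ marg μ M x * (Real.exp (A * M.card) * ∏ i ∈ M, w i (x i)) :=
          mul_le_mul_of_nonneg_left hw2le hmarg.le
      _ = _ := by ring
  have h6 : 0 < gdw w2 μ M x := div_pos hmarg hw2pos
  have h7 := Real.log_le_log hgpos h5
  rw [Real.log_mul (Real.exp_pos _).ne' h6.ne', Real.log_exp] at h7
  have h8 := hQ M hM x (by nlinarith)
  have h9 : 0 ≤ lam * ∑ j ∈ univ \ M, Di w (gdw w μ) j M x :=
    mul_nonneg hlam (sum_nonneg fun j _ => Di_nonneg H.famT _ _ _)
  nlinarith

/-- linearity in the first law -/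
lemma pr_mix_left (e : ℝ) (K : ∀ i, V i → V i → ℝ) (B : Finset ι) :
    pr (mix e w μ) ν K B = (1 - e) * pr μ ν K B + e * pr (pw w) ν K B := by
  unfold pr mix
  rw [mul_sum, mul_sum, ← sum_add_distrib]
  refine sum_congr rfl fun x _ => ?_
  rw [mul_sum, mul_sum, ← sum_add_distrib]
  exact sum_congr rfl fun y _ => by ring

lemma pr_mix_right (e : ℝ) (K : ∀ i, V i → V i → ℝ) (B : Finset ι) :
    pr ν (mix e w μ) K B = (1 - e) * pr ν μ K B + e * pr ν (pw w) K B := by
  unfold pr mix
  rw [mul_sum, mul_sum, ← sum_add_distrib]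
  refine sum_congr rfl fun x _ => ?_
  rw [mul_sum, mul_sum, ← sum_add_distrib]
  exact sum_congr rfl fun y _ => by ring

/-- the pair sum of the laws from the pair sums of the four mixtures -/
theorem sum_mix (e : ℝ) (K : ∀ i, V i → V i → ℝ) (𝓓 : Finset (Finset ι)) :
    (1 - e) ^ 2 * ∑ B ∈ 𝓓, pr μ μ' K B
      = ∑ B ∈ 𝓓, pr (mix e w μ) (mix e w μ') K B - e * ∑ B ∈ 𝓓, pr (mix e w μ) (pw w) K B
        - e * ∑ B ∈ 𝓓, pr (pw w) (mix e w μ') K B + e ^ 2 * ∑ B ∈ 𝓓, pr (pw w) (pw w) K B := by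
  rw [mul_sum, mul_sum, mul_sum, mul_sum, ← sum_sub_distrib, ← sum_sub_distrib,
    ← sum_add_distrib]
  refine sum_congr rfl fun B _ => ?_
  rw [pr_mix_left e K B, pr_mix_left e K B, pr_mix_right e K B, pr_mix_right e K B]
  ring

end

end Vale.Agent.P042.H482
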