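import Vale.Agent.P042.H482.Mix
import Vale.Agent.P042.H461.LF1

/-! Mixing in the power regime: pins on thick cells give the hypotheses of (F1) and (F1) for the
pair sums. -/

namespace Vale.Agent.P042.H482

open Finset Vale.Agent.P042.H779.Ab
open Vale.Agent.P042.H779 (marg m1 IsProb marg_nonneg marg_congr marg_anti marg_empty phi
  phi_nonneg)
open Vale.Agent.P042.H461 (Hc ip)

set_option linter.unusedSectionVars false

section
variable {ι : Type*} [Fintype ι] [DecidableEq ι] {V : ι → Type*} [∀ i, Fintype (V i)]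
  [∀ i, DecidableEq (V i)] {w w2 : ∀ i, V i → ℝ} {μ μ' ν : (∀ i, V i) → ℝ}

/-- **exponential moments of the mixture**, arbitrary rates and one set of pins: the pins
inequality is needed only on thick cells -/
theorem pe_mix_gen (H : Ref w μ) (h20 : ∀ i a, 0 ≤ w2 i a) (h21 : ∀ i, ∑ a, w2 i a = 1)
    (h2ac : ∀ i a, w2 i a = 0 → m1 μ i a = 0) {P J : Finset ι} (hJ : ∀ j ∈ J, j ∉ P)
    {lam : ι → ℝ} {cst e B0 : ℝ}
    (he0 : 0 < e) (he1 : e ≤ 1 / 8) (hlam : ∀ j, 0 ≤ lam j) (hB : e * B0 ≤ 1) (hc : 0 ≤ cst)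
    (hB0 : ∀ x, 0 < gdw w μ P x → ∑ j ∈ J, lam j * Di w (gdw w μ) j P x ≤ B0)
    (hQ : ∀ x, e ^ 2 ≤ gdw w μ P x → ∑ j ∈ J, lam j * Di w (gdw w μ) j P x
      ≤ cst - Real.log (gdw w2 μ P x)) :
    ∑ x, mix e w μ x * Real.exp (∑ j ∈ J, lam j * Di w (gdw w (mix e w μ)) j P x)
      ≤ Real.exp (cst + 1) := by
  have Hm := ref_mix H he0.le (by linarith : e ≤ 1)
  obtain ⟨F, hF⟩ : ∃ F : (∀ i, V i) → ℝ, F = fun x => ∑ j ∈ J,
    lam j * Di w (gdw w μ) j P x := ⟨_, rfl⟩
  have hFloc : Loc P F := by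
    intro x y hxy
    rw [hF]
    beta_reduce
    exact sum_congr rfl fun j _ => by rw [loc_Di j P x y hxy]
  have hF0 : ∀ x, 0 ≤ F x := fun x => by
    rw [hF]
    exact sum_nonneg fun j _ => mul_nonneg (hlam j) (Di_nonneg H.famT _ _ _)
  have hloc : Loc P (fun x => Real.exp (∑ j ∈ J, lam j * Di w (gdw w (mix e w μ)) j P x)) := by
    intro x y hxy
    beta_reduce
    congr 1
    exact sum_congr rfl fun j _ => by rw [loc_Di j P x y hxy]
  rw [Hm.mu_sum hloc]
  obtain ⟨K', hK'⟩ : ∃ K' : (∀ i, V i) → ℝ, K' = fun x => if e ^ 2 ≤ gdw w μ P x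
    then Real.exp (F x) else 0 := ⟨_, rfl⟩
  have hK'loc : Loc P K' := by
    intro x y hxy
    rw [hK']
    beta_reduce
    rw [loc_gdw P x y hxy, hFloc x y hxy]
  have hE : 1 ≤ Real.exp cst := Real.one_le_exp hc
  have hpt : ∀ x, pw w x * (Real.exp (∑ j ∈ J, lam j * Di w (gdw w (mix e w μ)) j P x)
      * gdw w (mix e w μ) P x)
      ≤ pw w x * ((1 - e) * (K' x * gdw w μ P x) + 7 * e) := by
    intro x
    rcases (pw_nonneg H.famT x).eq_or_lt with hx | hx
    · rw [← hx]; simp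
    refine mul_le_mul_of_nonneg_left ?_ hx.le
    have hPx : 0 < ∏ i ∈ P, w i (x i) := by
      refine prod_pos fun i _ => lt_of_le_of_ne (H.w_nonneg i _) fun h0 => ?_
      have : pw w x = 0 := prod_eq_zero (mem_univ i) h0.symm
      exact hx.ne' this
    have hg0 : 0 ≤ gdw w μ P x := H.famT.g_nonneg P x
    rw [gdw_mix H hPx]
    have hden : 0 < (1 - e) * gdw w μ P x + e := by
      have : 0 ≤ (1 - e) * gdw w μ P x := mul_nonneg (by linarith) hg0
      linarith
    have hFt : ∑ j ∈ J, lam j * Di w (gdw w (mix e w μ)) j P x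
        ≤ fr e (gdw w μ P x) * F x := by
      rw [hF]
      beta_reduce
      rw [mul_sum]
      refine sum_le_sum fun j hj => ?_
      have h1 := mul_le_mul_of_nonneg_left
        (Di_mix H he0 (by linarith : e ≤ 1) (hJ j hj) hPx) (hlam j)
      linarith
    have hs0 : 0 ≤ fr e (gdw w μ P x) := by
      unfold fr
      exact div_nonneg (mul_nonneg (by linarith) hg0) hden.le
    have hs1 : fr e (gdw w μ P x) ≤ 1 := by
      unfold fr
      rw [div_le_one hden]
      linarith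
    have hfg : fr e (gdw w μ P x) * ((1 - e) * gdw w μ P x + e) = (1 - e) * gdw w μ P x := by
      unfold fr
      field_simp
    by_cases hth : e ^ 2 ≤ gdw w μ P x
    · -- thick
      have hK1 : K' x = Real.exp (F x) := by rw [hK']; beta_reduce; rw [if_pos hth]
      rw [hK1]
      have h1 := convexOn_exp.2 (Set.mem_univ (F x)) (Set.mem_univ 0) hs0
        (by linarith : 0 ≤ 1 - fr e (gdw w μ P x)) (by ring)
      simp only [smul_eq_mul, mul_zero, add_zero, Real.exp_zero, mul_one] at h1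
      have h2 := (Real.exp_le_exp.mpr hFt).trans h1
      have h3 := mul_le_mul_of_nonneg_right h2 hden.le
      have h4 : (fr e (gdw w μ P x) * Real.exp (F x) + (1 - fr e (gdw w μ P x))) *
          ((1 - e) * gdw w μ P x + e)
          = (fr e (gdw w μ P x) * ((1 - e) * gdw w μ P x + e)) * Real.exp (F x)
            + (((1 - e) * gdw w μ P x + e)
              - fr e (gdw w μ P x) * ((1 - e) * gdw w μ P x + e)) := by ring
      rw [h4, hfg] at h3
      refine h3.trans ?_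
      have h5 : (1 - e) * gdw w μ P x * Real.exp (F x)
          = (1 - e) * (Real.exp (F x) * gdw w μ P x) := by ring
      rw [h5]
      linarith
    · -- thin
      push Not at hth
      have hK1 : K' x = 0 := by rw [hK']; beta_reduce; rw [if_neg (not_le.mpr hth)]
      rw [hK1, zero_mul, mul_zero, zero_add]
      have h1 : fr e (gdw w μ P x) * F x ≤ 1 := by
        rcases hg0.eq_or_lt with h0 | h0
        · have : fr e (0 : ℝ) = 0 := by unfold fr; simp
          rw [← h0, this, zero_mul]; norm_num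
        · have h2 : F x ≤ B0 := by rw [hF]; exact hB0 x h0
          have h3 : fr e (gdw w μ P x) ≤ e := by
            unfold fr
            rw [div_le_iff₀ hden]
            nlinarith
          calc fr e (gdw w μ P x) * F x ≤ e * B0 :=
                mul_le_mul h3 h2 (hF0 x) he0.le
            _ ≤ 1 := hB
      have h2 : Real.exp (∑ j ∈ J, lam j * Di w (gdw w (mix e w μ)) j P x) ≤ 3 := by
        refine (Real.exp_le_exp.mpr (hFt.trans h1)).trans ?_
        have := Real.exp_one_lt_d9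
        linarith
      have h3 : (1 - e) * gdw w μ P x + e ≤ 2 * e := by nlinarith
      calc Real.exp (∑ j ∈ J, lam j * Di w (gdw w (mix e w μ)) j P x) *
            ((1 - e) * gdw w μ P x + e) ≤ 3 * (2 * e) :=
            mul_le_mul h2 h3 hden.le (by norm_num)
        _ ≤ 7 * e := by linarith
  refine (sum_le_sum fun x _ => hpt x).trans ?_
  have e1 : ∑ x, pw w x * ((1 - e) * (K' x * gdw w μ P x) + 7 * e)
      = (1 - e) * ∑ x, pw w x * (K' x * gdw w μ P x) + 7 * e * ∑ x, pw w x := by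
    rw [mul_sum, mul_sum, ← sum_add_distrib]
    exact sum_congr rfl fun x _ => by ring
  rw [e1, pw_sum H.famT, ← H.mu_sum hK'loc]
  have key : ∀ x, μ x * K' x
      ≤ Real.exp cst * (μ x * ((∏ i ∈ P, w2 i (x i)) / marg μ P x)) := by
    intro x
    rcases (H.prob.nonneg x).eq_or_lt with hx | hx
    · rw [← hx]; simp
    have hm : 0 < marg μ P x := lt_of_lt_of_le hx (marg_ge H.prob P x)
    have hw : 0 < ∏ i ∈ P, w2 i (x i) := prod_w_pos_of_marg H.prob h20 h2ac hm
    by_cases hth : e ^ 2 ≤ gdw w μ P x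
    · have hK1 : K' x = Real.exp (F x) := by rw [hK']; beta_reduce; rw [if_pos hth]
      rw [hK1]
      have h2 := hQ x hth
      have h3 : Real.exp (cst - Real.log (gdw w2 μ P x))
          = Real.exp cst * ((∏ i ∈ P, w2 i (x i)) / marg μ P x) := by
        unfold gdw
        rw [Real.exp_sub, Real.exp_log (div_pos hm hw), div_div_eq_mul_div, mul_div_assoc]
      calc μ x * Real.exp (F x)
          ≤ μ x * Real.exp (cst - Real.log (gdw w2 μ P x)) :=
            mul_le_mul_of_nonneg_left (Real.exp_le_exp.mpr (by rw [hF]; exact h2)) hx.le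
        _ = _ := by rw [h3]; ring
    · have hK1 : K' x = 0 := by rw [hK']; beta_reduce; rw [if_neg hth]
      rw [hK1, mul_zero]
      positivity
  have h2 : ∑ x, μ x * K' x ≤ Real.exp cst := by
    refine (sum_le_sum fun x _ => key x).trans ?_
    rw [← mul_sum]
    calc Real.exp cst * ∑ x, μ x * ((∏ i ∈ P, w2 i (x i)) / marg μ P x)
        ≤ Real.exp cst * 1 :=
          mul_le_mul_of_nonneg_left (sum_inv_le H.prob h20 h21 P) (Real.exp_pos _).le
      _ = _ := mul_one _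
  have h3 : Real.exp (cst + 1) = Real.exp cst * Real.exp 1 := Real.exp_add _ _
  rw [h3]
  have h4 := Real.exp_one_gt_d9
  have h5 : (1 - e) * ∑ x, μ x * K' x ≤ (1 - e) * Real.exp cst :=
    mul_le_mul_of_nonneg_left h2 (by linarith)
  have h6 : Real.exp cst * 2.7 ≤ Real.exp cst * Real.exp 1 :=
    mul_le_mul_of_nonneg_left (by linarith) (Real.exp_pos _).le
  nlinarith

/-- density bound of the mixture, individual costs -/
theorem log_mix_gen (H : Ref w μ) {M : Finset ι} {α A : ι → ℝ} {a e : ℝ}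
    (he0 : 0 < e) (he1 : e ≤ 1 / 8) (hα : ∀ i, 0 ≤ α i) (ha : 0 ≤ a) (hA : ∀ i, 0 ≤ A i)
    (hw2 : ∀ i b, w i b = 0 ∨ (0 < w2 i b ∧ w2 i b ≤ Real.exp (A i) * w i b))
    (x : ∀ i, V i)
    (hQ : e ^ 2 ≤ gdw w μ M x → Real.log (gdw w2 μ M x) ≤ ∑ i ∈ M, α i + a)
    (hx : 0 < gdw w (mix e w μ) M x) :
    Real.log (gdw w (mix e w μ) M x) ≤ ∑ i ∈ M, (A i + α i + a) := by
  have Hm := ref_mix H he0.le (by linarith : e ≤ 1)
  have hmm := (gdw_pos_iff Hm.prob Hm.w_nonneg Hm.ac M x).mp hx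
  have hPx : 0 < ∏ i ∈ M, w i (x i) := prod_w_pos_of_marg Hm.prob Hm.w_nonneg Hm.ac hmm
  have hr : 0 ≤ ∑ i ∈ M, (A i + α i + a) := sum_nonneg fun i _ => by
    have := hA i; have := hα i; linarith
  have hg0 : 0 ≤ gdw w μ M x := H.famT.g_nonneg M x
  rw [gdw_mix H hPx] at hx ⊢
  rcases lt_or_ge (gdw w μ M x) 1 with h1 | h1
  · refine (Real.log_nonpos hx.le ?_).trans hr
    nlinarith
  rcases M.eq_empty_or_nonempty with h2 | h2
  · rw [h2] at h1 ⊢
    have : gdw w μ ∅ x = 1 := H.famT.g_empty x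
    rw [this]
    simp
  have hM1 : (1 : ℝ) ≤ M.card := by exact_mod_cast h2.card_pos
  have h3 : (1 - e) * gdw w μ M x + e ≤ gdw w μ M x := by nlinarith
  refine (Real.log_le_log hx h3).trans ?_
  have hgpos : 0 < gdw w μ M x := by linarith
  have hmarg := (gdw_pos_iff H.prob H.w_nonneg H.ac M x).mp hgpos
  have hw2pos : 0 < ∏ i ∈ M, w2 i (x i) := prod_pos fun i hi => by
    rcases hw2 i (x i) with h | h
    · exact absurd (prod_eq_zero hi h) hPx.ne'
    · exact h.1
  have hw2le : ∏ i ∈ M, w2 i (x i) ≤ Real.exp (∑ i ∈ M, A i) * ∏ i ∈ M, w i (x i) := by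
    have h4 : ∏ i ∈ M, w2 i (x i) ≤ ∏ i ∈ M, (Real.exp (A i) * w i (x i)) := by
      refine prod_le_prod (fun i hi => ?_) fun i hi => ?_
      · rcases hw2 i (x i) with h | h
        · exact absurd (prod_eq_zero hi h) hPx.ne'
        · exact h.1.le
      · rcases hw2 i (x i) with h | h
        · exact absurd (prod_eq_zero hi h) hPx.ne'
        · exact h.2
    rw [prod_mul_distrib, ← Real.exp_sum] at h4
    exact h4
  have h5 : gdw w μ M x ≤ Real.exp (∑ i ∈ M, A i) * gdw w2 μ M x := by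
    unfold gdw
    rw [mul_div_assoc', div_le_div_iff₀ hPx hw2pos]
    calc marg μ M x * ∏ i ∈ M, w2 i (x i)
        ≤ marg μ M x * (Real.exp (∑ i ∈ M, A i) * ∏ i ∈ M, w i (x i)) :=
          mul_le_mul_of_nonneg_left hw2le hmarg.le
      _ = _ := by ring
  have h6 : 0 < gdw w2 μ M x := div_pos hmarg hw2pos
  have h7 := Real.log_le_log hgpos h5
  rw [Real.log_mul (Real.exp_pos _).ne' h6.ne', Real.log_exp] at h7
  have h8 := hQ (by nlinarith)
  rw [sum_add_distrib, sum_add_distrib, sum_const, nsmul_eq_mul]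
  have h9 : a ≤ M.card * a := by nlinarith
  linarith

/-- scaling the kernels -/
theorem OB_scale {K : ∀ i, V i → V i → ℝ} {c : ι → ℝ} {u u' : ∀ i, V i → ℝ}
    {s0 : ∀ i, V i → V i → ℝ} {rho ee : ι → ℝ} (hK : H365.OB w K c u u' s0 rho ee)
    {r : ι → ℝ} (hr : ∀ i, 0 ≤ r i) :
    H365.OB w (fun i a b => r i * K i a b) (fun i => r i * c i) (fun i a => r i * u i a)
      (fun i a => r i * u' i a) (fun i a b => r i * s0 i a b) (fun i => r i * rho i)
      (fun i => r i * ee i) where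
  rho0 := fun i => mul_nonneg (hr i) (hK.rho0 i)
  e0 := fun i => mul_nonneg (hr i) (hK.e0 i)
  split := fun i a b => by rw [hK.split i a b]; ring
  sl := fun i b => by
    have h := hK.sl i b
    have e1 : ∀ a, w i a * (r i * s0 i a b) = r i * (w i a * s0 i a b) := fun a => by ring
    rw [sum_congr rfl fun a _ => e1 a, ← mul_sum, h, mul_zero]
  sr := fun i a => by
    have h := hK.sr i a
    have e1 : ∀ b, w i b * (r i * s0 i a b) = r i * (w i b * s0 i a b) := fun b => by ring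
    rw [sum_congr rfl fun b _ => e1 b, ← mul_sum, h, mul_zero]
  ul := fun i => by
    have h := hK.ul i
    have e1 : ∀ a, w i a * (r i * u i a) = r i * (w i a * u i a) := fun a => by ring
    rw [sum_congr rfl fun a _ => e1 a, ← mul_sum, h, mul_zero]
  ur := fun i => by
    have h := hK.ur i
    have e1 : ∀ a, w i a * (r i * u' i a) = r i * (w i a * u' i a) := fun a => by ring
    rw [sum_congr rfl fun a _ => e1 a, ← mul_sum, h, mul_zero]
  cn := fun i => by
    rw [abs_mul, abs_of_nonneg (hr i)]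
    exact mul_le_mul_of_nonneg_left (hK.cn i) (hr i)
  un := fun i => by
    have h := mul_le_mul_of_nonneg_left (hK.un i) (sq_nonneg (r i))
    have e1 : ∀ a, w i a * (r i * u i a) ^ 2 = r i ^ 2 * (w i a * u i a ^ 2) := fun a => by ring
    rw [sum_congr rfl fun a _ => e1 a, ← mul_sum]
    refine h.trans (le_of_eq ?_)
    ring
  un' := fun i => by
    have h := mul_le_mul_of_nonneg_left (hK.un' i) (sq_nonneg (r i))
    have e1 : ∀ a, w i a * (r i * u' i a) ^ 2 = r i ^ 2 * (w i a * u' i a ^ 2) := fun a => by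
      ring
    rw [sum_congr rfl fun a _ => e1 a, ← mul_sum]
    refine h.trans (le_of_eq ?_)
    ring
  sn := fun i f => by
    have h := mul_le_mul_of_nonneg_left (hK.sn i f) (sq_nonneg (r i))
    have e1 : ∀ a, w i a * (∑ b, w i b * (r i * s0 i a b * f b)) ^ 2
        = r i ^ 2 * (w i a * (∑ b, w i b * (s0 i a b * f b)) ^ 2) := fun a => by
      have e2 : ∑ b, w i b * (r i * s0 i a b * f b) = r i * ∑ b, w i b * (s0 i a b * f b) := by
        rw [mul_sum]
        exact sum_congr rfl fun b _ => by ring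
      rw [e2]; ring
    rw [sum_congr rfl fun a _ => e1 a, ← mul_sum]
    refine h.trans (le_of_eq ?_)
    ring

lemma pr_scale (r : ι → ℝ) (K : ∀ i, V i → V i → ℝ) (B : Finset ι) :
    pr μ ν (fun i a b => r i * K i a b) B = (∏ i ∈ B, r i) * pr μ ν K B := by
  unfold pr
  rw [mul_sum]
  refine sum_congr rfl fun x _ => ?_
  rw [mul_sum]
  refine sum_congr rfl fun y _ => ?_
  rw [prod_mul_distrib]
  ring

/-- weighted pair sums from energies -/
theorem pr_weighted (H : Ref w μ) (H' : Ref w μ') {K : ∀ i, V i → V i → ℝ} {c : ι → ℝ}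
    {u u' : ∀ i, V i → ℝ} {s0 : ∀ i, V i → V i → ℝ} {rho ee r : ι → ℝ}
    (hK : H365.OB w K c u u' s0 rho ee) (hr : ∀ i, 0 ≤ r i)
    (D : Finset (Finset ι)) (hDc : ∀ B ∈ D, ∀ C ⊆ B, C ∈ D) {X : ℝ}
    (hX : ∑ B ∈ D, (∏ i ∈ B, 2 * (r i * rho i)) * nh w (gdw w μ) B ≤ X)
    (hX' : ∑ B ∈ D, (∏ i ∈ B, 2 * (r i * rho i)) * nh w (gdw w μ') B ≤ X) :
    ∑ B ∈ D, |pr μ μ' K B| * ∏ i ∈ B, r i ≤ Real.exp (2 * ∑ i, r i * ee i) * X := by
  have hK' := OB_scale hK hr
  have h1 := H365.onebody_sum_le H.w_nonneg H.w_sum hK' D hDc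
    (h := Hc w (gdw w μ univ)) (h' := Hc w (gdw w μ' univ))
    (fun C i hi => H461.Hc_inv hi _) (fun C _ i hi => H461.av_Hc H.w_sum hi _)
    (fun C i hi => H461.Hc_inv hi _) (fun C _ i hi => H461.av_Hc H.w_sum hi _)
    (R := 1) zero_le_one
  simp only [one_pow, one_mul, mul_one] at h1
  have e1 : ∀ B ∈ D, |H365.Ph2 w (fun i a b => r i * K i a b) B
      (∑ C ∈ B.powerset, Hc w (gdw w μ univ) C)
      (∑ C ∈ B.powerset, Hc w (gdw w μ' univ) C)| = |pr μ μ' K B| * ∏ i ∈ B, r i := by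
    intro B _
    rw [← pr_Ph2 H H', pr_scale, abs_mul, abs_of_nonneg (prod_nonneg fun i _ => hr i), mul_comm]
  rw [sum_congr rfl e1] at h1
  have e2 : ∀ {ν : (∀ i, V i) → ℝ}, Ref w ν →
      ∑ B ∈ D, (∏ i ∈ B, 2 * (r i * rho i)) * nh w (gdw w ν) B ≤ X →
      ∑ C ∈ D, (∏ i ∈ C, (2 * (r i * rho i))) *
        ip w (Hc w (gdw w ν univ) C) (Hc w (gdw w ν univ) C) ≤ X := by
    intro ν Hν hν
    rw [sum_congr rfl fun C _ => by rw [ip_Hc_gdw Hν]]
    exact hν
  have h2 := e2 H hX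
  have h3 := e2 H' hX'
  have hX0 : 0 ≤ X := le_trans (sum_nonneg fun C _ => mul_nonneg
      (prod_nonneg fun i _ => mul_nonneg zero_le_two (mul_nonneg (hr i) (hK.rho0 i)))
      (H461.ip_self_nonneg H.w_nonneg _)) h2
  have h4 : √(∑ C ∈ D, (∏ i ∈ C, (2 * (r i * rho i))) *
        ip w (Hc w (gdw w μ univ) C) (Hc w (gdw w μ univ) C)) *
      √(∑ C ∈ D, (∏ i ∈ C, (2 * (r i * rho i))) *
        ip w (Hc w (gdw w μ' univ) C) (Hc w (gdw w μ' univ) C)) ≤ X := by
    calc _ ≤ √X * √X :=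
          mul_le_mul (Real.sqrt_le_sqrt h2) (Real.sqrt_le_sqrt h3) (Real.sqrt_nonneg _)
            (Real.sqrt_nonneg _)
      _ = _ := Real.mul_self_sqrt hX0
  exact h1.trans (mul_le_mul_of_nonneg_left h4 (Real.exp_pos _).le)

/-- a single pair sum through the four mixtures -/
lemma pr_four (e : ℝ) (K : ∀ i, V i → V i → ℝ) (B : Finset ι) :
    (1 - e) ^ 2 * pr μ μ' K B
      = pr (mix e w μ) (mix e w μ') K B - e * pr (mix e w μ) (pw w) K B
        - e * pr (pw w) (mix e w μ') K B + e ^ 2 * pr (pw w) (pw w) K B := by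
  rw [pr_mix_left e K B, pr_mix_left e K B, pr_mix_right e K B, pr_mix_right e K B]
  ring

theorem abs_four {e : ℝ} (he0 : 0 < e) (he1 : e ≤ 1 / 8) (K : ∀ i, V i → V i → ℝ)
    (B : Finset ι) : |pr μ μ' K B|
      ≤ 2 * (|pr (mix e w μ) (mix e w μ') K B| + |pr (mix e w μ) (pw w) K B|
        + |pr (pw w) (mix e w μ') K B| + |pr (pw w) (pw w) K B|) := by
  have h1 := pr_four (w := w) (μ := μ) (μ' := μ') e K B
  have h2 : |(1 - e) ^ 2 * pr μ μ' K B| = (1 - e) ^ 2 * |pr μ μ' K B| := by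
    rw [abs_mul, abs_of_nonneg (sq_nonneg _)]
  have h3 : (1 : ℝ) / 2 ≤ (1 - e) ^ 2 := by nlinarith
  have h4 : (1 / 2) * |pr μ μ' K B| ≤ |(1 - e) ^ 2 * pr μ μ' K B| := by
    rw [h2]
    exact mul_le_mul_of_nonneg_right h3 (abs_nonneg _)
  rw [h1] at h4
  obtain ⟨p1, hp1⟩ : ∃ p, p = pr (mix e w μ) (mix e w μ') K B := ⟨_, rfl⟩
  obtain ⟨p2, hp2⟩ : ∃ p, p = pr (mix e w μ) (pw w) K B := ⟨_, rfl⟩
  obtain ⟨p3, hp3⟩ : ∃ p, p = pr (pw w) (mix e w μ') K B := ⟨_, rfl⟩
  obtain ⟨p4, hp4⟩ : ∃ p, p = pr (pw w) (pw w) K B := ⟨_, rfl⟩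
  rw [← hp1, ← hp2, ← hp3, ← hp4] at h4 ⊢
  have h5 : |p1 - e * p2 - e * p3 + e ^ 2 * p4| ≤ |p1| + |e * p2| + |e * p3| + |e ^ 2 * p4| := by
    have g1 := abs_add_le (p1 - e * p2 - e * p3) (e ^ 2 * p4)
    have g2 := abs_sub (p1 - e * p2) (e * p3)
    have g3 := abs_sub p1 (e * p2)
    linarith
  rw [abs_mul, abs_mul, abs_mul, abs_of_pos he0, abs_of_pos (pow_pos he0 2)] at h5
  have g4 : e * |p2| ≤ 1 * |p2| := mul_le_mul_of_nonneg_right (by linarith) (abs_nonneg _)
  have g5 : e * |p3| ≤ 1 * |p3| := mul_le_mul_of_nonneg_right (by linarith) (abs_nonneg _)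
  have g6 : e ^ 2 * |p4| ≤ 1 * |p4| := mul_le_mul_of_nonneg_right (by nlinarith) (abs_nonneg _)
  linarith

end

end Vale.Agent.P042.H482
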