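import Vale.Agent.P042.H482.MixF

/-! (F1) for pair sums from pins on thick cells (power regime). -/

namespace Vale.Agent.P042.H482

open Finset Vale.Agent.P042.H779.Ab
open Vale.Agent.P042.H779 (marg m1 IsProb marg_nonneg)

set_option linter.unusedSectionVars false

/-- The hypotheses on one law in the power regime: 461's `Law` with the exponential moments and
the density bounds replaced by the pins inequality on thick cells. -/
structure Thick {ι : Type*} [Fintype ι] [DecidableEq ι] {V : ι → Type*} [∀ i, Fintype (V i)]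
    [∀ i, DecidableEq (V i)] (b γ A0 : ℝ) (w w2 : ∀ i, V i → ℝ) (μ : (∀ i, V i) → ℝ)
    (sc : ι → ℕ) (ns : ℕ) (ℓ : ι → ℝ) (Λ : ℝ) (L A α lamf : ι → ℝ) (a e : ℝ) : Prop where
  ref : Ref w μ
  scn : ∀ i, sc i < ns
  card : ∀ s : ℕ, ((At sc s).card : ℝ) ≤ Real.exp (b * s)
  L1 : ∀ i, 1 ≤ L i
  LA : ∀ i, L i ≤ A0 * sc i
  atoms : ∀ i v, w i v = 0 ∨ Real.exp (-L i) ≤ w i v
  w20 : ∀ i v, 0 ≤ w2 i v
  w21 : ∀ i, ∑ v, w2 i v = 1
  w2A : ∀ i v, w i v = 0 ∨ (0 < w2 i v ∧ w2 i v ≤ Real.exp (A i) * w i v)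
  A0' : ∀ i, 0 ≤ A i
  α0 : ∀ i, 0 ≤ α i
  a0 : 0 ≤ a
  gH1 : ∀ i, A i + α i + a ≤ γ * sc i
  a1 : ∀ i, a + 1 ≤ Real.exp (γ * sc i)
  lam0 : ∀ i, 0 ≤ lamf i
  lam1 : ∀ i, Real.exp (-(γ * sc i)) ≤ lamf i
  e0 : 0 < e
  e1 : e ≤ 1 / 8
  eB : e * ∑ j, lamf j * (1 + L j) ≤ 1
  hQ : ∀ P : Finset ι, Ll.len ℓ P ≤ 2 * Λ → ∀ x, e ^ 2 ≤ gdw w μ P x →
    ∑ j ∈ univ \ P, lamf j * Di w (gdw w μ) j P x
      ≤ ∑ i ∈ P, α i + a - Real.log (gdw w2 μ P x)
  ℓ0 : ∀ i, 0 ≤ ℓ i
  Λ0 : 0 < Λ
  ℓΛ : ∀ i, 4 * ℓ i ≤ Λ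

section
variable {ι : Type*} [Fintype ι] [DecidableEq ι] {V : ι → Type*} [∀ i, Fintype (V i)]
  [∀ i, DecidableEq (V i)] {b γ A0 : ℝ} {w w2 : ∀ i, V i → ℝ} {μ μ' : (∀ i, V i) → ℝ}
  {sc : ι → ℕ} {ns : ℕ} {ℓ : ι → ℝ} {Λ : ℝ} {L A α lamf : ι → ℝ} {a e : ℝ}

/-- the additive constant at a scale -/
noncomputable def aS (sc : ι → ℕ) (a : ℝ) (s : ℕ) : ℝ :=
  if (At sc s).Nonempty then a + 1 else 0

lemma Di_le_ind (H : Ref w μ) (hL1 : ∀ i, 1 ≤ L i)
    (hat : ∀ i v, w i v = 0 ∨ Real.exp (-L i) ≤ w i v) {j : ι} {P : Finset ι} (hj : j ∉ P)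
    {x : ∀ i, V i} (hx : 0 < gdw w μ P x) : Di w (gdw w μ) j P x ≤ 1 + L j := by
  have h1 : Di w (gdw w μ) j P x
      ≤ ∑ v, w j v * (1 + L j * rt (gdw w μ) j (Function.update x j v) P) := by
    unfold Di
    refine sum_le_sum fun v _ => ?_
    rcases (H.w_nonneg j v).eq_or_lt with h0 | h0
    · rw [← h0]; simp
    refine mul_le_mul_of_nonneg_left ?_ h0.le
    have hLe : Real.exp (-L j) ≤ w j v := by
      rcases hat j v with h | h
      · exact absurd h h0.ne'
      · exact h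
    -- the ratio is at most `1 / w j v`
    have hr : rt (gdw w μ) j (Function.update x j v) P ≤ Real.exp (L j) := by
      unfold rt
      have hup : gdw w μ P (Function.update x j v) = gdw w μ P x :=
        H.famT.g_upd P j hj x v
      rw [hup, div_le_iff₀ hx]
      have h2 := w_mul_g_insert_le H.famT hj trivial (Function.update x j v)
      rw [Function.update_self, hup] at h2
      have hg0 : 0 ≤ gdw w μ (insert j P) (Function.update x j v) := H.famT.g_nonneg _ _
      have h3 : Real.exp (-L j) * gdw w μ (insert j P) (Function.update x j v)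
          ≤ gdw w μ P x := (mul_le_mul_of_nonneg_right hLe hg0).trans h2
      calc gdw w μ (insert j P) (Function.update x j v)
          = Real.exp (L j) * (Real.exp (-L j) *
            gdw w μ (insert j P) (Function.update x j v)) := by
            rw [← mul_assoc, ← Real.exp_add]; simp
        _ ≤ Real.exp (L j) * gdw w μ P x :=
            mul_le_mul_of_nonneg_left h3 (Real.exp_pos _).le
    exact H779.phi_le_of_le_exp (rt_nonneg H.famT _ _ _) hr
  have h2 : ∑ v, w j v * (1 + L j * rt (gdw w μ) j (Function.update x j v) P)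
      = (∑ v, w j v) + L j * ∑ v, w j v * rt (gdw w μ) j (Function.update x j v) P := by
    rw [mul_sum, ← sum_add_distrib]
    exact sum_congr rfl fun v _ => by ring
  rw [h2, H.w_sum, sum_w_rt H hj hx, mul_one] at h1
  exact h1

/-- the mixture satisfies 461's hypotheses -/
theorem Thick.law (T : Thick b γ A0 w w2 μ sc ns ℓ Λ L A α lamf a e) (hγ : 0 ≤ γ) :
    Ll.Law b γ A0 w (mix e w μ) sc ns ℓ Λ L (fun i => A i + α i + a)
      (fun s => Real.exp (-(γ * s))) (aS sc a) (fun _ i => α i) := by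
  have H := T.ref
  have hac : ∀ i v, w2 i v = 0 → m1 μ i v = 0 := by
    intro i v h
    rcases T.w2A i v with h1 | h1
    · exact H.ac i v h1
    · exact absurd h h1.1.ne'
  have hDi : ∀ (P : Finset ι) (x : ∀ i, V i) (j : ι), 0 ≤ Di w (gdw w μ) j P x :=
    fun P x j => Di_nonneg H.famT _ _ _
  exact
    { ref := ref_mix H T.e0.le (by linarith [T.e1])
      scn := T.scn
      card := T.card
      L1 := T.L1
      LA := T.LA
      atoms := T.atoms
      gH0 := fun i => by
        have := T.A0' i; have := T.α0 i; have := T.a0; linarith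
      gH1 := T.gH1
      hlog := fun M hM x hx => by
        have hM2 : Ll.len ℓ M ≤ 2 * Λ := by have := T.Λ0; linarith
        refine log_mix_gen H T.e0 T.e1 T.α0 T.a0 T.A0' T.w2A x (fun hth => ?_) hx
        have h1 := T.hQ M hM2 x hth
        have h2 : 0 ≤ ∑ j ∈ univ \ M, lamf j * Di w (gdw w μ) j M x :=
          sum_nonneg fun j _ => mul_nonneg (T.lam0 j) (hDi _ _ _)
        linarith
      lam1 := fun s => le_rfl
      a0 := fun s => by
        unfold aS
        split_ifs
        · have := T.a0; linarith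
        · exact le_rfl
      a1 := fun s => by
        unfold aS
        split_ifs with h
        · obtain ⟨i, hi⟩ := h
          have h1 := T.a1 i
          unfold At at hi
          rw [mem_filter] at hi
          rw [hi.2] at h1
          exact h1
        · exact (Real.exp_pos _).le
      c0 := fun s i => T.α0 i
      c1 := fun s i => by
        have := T.gH1 i; have := T.A0' i; have := T.a0; linarith
      pe := fun s P hP hlen => by
        by_cases hne : (At sc s).Nonempty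
        · have ha : aS sc a s = a + 1 := by unfold aS; rw [if_pos hne]
          rw [ha, ← add_assoc]
          simp only [mul_sum]
          refine pe_mix_gen (w2 := w2) H T.w20 T.w21 hac (J := At sc s \ P)
            (fun j hj => (mem_sdiff.mp hj).2) (lam := fun _ => Real.exp (-(γ * s)))
            (B0 := ∑ j, lamf j * (1 + L j)) T.e0 T.e1 (fun _ => (Real.exp_pos _).le) T.eB
            (add_nonneg (sum_nonneg fun i _ => T.α0 i) T.a0) (fun x hx => ?_) fun x hx => ?_
          · have h1 : ∀ j ∈ At sc s \ P, Real.exp (-(γ * s)) * Di w (gdw w μ) j P x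
                ≤ lamf j * (1 + L j) := by
              intro j hj
              have hjs : sc j = s := by
                have := (mem_sdiff.mp hj).1
                unfold At at this
                exact (mem_filter.mp this).2
              have h2 := T.lam1 j
              rw [hjs] at h2
              exact mul_le_mul h2 (Di_le_ind H T.L1 T.atoms (mem_sdiff.mp hj).2 hx)
                (hDi _ _ _) (T.lam0 j)
            refine (sum_le_sum h1).trans ?_
            exact sum_le_sum_of_subset_of_nonneg (subset_univ _) fun j _ _ =>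
              mul_nonneg (T.lam0 j) (by have := T.L1 j; linarith)
          · have h1 := T.hQ P hlen x hx
            refine le_trans ?_ h1
            have h2 : ∀ j ∈ At sc s \ P, Real.exp (-(γ * s)) * Di w (gdw w μ) j P x
                ≤ lamf j * Di w (gdw w μ) j P x := by
              intro j hj
              have hjs : sc j = s := by
                have := (mem_sdiff.mp hj).1
                unfold At at this
                exact (mem_filter.mp this).2
              have h2 := T.lam1 j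
              rw [hjs] at h2
              exact mul_le_mul_of_nonneg_right h2 (hDi _ _ _)
            refine (sum_le_sum h2).trans ?_
            exact sum_le_sum_of_subset_of_nonneg
              (sdiff_subset_sdiff (subset_univ _) subset_rfl) fun j _ _ =>
              mul_nonneg (T.lam0 j) (hDi _ _ _)
        · have h1 : At sc s = ∅ := not_nonempty_iff_eq_empty.mp hne
          have h2 : aS sc a s = 0 := by unfold aS; rw [if_neg hne]
          have Hm := ref_mix H T.e0.le (by linarith [T.e1] : e ≤ 1)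
          rw [h1, h2]
          simp only [empty_sdiff, sum_empty, mul_zero, Real.exp_zero, mul_one, add_zero]
          rw [Hm.prob.sum_eq]
          exact Real.one_le_exp (sum_nonneg fun i _ => T.α0 i)
      ℓ0 := T.ℓ0
      Λ0 := T.Λ0
      ℓΛ := T.ℓΛ }

/-- the product law satisfies 461's hypotheses -/
theorem Thick.law_pw (T : Thick b γ A0 w w2 μ sc ns ℓ Λ L A α lamf a e) (hγ : 0 ≤ γ) :
    Ll.Law b γ A0 w (pw w) sc ns ℓ Λ L (fun i => A i + α i + a)
      (fun s => Real.exp (-(γ * s))) (aS sc a) (fun _ i => α i) := by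
  have H := T.ref
  have L0 := T.law hγ
  have M3 := ref_pw H
  exact
    { ref := M3
      scn := T.scn
      card := T.card
      L1 := T.L1
      LA := T.LA
      atoms := T.atoms
      gH0 := L0.gH0
      gH1 := L0.gH1
      hlog := fun M _ x hx => by
        have hmm := (gdw_pos_iff M3.prob M3.w_nonneg M3.ac M x).mp hx
        rw [gdw_pw H (prod_w_pos_of_marg M3.prob M3.w_nonneg M3.ac hmm), Real.log_one]
        exact sum_nonneg fun i _ => L0.gH0 i
      lam1 := L0.lam1
      a0 := L0.a0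
      a1 := L0.a1
      c0 := L0.c0
      c1 := L0.c1
      pe := fun s P _ _ => by
        have h1 : ∀ x, pw w x * Real.exp (Real.exp (-(γ * s)) *
            ∑ j ∈ At sc s \ P, Di w (gdw w (pw w)) j P x) = pw w x := by
          intro x
          rcases (pw_nonneg H.famT x).eq_or_lt with hx | hx
          · rw [← hx]; simp
          have hPx : 0 < ∏ i ∈ P, w i (x i) := by
            refine prod_pos fun i _ => lt_of_le_of_ne (H.w_nonneg i _) fun h0 => ?_
            have : pw w x = 0 := prod_eq_zero (mem_univ i) h0.symm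
            exact hx.ne' this
          rw [sum_eq_zero fun j hj => Di_pw H (mem_sdiff.mp hj).2 hPx]
          simp
        rw [sum_congr rfl fun x _ => h1 x, pw_sum H.famT]
        exact Real.one_le_exp (add_nonneg (sum_nonneg fun i _ => T.α0 i) (L0.a0 s))
      ℓ0 := T.ℓ0
      Λ0 := T.Λ0
      ℓΛ := T.ℓΛ }

end

/-- **(F1) for the pair sums**, pins on thick cells only. -/
theorem F1_mix {b γ ρ A0 η : ℝ} (hb : 0 < b) (hγ : 0 < γ) (hρ : 8 * γ + ρ ≤ 3 * b / 8) (hA : 1 ≤ A0)
    (hη : 0 < η) (hη1 : η ≤ 1) : ∃ s1 : ℕ, ∀ {ι : Type*} [Fintype ι] [DecidableEq ι]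
    {V : ι → Type*} [∀ i, Fintype (V i)] [∀ i, DecidableEq (V i)] {w w2 : ∀ i, V i → ℝ}
    {μ μ' : (∀ i, V i) → ℝ} {sc : ι → ℕ} {ns : ℕ} {ℓ : ι → ℝ} {Λ : ℝ} {L A α lamf : ι → ℝ}
    {a e : ℝ}, Thick b γ A0 w w2 μ sc ns ℓ Λ L A α lamf a e →
    Thick b γ A0 w w2 μ' sc ns ℓ Λ L A α lamf a e → (∀ i, s1 ≤ sc i) →
    ∀ {K : ∀ i, V i → V i → ℝ} {c : ι → ℝ} {u u' : ∀ i, V i → ℝ} {s0 : ∀ i, V i → V i → ℝ}
      {rho ee : ι → ℝ}, H365.OB w K c u u' s0 rho ee →
    ∀ {r : ℕ → ℝ}, (∀ s, 0 ≤ r s) → (∀ s : ℕ, r s ≤ Real.exp (ρ * s)) →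
    (∀ i, 2 * rho i ≤ Real.exp ((-(b / 2) + γ) * sc i)) →
    8 * ∑ i, 2 * (r (sc i) * rho i) * Real.exp (4 * γ * sc i + 1) * ℓ i ≤ Λ →
    ∀ D : Finset (Finset ι), (∀ B ∈ D, ∀ C ⊆ B, C ∈ D) → (∀ B ∈ D, 2 * Ll.len ℓ B ≤ Λ) →
    ∑ B ∈ D, |pr μ μ' K B| * ∏ i ∈ B, r (sc i)
      ≤ 16 * (Real.exp (2 * ∑ i, r (sc i) * ee i) *
        Real.exp (η + ∑ j ∈ range ns, Real.exp (19 * γ * j) * r j ^ 2)) := by
  obtain ⟨s1, hs1⟩ := Ll.F1 hb hγ hρ hA hη hη1
  refine ⟨s1, ?_⟩
  intro ι _ _ V _ _ w w2 μ μ' sc ns ℓ Λ L A α lamf a e T T' hsc K c u u' s0 rho ee hK r r0 r1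
    hrho hcap D hDc hDl
  have hσ0 : ∀ i, 0 ≤ 2 * (r (sc i) * rho i) := fun i =>
    mul_nonneg zero_le_two (mul_nonneg (r0 _) (hK.rho0 i))
  have hσ1 : ∀ i, 2 * (r (sc i) * rho i) ≤ Real.exp ((-(b / 2) + γ) * sc i) * r (sc i) := by
    intro i
    have h1 := mul_le_mul_of_nonneg_right (hrho i) (r0 (sc i))
    linarith
  have T1 := T.law hγ.le
  have T2 := T'.law hγ.le
  have T3 := T.law_pw hγ.le
  have E1 := (hs1 T1 hsc hσ0 r0 r1 hσ1 hcap D hDl).1
  have E2 := (hs1 T2 hsc hσ0 r0 r1 hσ1 hcap D hDl).1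
  have E3 := (hs1 T3 hsc hσ0 r0 r1 hσ1 hcap D hDl).1
  have hr' : ∀ i, 0 ≤ (fun i => r (sc i)) i := fun i => r0 (sc i)
  have q1 := pr_weighted (r := fun i => r (sc i)) T1.ref T2.ref hK hr' D hDc E1 E2
  have q2 := pr_weighted (r := fun i => r (sc i)) T1.ref T3.ref hK hr' D hDc E1 E3
  have q3 := pr_weighted (r := fun i => r (sc i)) T3.ref T2.ref hK hr' D hDc E3 E2
  have q4 := pr_weighted (r := fun i => r (sc i)) T3.ref T3.ref hK hr' D hDc E3 E3
  have hterm : ∀ B ∈ D, |pr μ μ' K B| * ∏ i ∈ B, r (sc i)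
      ≤ 2 * (|pr (mix e w μ) (mix e w μ') K B| * ∏ i ∈ B, r (sc i)
        + |pr (mix e w μ) (pw w) K B| * ∏ i ∈ B, r (sc i)
        + |pr (pw w) (mix e w μ') K B| * ∏ i ∈ B, r (sc i)
        + |pr (pw w) (pw w) K B| * ∏ i ∈ B, r (sc i)) := by
    intro B _
    have h1 := abs_four (w := w) (μ := μ) (μ' := μ') T.e0 T.e1 K B
    have h2 := mul_le_mul_of_nonneg_right h1 (prod_nonneg fun i (_ : i ∈ B) => r0 (sc i))
    linarith
  refine (sum_le_sum hterm).trans ?_
  rw [← mul_sum, sum_add_distrib, sum_add_distrib, sum_add_distrib]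
  obtain ⟨X, hX⟩ : ∃ X, X = Real.exp (2 * ∑ i, r (sc i) * ee i) *
        Real.exp (η + ∑ j ∈ range ns, Real.exp (19 * γ * j) * r j ^ 2) := ⟨_, rfl⟩
  have e1 : Real.exp (2 * ∑ i, r (sc i) * ee i) *
      (2 * Real.exp (η + ∑ j ∈ range ns, Real.exp (19 * γ * j) * r j ^ 2)) = 2 * X := by
    rw [hX]; ring
  rw [e1] at q1 q2 q3 q4
  rw [← hX]
  linarith

end Vale.Agent.P042.H482
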