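import Vale.Agent.P042.H482.Pins

/-! The exponential moment form of the pinned inequality (P). -/

namespace Vale.Agent.P042.H482

open Finset Vale.Agent.P042.H779 Vale.Agent.P042.H779.Ab

set_option linter.unusedSectionVars false

section
variable {ι : Type*} [Fintype ι] [DecidableEq ι] {V : ι → Type*} [∀ i, Fintype (V i)]
  [∀ i, DecidableEq (V i)] {w w2 : ∀ i, V i → ℝ} {μ : (∀ i, V i) → ℝ}

/-- **(Pe)**: exponential moments of the sum of the divergences given the pins `P` -/
def Pe (w : ∀ i, V i → ℝ) (μ : (∀ i, V i) → ℝ) (ok' : Finset ι → Prop) (lam gP a : ℝ) : Prop :=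
  ∀ P, ok' P → ∑ x, μ x * Real.exp (lam * ∑ j ∈ univ \ P, Di w (gdw w μ) j P x)
    ≤ Real.exp (gP * P.card + a)

/-- `E_μ [∏_P w2 / μ_P] ≤ 1` for every second family of reference weights -/
lemma sum_inv_le (h : IsProb μ) (h0 : ∀ i a, 0 ≤ w2 i a) (h1 : ∀ i, ∑ a, w2 i a = 1)
    (P : Finset ι) : ∑ x, μ x * ((∏ i ∈ P, w2 i (x i)) / marg μ P x) ≤ 1 := by
  -- the product of the weights is a marginal of the product law
  have hm : ∀ x : ∀ i, V i, ∏ i ∈ P, w2 i (x i)
      = ∑ y, if (∀ i ∈ P, y i = x i) then Ab.pw w2 y else 0 := by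
    intro x
    have e1 : ∀ y : ∀ i, V i, (if (∀ i ∈ P, y i = x i) then Ab.pw w2 y else 0)
        = ∏ i, (if i ∈ P then (if y i = x i then w2 i (y i) else 0) else w2 i (y i)) := by
      intro y
      by_cases hy : ∀ i ∈ P, y i = x i
      · rw [if_pos hy]
        unfold Ab.pw
        refine prod_congr rfl fun i _ => ?_
        by_cases hi : i ∈ P
        · rw [if_pos hi, if_pos (hy i hi)]
        · rw [if_neg hi]
      · rw [if_neg hy]
        push Not at hy
        obtain ⟨i, hi, hne⟩ := hy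
        symm
        refine prod_eq_zero (mem_univ i) ?_
        rw [if_pos hi, if_neg hne]
    rw [sum_congr rfl fun y _ => e1 y]
    have e2 : ∑ y : ∀ i, V i, ∏ i, (if i ∈ P then (if y i = x i then w2 i (y i) else 0)
        else w2 i (y i)) = ∏ i, ∑ a, (if i ∈ P then (if a = x i then w2 i a else 0)
        else w2 i a) := by
      rw [Finset.prod_univ_sum, Fintype.piFinset_univ]
    rw [e2]
    have e3 : ∀ i, ∑ a, (if i ∈ P then (if a = x i then w2 i a else 0) else w2 i a)
        = if i ∈ P then w2 i (x i) else 1 := by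
      intro i
      by_cases hi : i ∈ P
      · simp only [if_pos hi, sum_ite_eq', mem_univ, if_true]
      · simp only [if_neg hi, h1]
    rw [prod_congr rfl fun i _ => e3 i, prod_ite]
    simp
  have e4 : ∀ x, μ x * ((∏ i ∈ P, w2 i (x i)) / marg μ P x)
      = ∑ y, (if (∀ i ∈ P, x i = y i) then μ x else 0) * (Ab.pw w2 y / marg μ P y) := by
    intro x
    rw [hm x, sum_div, mul_sum]
    refine sum_congr rfl fun y _ => ?_
    by_cases hxy : ∀ i ∈ P, y i = x i
    · have hyx : ∀ i ∈ P, x i = y i := fun i hi => (hxy i hi).symm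
      rw [if_pos hxy, if_pos hyx, marg_congr P hyx]
    · have hyx : ¬ ∀ i ∈ P, x i = y i := fun hc => hxy fun i hi => (hc i hi).symm
      rw [if_neg hxy, if_neg hyx]
      ring
  rw [sum_congr rfl fun x _ => e4 x, sum_comm]
  have hp : ∀ y : ∀ i, V i, 0 ≤ Ab.pw w2 y := fun y => prod_nonneg fun i _ => h0 i _
  have e5 : ∀ y, ∑ x, (if (∀ i ∈ P, x i = y i) then μ x else 0) * (Ab.pw w2 y / marg μ P y)
      ≤ Ab.pw w2 y := by
    intro y
    rw [← sum_mul]
    have e6 : ∑ x, (if (∀ i ∈ P, x i = y i) then μ x else 0) = marg μ P y := rfl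
    rw [e6]
    rcases (marg_nonneg h P y).eq_or_lt with hy | hy
    · rw [← hy, zero_mul]
      exact hp y
    · rw [mul_div_cancel₀ _ hy.ne']
  refine (sum_le_sum fun y _ => e5 y).trans (le_of_eq ?_)
  unfold Ab.pw
  rw [← Fintype.piFinset_univ, ← Finset.prod_univ_sum]
  simp [h1]

/-- the mixed pinned inequality (density relative to `w2`, divergences relative to `w`) gives
(Pe) -/
theorem Pe_of_mixed (H : Ref w μ) (h0 : ∀ i a, 0 ≤ w2 i a) (h1 : ∀ i, ∑ a, w2 i a = 1)
    {ok' : Finset ι → Prop} {lam gP a : ℝ}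
    (hac : ∀ i a, w2 i a = 0 → m1 μ i a = 0)
    (hP : ∀ P, ok' P → ∀ x, 0 < μ x → lam * ∑ j ∈ univ \ P, Di w (gdw w μ) j P x
      ≤ gP * P.card + a - Real.log (gdw w2 μ P x)) : Pe w μ ok' lam gP a := by
  intro P hok
  have key : ∀ x, μ x * Real.exp (lam * ∑ j ∈ univ \ P, Di w (gdw w μ) j P x)
      ≤ Real.exp (gP * P.card + a) * (μ x * ((∏ i ∈ P, w2 i (x i)) / marg μ P x)) := by
    intro x
    rcases (H.prob.nonneg x).eq_or_lt with hx | hx
    · rw [← hx]; simp
    · have h2 := hP P hok x hx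
      have hm : 0 < marg μ P x := lt_of_lt_of_le hx (marg_ge H.prob P x)
      have hw : 0 < ∏ i ∈ P, w2 i (x i) := prod_w_pos_of_marg H.prob h0 hac hm
      have h3 : Real.exp (gP * P.card + a - Real.log (gdw w2 μ P x))
          = Real.exp (gP * P.card + a) * ((∏ i ∈ P, w2 i (x i)) / marg μ P x) := by
        unfold gdw
        rw [Real.exp_sub, Real.exp_log (div_pos hm hw), div_div_eq_mul_div, mul_div_assoc]
      calc μ x * Real.exp (lam * ∑ j ∈ univ \ P, Di w (gdw w μ) j P x)
          ≤ μ x * Real.exp (gP * P.card + a - Real.log (gdw w2 μ P x)) :=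
            mul_le_mul_of_nonneg_left (Real.exp_le_exp.mpr h2) hx.le
        _ = _ := by rw [h3]; ring
  refine (sum_le_sum fun x _ => key x).trans ?_
  rw [← mul_sum]
  calc Real.exp (gP * P.card + a) * ∑ x, μ x * ((∏ i ∈ P, w2 i (x i)) / marg μ P x)
      ≤ Real.exp (gP * P.card + a) * 1 :=
        mul_le_mul_of_nonneg_left (sum_inv_le H.prob h0 h1 P) (Real.exp_pos _).le
    _ = _ := mul_one _

/-- (Pe) under the planted law: the same right side as in the pointwise form -/
theorem JJ_of_Pe (H : Ref w μ) {ok' : Finset ι → Prop} {lam gP a : ℝ} {β : Finset ι → ℝ}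
    (hPe : Pe w μ ok' lam gP a) (hβ : ∀ R, 0 ≤ β R)
    (hβ1 : ∑ R ∈ (univ : Finset ι).powerset, β R ≤ 1) {τ : ℝ} (h0 : 0 < τ) (h1 : τ < 1)
    (hG : 0 < Gm w (gdw w μ) β τ) (P : Finset ι → Finset ι) (hok : ∀ R, β R ≠ 0 → ok' (P R)) :
    JJ w μ β τ (fun _ R x => lam * ∑ j ∈ univ \ P R, Di w (gdw w μ) j (P R) x)
      ≤ KK w μ β τ + gP * JJ w μ β τ (fun _ R _ => ((P R).card : ℝ)) + a * Gm w (gdw w μ) β τ := by
  have h2 := dv_transfer H hβ h0 h1 hG
    (fun R x => Real.exp (lam * ∑ j ∈ univ \ P R, Di w (gdw w μ) j (P R) x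
      - (gP * (P R).card + a))) (fun _ _ _ _ => Real.exp_pos _) (by
      refine le_trans (sum_le_sum (g := fun R => β R) fun R _ => ?_) hβ1
      by_cases hR : β R = 0
      · rw [hR, zero_mul]
      have h3 := hPe (P R) (hok R hR)
      have h4 : ∑ x, μ x * Real.exp (lam * ∑ j ∈ univ \ P R, Di w (gdw w μ) j (P R) x
          - (gP * (P R).card + a)) ≤ 1 := by
        have e1 : ∀ x, μ x * Real.exp (lam * ∑ j ∈ univ \ P R, Di w (gdw w μ) j (P R) x
            - (gP * (P R).card + a))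
            = (μ x * Real.exp (lam * ∑ j ∈ univ \ P R, Di w (gdw w μ) j (P R) x))
              * Real.exp (-(gP * (P R).card + a)) := by
          intro x
          rw [sub_eq_add_neg, Real.exp_add]
          ring
        rw [sum_congr rfl fun x _ => e1 x, ← sum_mul]
        calc _ ≤ Real.exp (gP * (P R).card + a) * Real.exp (-(gP * (P R).card + a)) :=
              mul_le_mul_of_nonneg_right h3 (Real.exp_pos _).le
          _ = 1 := by rw [← Real.exp_add]; simp
      calc β R * ∑ x, μ x * Real.exp (lam * ∑ j ∈ univ \ P R, Di w (gdw w μ) j (P R) x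
          - (gP * (P R).card + a)) ≤ β R * 1 := mul_le_mul_of_nonneg_left h4 (hβ R)
        _ = β R := mul_one _)
  simp only [Real.log_exp] at h2
  have e2 := JJ_sub w μ β τ
    (fun _ R x => lam * ∑ j ∈ univ \ P R, Di w (gdw w μ) j (P R) x)
    (fun _ R _ => gP * ((P R).card : ℝ) + a)
  rw [e2] at h2
  have e3 := JJ_add w μ β τ (fun _ R _ => gP * ((P R).card : ℝ)) (fun _ _ _ => a)
  rw [e3] at h2
  have e4 := JJ_smul w μ β τ gP (fun _ R _ => ((P R).card : ℝ))
  rw [e4] at h2
  have e5 := JJ_const H β τ a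
  rw [e5] at h2
  linarith

end

end Vale.Agent.P042.H482
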