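import Vale.Agent.P042.H482.Bil
import Vale.Agent.P042.H482.Pins

/-! Push forward of a weight on a finite set to a product space. -/

namespace Vale.Agent.P042.H482

open Finset Vale.Agent.P042.H779.Ab
open Vale.Agent.P042.H779 (marg m1 IsProb marg_nonneg m1_nonneg m1_sum marg_congr marg_anti
  marg_empty marg_insert_sum phi)

set_option linter.unusedSectionVars false

section
variable {Ω : Type*} {ι : Type*} [Fintype ι] [DecidableEq ι] {V : ι → Type*}
  [∀ i, Fintype (V i)] [∀ i, DecidableEq (V i)] {w : ∀ i, V i → ℝ} {μ : (∀ i, V i) → ℝ}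

/-- push forward of the weight `g` on `S`, normalised -/
noncomputable def psh (red : Ω → ∀ i, V i) (S : Finset Ω) (g : Ω → ℝ) (x : ∀ i, V i) : ℝ :=
  (∑ n ∈ S, if red n = x then g n else 0) / ∑ n ∈ S, g n

/-- mass of the points of `S` with prescribed coordinates in `P` -/
noncomputable def cel (red : Ω → ∀ i, V i) (S : Finset Ω) (g : Ω → ℝ) (P : Finset ι)
    (x : ∀ i, V i) : ℝ := ∑ n ∈ S, if (∀ i ∈ P, red n i = x i) then g n else 0

variable {red : Ω → ∀ i, V i} {S T : Finset Ω} {g g' : Ω → ℝ}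

theorem psh_sum (F : (∀ i, V i) → ℝ) :
    ∑ x, psh red S g x * F x = (∑ n ∈ S, g n * F (red n)) / ∑ n ∈ S, g n := by
  unfold psh
  have h1 : ∀ x, (∑ n ∈ S, if red n = x then g n else 0) / (∑ n ∈ S, g n) * F x
      = (∑ n ∈ S, if red n = x then g n * F x else 0) / ∑ n ∈ S, g n := by
    intro x
    rw [div_mul_eq_mul_div, sum_mul]
    congr 1
    refine sum_congr rfl fun n _ => ?_
    split_ifs
    · rfl
    · rw [zero_mul]
  rw [sum_congr rfl fun x _ => h1 x, ← sum_div, sum_comm]
  congr 1
  refine sum_congr rfl fun n _ => ?_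
  rw [sum_ite_eq, if_pos (mem_univ _)]

theorem psh_prob (hg : ∀ n ∈ S, 0 ≤ g n) (hS : 0 < ∑ n ∈ S, g n) : IsProb (psh red S g) where
  nonneg := fun x => div_nonneg (sum_nonneg fun n hn => by
    split_ifs
    · exact hg n hn
    · exact le_rfl) hS.le
  sum_eq := by
    have h1 := psh_sum (red := red) (S := S) (g := g) (fun _ => 1)
    simp only [mul_one] at h1
    rw [h1, div_self hS.ne']

theorem marg_psh (P : Finset ι) (x : ∀ i, V i) :
    marg (psh red S g) P x = cel red S g P x / ∑ n ∈ S, g n := by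
  have h1 := psh_sum (red := red) (S := S) (g := g)
    (fun y => if (∀ i ∈ P, y i = x i) then 1 else 0)
  unfold marg cel
  have e1 : ∀ y, (if (∀ i ∈ P, y i = x i) then psh red S g y else 0)
      = psh red S g y * (if (∀ i ∈ P, y i = x i) then 1 else 0) := fun y => by
    split_ifs <;> simp
  rw [sum_congr rfl fun y _ => e1 y, h1]
  congr 1
  refine sum_congr rfl fun n _ => ?_
  split_ifs <;> simp

theorem m1_psh (i : ι) (a : V i) :
    m1 (psh red S g) i a = (∑ n ∈ S, if red n i = a then g n else 0) / ∑ n ∈ S, g n := by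
  have h1 := psh_sum (red := red) (S := S) (g := g) (fun y => if y i = a then 1 else 0)
  unfold m1
  have e1 : ∀ y, (if y i = a then psh red S g y else 0)
      = psh red S g y * (if y i = a then 1 else 0) := fun y => by
    split_ifs <;> simp
  rw [sum_congr rfl fun y _ => e1 y, h1]
  congr 1
  refine sum_congr rfl fun n _ => ?_
  split_ifs <;> simp

/-- the reference weights are the marginals of a larger law -/
theorem psh_ref (hST : S ⊆ T) (hg : ∀ n ∈ T, 0 ≤ g n) (hS : 0 < ∑ n ∈ S, g n) :
    Ref (m1 (psh red T g)) (psh red S g) := by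
  have hT : 0 < ∑ n ∈ T, g n := lt_of_lt_of_le hS
    (sum_le_sum_of_subset_of_nonneg hST fun n hn _ => hg n hn)
  have PT := psh_prob (red := red) hg hT
  refine ⟨psh_prob (fun n hn => hg n (hST hn)) hS, m1_nonneg PT, m1_sum PT, ?_⟩
  intro i a h0
  rw [m1_psh] at h0 ⊢
  have h1 : ∑ n ∈ T, (if red n i = a then g n else 0) = 0 := by
    rcases div_eq_zero_iff.mp h0 with h | h
    · exact h
    · exact absurd h hT.ne'
  have h2 : ∀ n ∈ T, (if red n i = a then g n else 0) = 0 := by
    refine (sum_eq_zero_iff_of_nonneg fun n hn => ?_).mp h1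
    split_ifs
    · exact hg n hn
    · exact le_rfl
  rw [sum_eq_zero fun n hn => h2 n (hST hn), zero_div]

/-- pair sums of two push forwards -/
theorem pr_psh {Ω' : Type*} {red' : Ω' → ∀ i, V i} {S' : Finset Ω'} {g' : Ω' → ℝ}
    (K : ∀ i, V i → V i → ℝ) (B : Finset ι) :
    pr (psh red S g) (psh red' S' g') K B
      = (∑ n ∈ S, ∑ m ∈ S', g n * g' m * ∏ i ∈ B, K i (red n i) (red' m i))
        / ((∑ n ∈ S, g n) * ∑ m ∈ S', g' m) := by
  unfold pr
  have h1 : ∀ x, ∑ y, psh red S g x * psh red' S' g' y * ∏ i ∈ B, K i (x i) (y i)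
      = psh red S g x * ((∑ m ∈ S', g' m * ∏ i ∈ B, K i (x i) (red' m i)) / ∑ m ∈ S', g' m) := by
    intro x
    rw [← psh_sum (fun y => ∏ i ∈ B, K i (x i) (y i)), mul_sum]
    exact sum_congr rfl fun y _ => by ring
  rw [sum_congr rfl fun x _ => h1 x,
    psh_sum (fun x => (∑ m ∈ S', g' m * ∏ i ∈ B, K i (x i) (red' m i)) / ∑ m ∈ S', g' m)]
  have h2 : ∑ n ∈ S, g n * ((∑ m ∈ S', g' m * ∏ i ∈ B, K i (red n i) (red' m i)) /
      ∑ m ∈ S', g' m)
      = (∑ n ∈ S, ∑ m ∈ S', g n * g' m * ∏ i ∈ B, K i (red n i) (red' m i)) /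
        ∑ m ∈ S', g' m := by
    rw [sum_div]
    refine sum_congr rfl fun n _ => ?_
    rw [mul_div_assoc', mul_sum]
    congr 1
    exact sum_congr rfl fun m _ => by ring
  rw [h2, div_div, mul_comm (∑ m ∈ S', g' m)]

end

section
variable {ι : Type*} [Fintype ι] [DecidableEq ι] {V : ι → Type*} [∀ i, Fintype (V i)]
  [∀ i, DecidableEq (V i)] {w : ∀ i, V i → ℝ} {μ : (∀ i, V i) → ℝ}

/-- the divergence is a relative entropy -/
theorem Di_kl (H : Ref w μ) {P : Finset ι} {i : ι} (hi : i ∉ P) {x : ∀ i, V i}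
    (hx : 0 < marg μ P x) :
    Di w (gdw w μ) i P x = ∑ b, (marg μ (insert i P) (Function.update x i b) / marg μ P x) *
      (Real.log (marg μ (insert i P) (Function.update x i b) / marg μ P x)
        - Real.log (w i b)) := by
  rw [Di_eq H hi hx]
  have hsum : ∑ b, marg μ (insert i P) (Function.update x i b) / marg μ P x = 1 := by
    rw [← sum_div, marg_insert_sum P hi x, div_self hx.ne']
  have key : ∀ b, w i b * phi (mi μ P (fun _ => 1) i x b / w i b)
      = (marg μ (insert i P) (Function.update x i b) / marg μ P x) *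
      (Real.log (marg μ (insert i P) (Function.update x i b) / marg μ P x)
        - Real.log (w i b))
        - marg μ (insert i P) (Function.update x i b) / marg μ P x + w i b := by
    intro b
    rw [mi_one hi]
    obtain ⟨r, hr⟩ : ∃ r, r = marg μ (insert i P) (Function.update x i b) / marg μ P x := ⟨_, rfl⟩
    rw [← hr]
    rcases (H.w_nonneg i b).eq_or_lt with h0 | h0
    · have h1 : marg μ (insert i P) (Function.update x i b) = 0 :=
        marg_eq_zero_of_w H.prob H.ac (mem_insert_self i P) (by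
          rw [Function.update_self]; exact h0.symm)
      rw [h1, zero_div] at hr
      rw [hr, ← h0]
      simp
    · have hr0 : 0 ≤ r := by rw [hr]; exact div_nonneg (marg_nonneg H.prob _ _) hx.le
      rcases hr0.eq_or_lt with h1 | h1
      · rw [← h1]
        unfold phi
        simp
      · unfold phi
        rw [Real.log_div h1.ne' h0.ne']
        field_simp
  rw [sum_congr rfl fun b _ => key b, sum_add_distrib, sum_sub_distrib, hsum, H.w_sum]
  ring

end

end Vale.Agent.P042.H482
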