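import Vale.Agent.P042.H482.SMain

/-! The local comparison for logarithmic power parameters. -/

namespace Vale.Agent.P042.H482

open Finset Vale.Agent.P042.H779.Ab
open Vale.Agent.P042.H779 (marg m1 IsProb bw)

set_option linter.unusedSectionVars false
set_option linter.unusedVariables false

section
variable {l C1 gH lam0 th a0 B1 : ℝ} {ι : Type*} [Fintype ι] [DecidableEq ι] {pr : ι → ℕ}

/-- total rate of the scales up to `s` -/
lemma sum_rates_S (N : NumS l C1 gH lam0 th a0 B1) (hinj : Function.Injective pr)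
    {R : ι → ℝ} (hR0 : ∀ i, 0 ≤ R i) (hlo : ∀ i, l ^ 20 ≤ (pr i : ℝ))
    (hR1 : ∀ i, R i ≤ C1 / √(pr i)) (s : ℕ) :
    ∑ i ∈ Lo (dsc pr) (s + 1), (tS l gH R i + KS l * tS l gH R i)
      ≤ 9 * 10 ^ 9 * B1 * l ^ 5 * r2 ^ s := by
  have h0 := N.l0
  have hB := N.B0
  have hK := KS_one N
  have hq : 0 ≤ 2 * KS l * (B1 * l) := by positivity
  have hv : ∀ i, tS l gH R i + KS l * tS l gH R i ≤ 2 * KS l * (B1 * l) / √(pr i) := by
    intro i
    have h1 := tS_le N hR1 i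
    have h2 := tS_nonneg N hR0 i
    have h3 := mul_le_mul_of_nonneg_right hK h2
    have h4 := mul_le_mul_of_nonneg_left h1 (show 0 ≤ 2 * KS l by linarith)
    have h5 : 2 * KS l * (B1 * l / √(pr i)) = 2 * KS l * (B1 * l) / √(pr i) := by ring
    rw [h5] at h4
    linarith
  have h1 := sum_Lo_le hinj (pr_pos N hlo) hq hv (s + 1)
  refine h1.trans ?_
  have h2 := mul_le_mul_of_nonneg_left (r2_geom (s + 1)) hq
  refine h2.trans ?_
  have h3 : r2 ^ (s + 1) ≤ 1.5 * r2 ^ s := by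
    rw [pow_succ, mul_comm]
    exact mul_le_mul_of_nonneg_right r2_lt.le (pow_pos r2_pos s).le
  have h4 : 2 * KS l * (B1 * l) * (3 * r2 ^ (s + 1))
      ≤ 2 * KS l * (B1 * l) * (3 * (1.5 * r2 ^ s)) :=
    mul_le_mul_of_nonneg_left (by linarith) hq
  refine h4.trans (le_of_eq ?_)
  unfold KS
  ring

/-- the second sum over the scales -/
lemma Q2_S (N : NumS l C1 gH lam0 th a0 B1) (hinj : Function.Injective pr)
    {R : ι → ℝ} (hR0 : ∀ i, 0 ≤ R i) (hlo : ∀ i, l ^ 20 ≤ (pr i : ℝ))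
    (hR1 : ∀ i, R i ≤ C1 / √(pr i)) :
    ∀ s ∈ range (NumS.nS l), qS l B1 s * Hn (At (dsc pr) s).card / (lam0 / l) *
      (2 * (1 / l ^ 2) + 2 * ∑ i ∈ Lo (dsc pr) (s + 1),
        (tS l gH R i + KS l * tS l gH R i) * (1 / l ^ 16) + a0)
      ≤ qS l B1 s * Hn (At (dsc pr) s).card / (lam0 / l) * (2 * (1 / l ^ 2) + a0)
        + 108 * 10 ^ 18 * B1 ^ 2 / (lam0 * l ^ 4) := by
  intro s hs
  have h0 := N.l0
  have hB := N.B0
  have hlam := N.hlam
  have h1 := sum_rates_S (gH := gH) N hinj hR0 hlo hR1 s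
  have h2 : ∑ i ∈ Lo (dsc pr) (s + 1), (tS l gH R i + KS l * tS l gH R i) * (1 / l ^ 16)
      ≤ 9 * 10 ^ 9 * B1 * l ^ 5 * r2 ^ s * (1 / l ^ 16) := by
    rw [← sum_mul]
    exact mul_le_mul_of_nonneg_right h1 (by positivity)
  have hr := pow_pos r2_pos s
  have h3 : 0 ≤ qS l B1 s * Hn (At (dsc pr) s).card / (lam0 / l) := by
    have h4 : 0 ≤ qS l B1 s := by unfold qS KS; positivity
    exact div_nonneg (mul_nonneg h4 (Hn_nonneg _)) (by positivity)
  have h4 : qS l B1 s * Hn (At (dsc pr) s).card / (lam0 / l)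
      ≤ 6 * 10 ^ 9 * B1 * l ^ 7 / (lam0 * r2 ^ s) := by
    have h5 := Hn_At_le N hinj (pr_pos N hlo) (mem_range.mp hs)
    have h6 : 0 ≤ qS l B1 s := by unfold qS KS; positivity
    have h7 := div_le_div_of_nonneg_right (mul_le_mul_of_nonneg_left h5 h6)
      (show 0 ≤ lam0 / l by positivity)
    refine h7.trans (le_of_eq ?_)
    unfold qS KS
    field_simp
    norm_num
  have h5 : qS l B1 s * Hn (At (dsc pr) s).card / (lam0 / l) *
      (2 * ∑ i ∈ Lo (dsc pr) (s + 1), (tS l gH R i + KS l * tS l gH R i) * (1 / l ^ 16))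
      ≤ 108 * 10 ^ 18 * B1 ^ 2 / (lam0 * l ^ 4) := by
    have h6 : 0 ≤ ∑ i ∈ Lo (dsc pr) (s + 1),
        (tS l gH R i + KS l * tS l gH R i) * (1 / l ^ 16) := by
      refine sum_nonneg fun i _ => mul_nonneg ?_ (by positivity)
      have := tS_nonneg (gH := gH) N hR0 i
      have := KS_one N
      positivity
    refine (mul_le_mul h4 (mul_le_mul_of_nonneg_left h2 zero_le_two)
      (mul_nonneg zero_le_two h6) (by positivity)).trans (le_of_eq ?_)
    field_simp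
    norm_num
  have e1 : qS l B1 s * Hn (At (dsc pr) s).card / (lam0 / l) *
      (2 * (1 / l ^ 2) + 2 * ∑ i ∈ Lo (dsc pr) (s + 1),
        (tS l gH R i + KS l * tS l gH R i) * (1 / l ^ 16) + a0)
      = qS l B1 s * Hn (At (dsc pr) s).card / (lam0 / l) * (2 * (1 / l ^ 2) + a0)
      + qS l B1 s * Hn (At (dsc pr) s).card / (lam0 / l) *
      (2 * ∑ i ∈ Lo (dsc pr) (s + 1),
        (tS l gH R i + KS l * tS l gH R i) * (1 / l ^ 16)) := by ring
  rw [e1]
  linarith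

lemma Q2_sum (N : NumS l C1 gH lam0 th a0 B1) (hinj : Function.Injective pr)
    {R : ι → ℝ} (hR0 : ∀ i, 0 ≤ R i) (hlo : ∀ i, l ^ 20 ≤ (pr i : ℝ))
    (hR1 : ∀ i, R i ≤ C1 / √(pr i)) :
    ∑ s ∈ range (NumS.nS l), qS l B1 s * Hn (At (dsc pr) s).card / (lam0 / l) *
      (2 * (1 / l ^ 2) + 2 * ∑ i ∈ Lo (dsc pr) (s + 1),
        (tS l gH R i + KS l * tS l gH R i) * (1 / l ^ 16) + a0) ≤ 1 := by
  have h0 := N.l0
  have hB := N.B0
  have hlam := N.hlam
  have hl := N.hl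
  have ha := N.ha0
  refine (sum_le_sum (Q2_S N hinj hR0 hlo hR1)).trans ?_
  rw [sum_add_distrib, ← sum_mul, sum_const, card_range, nsmul_eq_mul]
  have h1 := mul_le_mul_of_nonneg_right (Q1_sum N hinj hlo)
    (show 0 ≤ 2 * (1 / l ^ 2) + a0 by positivity)
  have h2 := mul_le_mul_of_nonneg_right N.nS_le
    (show 0 ≤ 108 * 10 ^ 18 * B1 ^ 2 / (lam0 * l ^ 4) by positivity)
  have h3 : 4 * l * (108 * 10 ^ 18 * B1 ^ 2 / (lam0 * l ^ 4)) ≤ 1 / l := by
    rw [mul_div_assoc', div_le_div_iff₀ (by positivity) h0]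
    have h4 := N.h8
    have h5 : 10 ^ 22 * B1 ^ 2 * l ^ 2 ≤ lam0 * l * l ^ 2 :=
      mul_le_mul_of_nonneg_right h4 (by positivity)
    have h6 : lam0 * l * l ^ 2 ≤ lam0 * l ^ 4 := by
      have h7 : lam0 * l * l ^ 2 = lam0 * l ^ 3 * 1 := by ring
      have h8 : lam0 * l ^ 4 = lam0 * l ^ 3 * l := by ring
      rw [h7, h8]
      exact mul_le_mul_of_nonneg_left (by linarith) (by positivity)
    have h9 : 0 ≤ B1 ^ 2 * l ^ 2 := by positivity
    nlinarith
  have h4 : 1 / l * (2 * (1 / l ^ 2) + a0) + 1 / l ≤ 1 := by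
    have h5 : 2 * (1 / l ^ 2) ≤ 1 := by
      rw [mul_one_div, div_le_one (by positivity)]
      nlinarith
    have h6 : 1 / l * (2 * (1 / l ^ 2) + a0) + 1 / l = (2 * (1 / l ^ 2) + a0 + 1) / l := by
      ring
    rw [h6, div_le_one h0]
    linarith [N.h7]
  linarith

/-- the prefactor -/
lemma fac_S (N : NumS l C1 gH lam0 th a0 B1) :
    17600 * (NumS.mS l : ℝ) ^ 2 * (3 * l) / KS l ≤ 1 / (500 * l) := by
  have h0 := N.l0
  have h1 := N.m_le
  have h2 : (NumS.mS l : ℝ) ^ 2 ≤ (5 * l) ^ 2 := pow_le_pow_left₀ (by positivity) h1 2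
  unfold KS
  rw [div_le_div_iff₀ (by positivity) (by positivity)]
  have h3 : 17600 * (NumS.mS l : ℝ) ^ 2 * (3 * l) * (500 * l)
      ≤ 17600 * (5 * l) ^ 2 * (3 * l) * (500 * l) := by
    have : 0 ≤ l * l := by positivity
    nlinarith
  refine h3.trans ?_
  have h4 : 17600 * (5 * l) ^ 2 * (3 * l) * (500 * l) = 660000000 * l ^ 4 := by ring
  rw [h4]
  have : 0 ≤ l ^ 4 := by positivity
  linarith

lemma alpha_S (N : NumS l C1 gH lam0 th a0 B1) (hinj : Function.Injective pr)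
    (hlo : ∀ i, l ^ 20 ≤ (pr i : ℝ)) :
    αα (dsc pr) (NumS.nS l) (KS l) (qS l B1) (3 * l) gH (1 / 2) (NumS.mS l)
      (fun _ => lam0 / l) ≤ 1 := by
  have h0 := N.l0
  have hl := N.hl
  unfold αα
  have h1 := Q1_sum N hinj hlo
  have h2 := fac_S N
  have h3 := N.half_pow
  have h4 := N.h6
  have h5 := N.hgH
  have h6 : Real.exp (-(2 * l)) ≤ 1 / l := by
    have h7 : Real.exp (-(2 * l)) ≤ Real.exp (-l) := Real.exp_le_exp.mpr (by linarith)
    exact h7.trans N.exp_neg_le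
  have h7 : 2 * gH * (1 / 2) ^ NumS.mS l ≤ 1 / 500 := by
    have h8 := mul_le_mul_of_nonneg_left (h3.trans h6) (show 0 ≤ 2 * gH by linarith)
    refine h8.trans ?_
    rw [mul_one_div, div_le_div_iff₀ h0 (by norm_num)]
    linarith
  have h8 : 1 + 3 * l + 130 * ∑ s ∈ range (NumS.nS l),
      qS l B1 s * Hn (At (dsc pr) s).card / (lam0 / l) ≤ 4 * l := by
    have h9 : 1 / l ≤ 1 / 200 := one_div_le_one_div_of_le (by norm_num) hl
    linarith
  have h9 : 0 ≤ 1 + 3 * l + 130 * ∑ s ∈ range (NumS.nS l),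
      qS l B1 s * Hn (At (dsc pr) s).card / (lam0 / l) := by
    have : 0 ≤ ∑ s ∈ range (NumS.nS l),
      qS l B1 s * Hn (At (dsc pr) s).card / (lam0 / l) := by
      refine sum_nonneg fun s _ => ?_
      have h4 : 0 ≤ qS l B1 s := by
        have := N.B0
        have := pow_pos r2_pos s
        unfold qS KS; positivity
      have := N.hlam
      exact div_nonneg (mul_nonneg h4 (Hn_nonneg _)) (by positivity)
    linarith
  have h10 := mul_le_mul h2 h8 h9 (show 0 ≤ 1 / (500 * l) by positivity)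
  have h11 : 1 / (500 * l) * (4 * l) = 4 / 500 := by field_simp
  rw [h11] at h10
  beta_reduce
  linarith

lemma XE_S (N : NumS l C1 gH lam0 th a0 B1) (hinj : Function.Injective pr)
    {R : ι → ℝ} (hR0 : ∀ i, 0 ≤ R i) (hlo : ∀ i, l ^ 20 ≤ (pr i : ℝ))
    (hhi : ∀ i, (pr i : ℝ) ≤ Real.exp (2 * l) / l ^ 20)
    (hR1 : ∀ i, R i ≤ C1 / √(pr i)) :
    XE (tS l gH R) (fun i => KS l * tS l gH R i) (dsc pr) (NumS.nS l) (KS l) (qS l B1) (3 * l) gH
      (1 / l ^ 2) (tauS l gH) (1 / 2) (NumS.mS l) (fun _ => lam0 / l) (fun _ => a0)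
      (fun _ _ => 1 / l ^ 16) ≤ 1 / 16 := by
  have h0 := N.l0
  have hl := N.hl
  have hB := N.B0
  have hgH := N.hgH
  unfold XE
  have h1 := Q2_sum (gH := gH) N hinj hR0 hlo hR1
  have h2 := fac_S N
  have h3 := N.half_pow
  have h4 := sum_tS (gH := gH) N hinj hlo hhi hR1
  have h5 := N.exp_neg2
  have hT0 : 0 ≤ ∑ i, tS l gH R i := sum_nonneg fun i _ => tS_nonneg N hR0 i
  have hE : 0 < Real.exp l := Real.exp_pos l
  have hE2 : 0 < Real.exp (-(2 * l)) := Real.exp_pos _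
  -- the total rate times the small factor
  have h6 : Real.exp (-(2 * l)) * ∑ i, tS l gH R i ≤ 1 / l ^ 9 := by
    have h7 := mul_le_mul_of_nonneg_left h4 hE2.le
    refine h7.trans ?_
    have h8 : Real.exp (-(2 * l)) * (4.5 * B1 * Real.exp l / l ^ 9)
        = (Real.exp (-(2 * l)) * Real.exp l) * (4.5 * B1 / l ^ 9) := by ring
    rw [h8]
    have h9 := mul_le_mul_of_nonneg_right h5 (show 0 ≤ 4.5 * B1 / l ^ 9 by positivity)
    refine h9.trans ?_
    have h10 : 1 / l * (4.5 * B1 / l ^ 9) = (4.5 * B1 / l) * (1 / l ^ 9) := by ring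
    rw [h10]
    have h11 : 4.5 * B1 / l ≤ 1 := by
      rw [div_le_one h0]
      linarith [N.h2]
    have h12 := mul_le_mul_of_nonneg_right h11 (show 0 ≤ 1 / l ^ 9 by positivity)
    linarith
  have h7 : 4 * gH * (1 / 2) ^ NumS.mS l * ∑ i, tS l gH R i ≤ 1 / 100 := by
    have h8 : (1 / 2) ^ NumS.mS l * ∑ i, tS l gH R i ≤ 1 / l ^ 9 :=
      (mul_le_mul_of_nonneg_right h3 hT0).trans h6
    have h9 : 4 * gH * (1 / 2) ^ NumS.mS l * ∑ i, tS l gH R i
        = 4 * gH * ((1 / 2) ^ NumS.mS l * ∑ i, tS l gH R i) := by ring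
    rw [h9]
    refine (mul_le_mul_of_nonneg_left h8 (by linarith)).trans ?_
    rw [mul_one_div, div_le_div_iff₀ (pow_pos h0 9) (by norm_num)]
    have := N.lpow 9 (by norm_num)
    linarith [N.h6]
  have h8 : 16 * tauS l gH * ((15 * tauS l gH) ^ NumS.mS l) ^ 2 * ∑ i, tS l gH R i
      ≤ 1 / 100 := by
    have h9 : (15 * tauS l gH) ^ NumS.mS l ≤ (1 / 2) ^ NumS.mS l :=
      pow_le_pow_left₀ (by have := N.tau0; positivity) N.tau15 _
    have h9' : 0 ≤ (15 * tauS l gH) ^ NumS.mS l := by have := N.tau0; positivity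
    have h10 : ((15 * tauS l gH) ^ NumS.mS l) ^ 2 ≤ Real.exp (-(2 * l)) := by
      have h11 : (15 * tauS l gH) ^ NumS.mS l ≤ 1 :=
        h9.trans (pow_le_one₀ (by norm_num) (by norm_num))
      rw [sq]
      calc (15 * tauS l gH) ^ NumS.mS l * (15 * tauS l gH) ^ NumS.mS l
          ≤ (15 * tauS l gH) ^ NumS.mS l * 1 := mul_le_mul_of_nonneg_left h11 h9'
        _ ≤ Real.exp (-(2 * l)) := by rw [mul_one]; exact h9.trans h3
    have h11 : 16 * tauS l gH ≤ 1 := by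
      have := N.tau15
      have := N.tau0
      linarith
    have h12 : 16 * tauS l gH * ((15 * tauS l gH) ^ NumS.mS l) ^ 2 ≤ 1 * Real.exp (-(2 * l)) :=
      mul_le_mul h11 h10 (by positivity) zero_le_one
    refine (mul_le_mul_of_nonneg_right h12 hT0).trans ?_
    rw [one_mul]
    refine h6.trans ?_
    apply one_div_le_one_div_of_le (by norm_num)
    have := N.lpow 9 (by norm_num)
    linarith
  have h9 : 3 * l * (1 / l ^ 2) + 65 * ∑ s ∈ range (NumS.nS l),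
      qS l B1 s * Hn (At (dsc pr) s).card / (lam0 / l) *
      (2 * (1 / l ^ 2) + 2 * ∑ i ∈ Lo (dsc pr) (s + 1),
        (tS l gH R i + KS l * tS l gH R i) * (1 / l ^ 16) + a0) ≤ 66 := by
    have h10 : 3 * l * (1 / l ^ 2) ≤ 1 := by
      rw [mul_one_div, div_le_one (by positivity)]
      nlinarith
    linarith
  have hK : 0 < KS l := by unfold KS; positivity
  have h10 : 17600 * (NumS.mS l : ℝ) ^ 2 * (3 * l) / KS l *
      (3 * l * (1 / l ^ 2) + 65 * ∑ s ∈ range (NumS.nS l),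
      qS l B1 s * Hn (At (dsc pr) s).card / (lam0 / l) *
      (2 * (1 / l ^ 2) + 2 * ∑ i ∈ Lo (dsc pr) (s + 1),
        (tS l gH R i + KS l * tS l gH R i) * (1 / l ^ 16) + a0)) ≤ 1 / 100 := by
    have h11 : 0 ≤ 17600 * (NumS.mS l : ℝ) ^ 2 * (3 * l) / KS l := by positivity
    refine (mul_le_mul_of_nonneg_left h9 h11).trans ?_
    refine (mul_le_mul_of_nonneg_right h2 (by norm_num)).trans ?_
    rw [one_div_mul_eq_div, div_le_div_iff₀ (by positivity) (by norm_num)]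
    linarith
  beta_reduce
  linarith

end

section
variable {l C1 gH lam0 th a0 B1 : ℝ} {ι : Type*} [Fintype ι] [DecidableEq ι] {prm : ι → ℕ}
  {V : ι → Type*} [∀ i, Fintype (V i)] [∀ i, DecidableEq (V i)] {w : ∀ i, V i → ℝ}
  {μ μ' : (∀ i, V i) → ℝ}

/-- the planted mass of one law -/
theorem log_Gm_S (N : NumS l C1 gH lam0 th a0 B1) (hinj : Function.Injective prm)
    {R : ι → ℝ} (hR0 : ∀ i, 0 ≤ R i) (hlo : ∀ i, l ^ 20 ≤ (prm i : ℝ))
    (hhi : ∀ i, (prm i : ℝ) ≤ Real.exp (2 * l) / l ^ 20)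
    (hR1 : ∀ i, R i ≤ C1 / √(prm i)) {D : ℕ} (hD : th * Real.exp l / l ≤ D)
    (H : Ref w μ) (hat : ∀ i b, w i b = 0 ∨ Real.exp (-(3 * l)) ≤ w i b)
    (hlog : ∀ M : Finset ι, M.card ≤ D → ∀ x, 0 < gdw w μ M x →
      Real.log (gdw w μ M x) ≤ gH * M.card)
    (hPe : Pe w μ (fun M => M.card ≤ D) (lam0 / l) (1 / l ^ 16) a0) :
    Real.log (Gm w (gdw w μ) (rw' (tS l gH R) (fun M => M.card ≤ D / 2)) (tauS l gH))
      ≤ 1 / 16 := by
  have h0 := N.l0
  have hl := N.hl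
  have A := rates_S (gH := gH) N hR0 hlo hhi hR1
  have hK := KS_one N
  have hlam : 0 < lam0 / l := div_pos N.hlam h0
  have P : PinsE w μ (dsc prm) (fun M => M.card ≤ D) (3 * l) (fun _ => lam0 / l)
      (fun _ => a0) (fun _ _ => 1 / l ^ 16) :=
    { L1 := by linarith
      lam0 := fun _ => hlam
      a0 := fun _ => N.ha0
      c0 := fun _ _ => by positivity
      c1 := fun _ _ => by
        rw [div_le_one (by positivity)]
        exact one_le_pow₀ N.l1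
      atoms := hat
      down := fun P Q h1 h2 => (card_le_card h1).trans h2
      pe := fun s P _ hP => by
        have h1 := hPe P hP
        have h2 : ∑ i ∈ P, (1 / l ^ 16) + a0 = 1 / l ^ 16 * P.card + a0 := by
          rw [sum_const, nsmul_eq_mul]; ring
        rw [h2]
        refine le_trans (sum_le_sum fun x _ => ?_) h1
        rcases (H.prob.nonneg x).eq_or_lt with hx | hx
        · rw [← hx]; simp
        refine mul_le_mul_of_nonneg_left (Real.exp_le_exp.mpr ?_) hx.le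
        refine mul_le_mul_of_nonneg_left ?_ hlam.le
        refine sum_le_sum_of_subset_of_nonneg (sdiff_subset_sdiff (subset_univ _) subset_rfl) ?_
        intro j hj _
        exact Di_nonneg H.famT _ _ _ }
  have heps := eps_S (gH := gH) N hinj hlo hhi hR1 hD
  have hε6 : 1 / l ^ 2 ≤ 1 / 6 := by
    apply one_div_le_one_div_of_le (by norm_num)
    nlinarith
  have B : Wts (rw' (tS l gH R) (fun M => M.card ≤ D / 2))
      (rw' (fun i => KS l * tS l gH R i) (fun M => M.card ≤ D / 2)) (tS l gH R)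
      (fun i => KS l * tS l gH R i) (fun M => M.card ≤ D) (1 / l ^ 2) := by
    refine wts_trunc (κ := Unit) univ A.t0 (fun i => (A.t1 i).trans (by norm_num)) A.u0
      (fun i => (A.u1 i).trans (by norm_num)) (f := fun _ _ => 1) (fun _ _ => zero_le_one)
      (fun _ _ => le_rfl) (d := fun _ => ((D / 2 : ℕ) : ℝ)) ?_ ?_ ?_ hε6
    · intro S hS
      have h1 := hS () (mem_univ _)
      rw [sum_const, nsmul_eq_mul, mul_one] at h1
      exact_mod_cast h1
    · intro R' hR' S hS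
      have h1 := card_union_le R' S
      have h2 : D / 2 + D / 2 ≤ D := by omega
      omega
    · rw [Fintype.sum_unique]
      exact heps.2
  have hok : ∀ R S : Finset ι, R ⊆ S → S.card ≤ D / 2 → R.card ≤ D / 2 := fun R S h1 h2 =>
    (card_le_card h1).trans h2
  have h1 := multiE H A P hok B (by positivity) N.m_one N.tau0 N.mtau (θ := 1 / 2) (by norm_num)
    N.hgH (fun M hM x hx => hlog M (by omega) x hx) N.big (alpha_S N hinj hlo)
  exact h1.trans (XE_S N hinj hR0 hlo hhi hR1)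

/-- **S.8n**, with explicit numerical conditions -/
theorem Slocal_of (N : NumS l C1 gH lam0 th a0 B1) (hinj : Function.Injective prm)
    (hlo : ∀ i, l ^ 20 ≤ (prm i : ℝ))
    (hhi : ∀ i, (prm i : ℝ) ≤ Real.exp (2 * l) / l ^ 20)
    {D : ℕ} (hD : th * Real.exp l / l ≤ D)
    (H : Ref w μ) (H' : Ref w μ') (hat : ∀ i b, w i b = 0 ∨ Real.exp (-(3 * l)) ≤ w i b)
    (hlog : ∀ M : Finset ι, M.card ≤ D → ∀ x, 0 < gdw w μ M x →
      Real.log (gdw w μ M x) ≤ gH * M.card)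
    (hlog' : ∀ M : Finset ι, M.card ≤ D → ∀ x, 0 < gdw w μ' M x →
      Real.log (gdw w μ' M x) ≤ gH * M.card)
    (hPe : Pe w μ (fun M => M.card ≤ D) (lam0 / l) (1 / l ^ 16) a0)
    (hPe' : Pe w μ' (fun M => M.card ≤ D) (lam0 / l) (1 / l ^ 16) a0)
    {K : ∀ i, V i → V i → ℝ} {c : ι → ℝ} {u u' : ∀ i, V i → ℝ} {s0 : ∀ i, V i → V i → ℝ}
    {rho e : ι → ℝ} (hK : H365.OB w K c u u' s0 rho e) (hrho : ∀ i, rho i ≤ C1 / √(prm i))
    (he : ∑ i, e i ≤ 1 / 32)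
    (𝓓 : Finset (Finset ι)) (hD0 : ∅ ∈ 𝓓) (hDc : ∀ B ∈ 𝓓, ∀ C ⊆ B, C ∈ 𝓓)
    (hDs : ∀ B ∈ 𝓓, 8 * B.card ≤ D) :
    |∑ B ∈ 𝓓, pr μ μ' K B - 1| ≤ 1 / 2 := by
  have h0 := N.l0
  have A := rates_S (gH := gH) N hK.rho0 hlo hhi hrho
  have heps := eps_S (gH := gH) N hinj hlo hhi hrho hD
  have hs : 0 ≤ ∑ i, tS l gH rho i := sum_nonneg fun i _ => A.t0 i
  have hd : 0 < D / 2 := by
    have h1 := half_D N hD
    have h2 : 0 < th * Real.exp l / (3 * l) := by
      have := N.hth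
      have := Real.exp_pos l
      positivity
    have h3 : (0 : ℝ) < ((D / 2 : ℕ) : ℝ) := by linarith
    exact_mod_cast h3
  have hd' : (0 : ℝ) < ((D / 2 : ℕ) : ℝ) := by exact_mod_cast hd
  have hexp : Real.exp (1 / 16) ≤ 1 + 1 / 15 := by
    have h1 := Real.exp_bound_div_one_sub_of_interval (x := 1 / 16) (by norm_num) (by norm_num)
    refine h1.trans (by norm_num)
  have hη : ∀ {ν : (∀ i, V i) → ℝ},
      Real.log (Gm w (gdw w ν) (rw' (tS l gH rho) (fun R => R.card ≤ D / 2)) (tauS l gH))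
        ≤ 1 / 16 →
      Gm w (gdw w ν) (rw' (tS l gH rho) (fun R => R.card ≤ D / 2)) (tauS l gH)
        ≤ 1 + 1 / 15 := by
    intro ν h2
    rcases le_or_gt (Gm w (gdw w ν) (rw' (tS l gH rho) (fun R => R.card ≤ D / 2)) (tauS l gH)) 0
      with h | h
    · linarith
    rw [← Real.exp_log h]
    exact (Real.exp_le_exp.mpr h2).trans hexp
  have g1 := hη (log_Gm_S N hinj hK.rho0 hlo hhi hrho hD H hat hlog hPe)
  have g2 := hη (log_Gm_S N hinj hK.rho0 hlo hhi hrho hD H' hat hlog' hPe')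
  have hrs : ∀ i, 2 * rho i ≤ tauS l gH * tS l gH rho i := fun i => by
    unfold tS
    rw [mul_div_cancel₀ _ N.tau0.ne']
  have h1 := pr_near_one' H H' hK hK.rho0 hrs A.t0 (fun i => (A.t1 i).trans (by norm_num))
    N.tau0.le hd (by linarith [heps.1]) g1 g2 𝓓 hD0 hDc (fun B hB => by
      have := hDs B hB
      omega)
  have h2 : 2 * (∑ i, tS l gH rho i) / ((D / 2 : ℕ) : ℝ) ≤ 1 / 32 := by
    rw [div_le_iff₀ hd']
    linarith [heps.1]
  have h3 : Real.exp (2 * ∑ i, e i) ≤ 1 + 1 / 15 :=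
    (Real.exp_le_exp.mpr (by linarith)).trans hexp
  have h4 : 0 ≤ 2 * (∑ i, tS l gH rho i) / ((D / 2 : ℕ) : ℝ) := by positivity
  have h5 : ∑ B ∈ 𝓓, pr μ μ' K B - 1 = ∑ B ∈ 𝓓.erase ∅, pr μ μ' K B := by
    rw [← add_sum_erase 𝓓 _ hD0, pr_empty H H']
    ring
  rw [h5]
  refine (abs_sum_le_sum_abs _ _).trans (h1.trans ?_)
  have h6 : Real.exp (2 * ∑ i, e i) * (1 + 2 * (1 / 15 + 2 * (∑ i, tS l gH rho i) /
      ((D / 2 : ℕ) : ℝ))) ≤ (1 + 1 / 15) * (1 + 2 * (1 / 15 + 1 / 32)) := by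
    refine mul_le_mul h3 (by linarith) (by linarith) (by norm_num)
  linarith

end

/-- the numerical conditions hold for large `l` -/
theorem NumS_exists (C1 gH lam0 th a0 : ℝ) (hC1 : 0 < C1) (hgH : 0 ≤ gH) (hlam0 : 0 < lam0)
    (hth : 0 < th) (ha0 : 0 ≤ a0) :
    ∃ l0 : ℝ, ∀ l ≥ l0, NumS l C1 gH lam0 th a0 (256 * C1 * Real.exp (2 * gH + 1)) := by
  obtain ⟨B, hB⟩ : ∃ B, B = 256 * C1 * Real.exp (2 * gH + 1) := ⟨_, rfl⟩
  have hB0 : 0 < B := by rw [hB]; positivity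
  rw [← hB]
  refine ⟨200 + 2 * 10 ^ 9 * B + 10 ^ 13 * B / th + 10 ^ 11 * B / lam0 + 200 / th + 1000 * gH
    + (a0 + 2) + 10 ^ 22 * B ^ 2 / lam0, fun l hl => ?_⟩
  have p1 : 0 ≤ 2 * 10 ^ 9 * B := by positivity
  have p2 : 0 ≤ 10 ^ 13 * B / th := by positivity
  have p3 : 0 ≤ 10 ^ 11 * B / lam0 := by positivity
  have p4 : 0 ≤ 200 / th := by positivity
  have p5 : 0 ≤ 1000 * gH := by positivity
  have p6 : 0 ≤ 10 ^ 22 * B ^ 2 / lam0 := by positivity
  refine ⟨by linarith, hC1, hgH, hlam0, hth, ha0, hB, by linarith, ?_, ?_, ?_, by linarith,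
    by linarith, ?_⟩
  · have : 10 ^ 13 * B / th ≤ l := by linarith
    rw [div_le_iff₀ hth] at this
    linarith
  · have : 10 ^ 11 * B / lam0 ≤ l := by linarith
    rw [div_le_iff₀ hlam0] at this
    linarith
  · have : 200 / th ≤ l := by linarith
    rw [div_le_iff₀ hth] at this
    linarith
  · have : 10 ^ 22 * B ^ 2 / lam0 ≤ l := by linarith
    rw [div_le_iff₀ hlam0] at this
    linarith

/-- **S.8n: the local comparison for target S.** -/
theorem Slocal (C1 gH lam0 th a0 : ℝ) (hC1 : 0 < C1) (hgH : 0 ≤ gH) (hlam0 : 0 < lam0)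
    (hth : 0 < th) (ha0 : 0 ≤ a0) :
    ∃ l0 : ℝ, ∀ l ≥ l0, ∀ (ι : Type) [Fintype ι] [DecidableEq ι] (prm : ι → ℕ)
      (V : ι → Type) [∀ i, Fintype (V i)] [∀ i, DecidableEq (V i)] (w : ∀ i, V i → ℝ)
      (μ μ' : (∀ i, V i) → ℝ) (D : ℕ) (K : ∀ i, V i → V i → ℝ) (c : ι → ℝ)
      (u u' : ∀ i, V i → ℝ) (s0 : ∀ i, V i → V i → ℝ) (rho e : ι → ℝ) (𝓓 : Finset (Finset ι)),
      Function.Injective prm →
      (∀ i, l ^ 20 ≤ (prm i : ℝ) ∧ (prm i : ℝ) ≤ Real.exp (2 * l) / l ^ 20) →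
      th * Real.exp l / l ≤ D →
      Ref w μ → Ref w μ' →
      (∀ i b, w i b = 0 ∨ Real.exp (-(3 * l)) ≤ w i b) →
      (∀ M : Finset ι, M.card ≤ D → ∀ x, 0 < gdw w μ M x →
        Real.log (gdw w μ M x) ≤ gH * M.card) →
      (∀ M : Finset ι, M.card ≤ D → ∀ x, 0 < gdw w μ' M x →
        Real.log (gdw w μ' M x) ≤ gH * M.card) →
      Pe w μ (fun M => M.card ≤ D) (lam0 / l) (1 / l ^ 16) a0 →
      Pe w μ' (fun M => M.card ≤ D) (lam0 / l) (1 / l ^ 16) a0 →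
      H365.OB w K c u u' s0 rho e → (∀ i, rho i ≤ C1 / √(prm i)) → ∑ i, e i ≤ 1 / 32 →
      ∅ ∈ 𝓓 → (∀ B ∈ 𝓓, ∀ C ⊆ B, C ∈ 𝓓) → (∀ B ∈ 𝓓, 8 * B.card ≤ D) →
      |∑ B ∈ 𝓓, pr μ μ' K B - 1| ≤ 1 / 2 := by
  obtain ⟨l0, hl0⟩ := NumS_exists C1 gH lam0 th a0 hC1 hgH hlam0 hth ha0
  refine ⟨l0, fun l hl ι _ _ prm V _ _ w μ μ' D K c u u' s0 rho e 𝓓 hinj hp hD H H' hat
    hlog hlog' hPe hPe' hK hrho he hD0 hDc hDs => ?_⟩
  exact Slocal_of (hl0 l hl) hinj (fun i => (hp i).1) (fun i => (hp i).2) hD H H' hat hlog hlog'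
    hPe hPe' hK hrho he 𝓓 hD0 hDc hDs

end Vale.Agent.P042.H482
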