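import Vale.Agent.P042.H482.SNum

/-! The planted mass is small for logarithmic power parameters: main theorem. -/

namespace Vale.Agent.P042.H482

open Finset Vale.Agent.P042.H779.Ab
open Vale.Agent.P042.H779 (marg m1 IsProb bw)

set_option linter.unusedSectionVars false

section
variable {l C1 gH lam0 th a0 B1 : ℝ} {ι : Type*} [Fintype ι] [DecidableEq ι] {pr : ι → ℕ}

/-- the rates belonging to the kernel norms -/
noncomputable def tS (l gH : ℝ) (R : ι → ℝ) (i : ι) : ℝ := 2 * R i / tauS l gH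

/-- the factor between the inserted and the planted rates -/
noncomputable def KS (l : ℝ) : ℝ := 10 ^ 9 * l ^ 4

lemma KS_one (N : NumS l C1 gH lam0 th a0 B1) : 1 ≤ KS l := by
  unfold KS
  have := one_le_pow₀ (n := 4) N.l1
  linarith

lemma tS_nonneg (N : NumS l C1 gH lam0 th a0 B1) {R : ι → ℝ} (hR0 : ∀ i, 0 ≤ R i) (i : ι) :
    0 ≤ tS l gH R i := div_nonneg (mul_nonneg zero_le_two (hR0 i)) N.tau0.le

lemma tS_le (N : NumS l C1 gH lam0 th a0 B1) {R : ι → ℝ}
    (hR1 : ∀ i, R i ≤ C1 / √(pr i)) (i : ι) :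
    tS l gH R i ≤ (B1 * l) / √(pr i) := by
  unfold tS
  rw [N.tau_inv, N.hB1]
  have h1 := hR1 i
  have h2 : 0 ≤ 256 * Real.exp (2 * gH + 1) * l := by have := N.l0; positivity
  have h3 := mul_le_mul_of_nonneg_left h1 h2
  refine h3.trans (le_of_eq ?_)
  ring

lemma tS_small (N : NumS l C1 gH lam0 th a0 B1) {R : ι → ℝ}
    (hlo : ∀ i, l ^ 20 ≤ (pr i : ℝ)) (hR1 : ∀ i, R i ≤ C1 / √(pr i)) (i : ι) :
    KS l * tS l gH R i ≤ 1 / 2 := by
  have h0 := N.l0
  have h1 := tS_le N hR1 i
  have h2 : (B1 * l) / √(pr i) ≤ (B1 * l) / l ^ 10 :=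
    div_le_div_of_nonneg_left (mul_nonneg N.B0.le h0.le) (pow_pos h0 10) (sqrt_ge hlo i)
  have h3 := mul_le_mul_of_nonneg_left (h1.trans h2) (zero_le_one.trans (KS_one N))
  refine h3.trans ?_
  have h4 : KS l * (B1 * l / l ^ 10) = 10 ^ 9 * B1 / l ^ 5 := by
    unfold KS
    field_simp
  rw [h4, div_le_iff₀ (pow_pos h0 5)]
  have h5 := N.h2
  have h6 := N.lpow 5 (by norm_num)
  linarith

/-- the total planted rate -/
lemma sum_tS (N : NumS l C1 gH lam0 th a0 B1) (hinj : Function.Injective pr)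
    {R : ι → ℝ} (hlo : ∀ i, l ^ 20 ≤ (pr i : ℝ))
    (hhi : ∀ i, (pr i : ℝ) ≤ Real.exp (2 * l) / l ^ 20)
    (hR1 : ∀ i, R i ≤ C1 / √(pr i)) :
    ∑ i, tS l gH R i ≤ 4.5 * B1 * Real.exp l / l ^ 9 := by
  have h0 := N.l0
  have h1 := sum_all_le hinj (pr_pos N hlo) (q := B1 * l) (mul_nonneg N.B0.le h0.le)
    (tS_le N hR1) (dsc_lt N hhi)
  refine h1.trans ?_
  have h2 := mul_le_mul_of_nonneg_left N.r2_nS
    (show 0 ≤ 3 * (B1 * l) by have := N.B0; positivity)
  refine h2.trans (le_of_eq ?_)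
  field_simp
  ring

/-- half of the size budget -/
lemma half_D (N : NumS l C1 gH lam0 th a0 B1) {D : ℕ} (hD : th * Real.exp l / l ≤ D) :
    th * Real.exp l / (3 * l) ≤ ((D / 2 : ℕ) : ℝ) := by
  have h0 := N.l0
  have h1 : (D : ℝ) ≤ 2 * ((D / 2 : ℕ) : ℝ) + 1 := by
    have : D ≤ 2 * (D / 2) + 1 := by omega
    exact_mod_cast this
  have h2 := N.exp_ge_cube
  have h3 : 6000 ≤ th * Real.exp l / l := by
    rw [le_div_iff₀ h0]
    have h4 := mul_le_mul_of_nonneg_left h2 N.hth.le
    have h5 := N.h5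
    have h6 := N.hl
    have h7 : th * (l ^ 3 / 6) = (th * l) * (l * l) / 6 := by ring
    rw [h7] at h4
    have h8 : 200 * (l * l) ≤ (th * l) * (l * l) :=
      mul_le_mul_of_nonneg_right h5 (by positivity)
    nlinarith
  have h9 : th * Real.exp l / (3 * l) = (th * Real.exp l / l) / 3 := by
    field_simp
  rw [h9]
  linarith

/-- the entropy of the exceptional event of the inserted set -/
lemma eps_S (N : NumS l C1 gH lam0 th a0 B1) (hinj : Function.Injective pr)
    {R : ι → ℝ} (hlo : ∀ i, l ^ 20 ≤ (pr i : ℝ))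
    (hhi : ∀ i, (pr i : ℝ) ≤ Real.exp (2 * l) / l ^ 20)
    (hR1 : ∀ i, R i ≤ C1 / √(pr i)) {D : ℕ} (hD : th * Real.exp l / l ≤ D) :
    64 * ∑ i, tS l gH R i ≤ ((D / 2 : ℕ) : ℝ) ∧
    Real.exp (2 * ∑ i, KS l * tS l gH R i * 1 - ((D / 2 : ℕ) : ℝ)) ≤ 1 / l ^ 2 := by
  have h0 := N.l0
  have h1 := sum_tS N hinj hlo hhi hR1
  have h2 := half_D N hD
  have hE : 0 < Real.exp l := Real.exp_pos l
  have h3 := N.h3
  constructor
  · refine le_trans ?_ h2
    refine (mul_le_mul_of_nonneg_left h1 (by norm_num)).trans ?_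
    rw [show 64 * (4.5 * B1 * Real.exp l / l ^ 9) = (288 * B1 / l ^ 8) * (Real.exp l / l) by
      field_simp; ring,
      show th * Real.exp l / (3 * l) = (th / 3) * (Real.exp l / l) by field_simp]
    refine mul_le_mul_of_nonneg_right ?_ (by positivity)
    rw [div_le_iff₀ (pow_pos h0 8)]
    have h4 := N.lpow 8 (by norm_num)
    have h5 := mul_le_mul_of_nonneg_left h4 N.hth.le
    have := N.B0
    linarith
  · have h4 : 2 * ∑ i, KS l * tS l gH R i * 1 ≤ th * Real.exp l / (6 * l) := by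
      have e1 : ∑ i, KS l * tS l gH R i * 1 = KS l * ∑ i, tS l gH R i := by
        rw [mul_sum]
        exact sum_congr rfl fun i _ => by ring
      rw [e1]
      have h5 := mul_le_mul_of_nonneg_left h1 (zero_le_one.trans (KS_one N))
      have h6 : KS l * (4.5 * B1 * Real.exp l / l ^ 9)
          = (4.5 * 10 ^ 9 * B1 / l ^ 4) * (Real.exp l / l) := by
        unfold KS
        field_simp
      rw [h6] at h5
      have h7 : th * Real.exp l / (6 * l) = (th / 6) * (Real.exp l / l) := by field_simp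
      rw [h7]
      have h8 : 2 * ((4.5 * 10 ^ 9 * B1 / l ^ 4) * (Real.exp l / l))
          ≤ (th / 6) * (Real.exp l / l) := by
        rw [← mul_assoc]
        refine mul_le_mul_of_nonneg_right ?_ (by positivity)
        rw [mul_div_assoc', div_le_iff₀ (pow_pos h0 4)]
        have h9 := N.lpow 4 (by norm_num)
        have h10 := mul_le_mul_of_nonneg_left h9 N.hth.le
        have := N.B0
        linarith
      linarith
    have h5 : 2 * ∑ i, KS l * tS l gH R i * 1 - ((D / 2 : ℕ) : ℝ) ≤ -(2 * l) := by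
      have h6 : th * Real.exp l / (3 * l) = 2 * (th * Real.exp l / (6 * l)) := by
        field_simp
        ring
      have h7 : 2 * l ≤ th * Real.exp l / (6 * l) := by
        rw [le_div_iff₀ (by positivity)]
        have h8 := mul_le_mul_of_nonneg_left N.exp_ge_cube N.hth.le
        have h9 := N.h5
        have h10 : th * (l ^ 3 / 6) = (th * l) * (l * l) / 6 := by ring
        rw [h10] at h8
        have h11 : 200 * (l * l) ≤ (th * l) * (l * l) :=
          mul_le_mul_of_nonneg_right h9 (by positivity)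
        nlinarith
      linarith
    refine (Real.exp_le_exp.mpr h5).trans ?_
    have h6 : Real.exp (-(2 * l)) = (Real.exp (-l)) ^ 2 := by
      rw [← Real.exp_nat_mul]
      congr 1
      push_cast
      ring
    rw [h6]
    have h7 := pow_le_pow_left₀ (Real.exp_pos (-l)).le N.exp_neg_le 2
    rw [div_pow, one_pow] at h7
    exact h7

/-- upper bounds of the rates on a scale -/
noncomputable def qS (l B1 : ℝ) (s : ℕ) : ℝ := 2 * KS l * (B1 * l) / r2 ^ s

lemma rates_S (N : NumS l C1 gH lam0 th a0 B1)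
    {R : ι → ℝ} (hR0 : ∀ i, 0 ≤ R i) (hlo : ∀ i, l ^ 20 ≤ (pr i : ℝ))
    (hhi : ∀ i, (pr i : ℝ) ≤ Real.exp (2 * l) / l ^ 20)
    (hR1 : ∀ i, R i ≤ C1 / √(pr i)) :
    Rates (tS l gH R) (fun i => KS l * tS l gH R i) (dsc pr) (NumS.nS l) (KS l) (qS l B1) := by
  have h0 := N.l0
  have hK := KS_one N
  have ht := tS_nonneg N hR0
  have hKt : ∀ i, tS l gH R i ≤ KS l * tS l gH R i := fun i => by
    have := mul_le_mul_of_nonneg_right hK (ht i)
    linarith
  exact
    { t0 := ht
      t1 := fun i => (hKt i).trans (tS_small N hlo hR1 i)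
      u0 := fun i => (ht i).trans (hKt i)
      u1 := fun i => tS_small N hlo hR1 i
      K0 := by linarith
      Kt := fun i => le_rfl
      scn := dsc_lt N hhi
      qb1 := fun i => by
        have h1 := tS_le N hR1 i
        have h2 : (B1 * l) / √(pr i) ≤ (B1 * l) / r2 ^ dsc pr i :=
          div_le_div_of_nonneg_left (mul_nonneg N.B0.le h0.le) (pow_pos r2_pos _)
            (sqrt_pr_ge (pr_pos N hlo) i)
        have h3 := mul_le_mul_of_nonneg_left (h1.trans h2) (show 0 ≤ 2 * KS l by linarith)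
        have h4 : 2 * KS l * (B1 * l / r2 ^ dsc pr i) = qS l B1 (dsc pr i) := by
          unfold qS
          ring
        rw [h4] at h3
        have h5 := hKt i
        linarith
      qb0 := fun s => by
        unfold qS
        have := N.B0
        have := pow_pos r2_pos s
        positivity }

/-- the sum over the scales -/
lemma Q1_S (N : NumS l C1 gH lam0 th a0 B1) (hinj : Function.Injective pr)
    (hlo : ∀ i, l ^ 20 ≤ (pr i : ℝ)) :
    ∀ s ∈ range (NumS.nS l), qS l B1 s * Hn (At (dsc pr) s).card / (lam0 / l)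
      ≤ 9 * 10 ^ 9 * B1 / (lam0 * l ^ 3) := by
  intro s hs
  rw [mem_range] at hs
  have h0 := N.l0
  have hB := N.B0
  have hlam := N.hlam
  rcases (At (dsc pr) s).eq_empty_or_nonempty with h | ⟨i, hi⟩
  · rw [h, card_empty]
    have : Hn 0 = 0 := by simp [Hn]
    rw [this, mul_zero, zero_div]
    positivity
  · have h1 := Hn_At_le N hinj (pr_pos N hlo) hs
    have h2 : l ^ 10 ≤ 1.5 * r2 ^ s := by
      unfold At at hi
      rw [mem_filter] at hi
      have h3 := (sqrt_ge hlo i).trans (sqrt_pr_lt (pr := pr) i).le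
      rw [hi.2, pow_succ r2 s] at h3
      have h4 := mul_le_mul_of_nonneg_left r2_lt.le (pow_pos r2_pos s).le
      linarith
    have hr := pow_pos r2_pos s
    have h3 : qS l B1 s ≤ 3 * KS l * (B1 * l) / l ^ 10 := by
      unfold qS
      rw [div_le_div_iff₀ hr (pow_pos h0 10)]
      have h5 : 0 ≤ KS l * (B1 * l) := by unfold KS; positivity
      nlinarith
    have h4 : 3 * KS l * (B1 * l) / l ^ 10 = 3 * 10 ^ 9 * B1 / l ^ 5 := by
      unfold KS
      field_simp
    rw [h4] at h3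
    have h5 : qS l B1 s * Hn (At (dsc pr) s).card ≤ (3 * 10 ^ 9 * B1 / l ^ 5) * (3 * l) :=
      mul_le_mul h3 h1 (Hn_nonneg _) (by positivity)
    have h6 := div_le_div_of_nonneg_right h5 (show 0 ≤ lam0 / l by positivity)
    refine h6.trans (le_of_eq ?_)
    field_simp
    ring

lemma Q1_sum (N : NumS l C1 gH lam0 th a0 B1) (hinj : Function.Injective pr)
    (hlo : ∀ i, l ^ 20 ≤ (pr i : ℝ)) :
    ∑ s ∈ range (NumS.nS l), qS l B1 s * Hn (At (dsc pr) s).card / (lam0 / l) ≤ 1 / l := by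
  have h0 := N.l0
  have hlam := N.hlam
  have hB := N.B0
  refine (sum_le_sum (Q1_S N hinj hlo)).trans ?_
  rw [sum_const, card_range, nsmul_eq_mul]
  have h1 := mul_le_mul_of_nonneg_right N.nS_le
    (show 0 ≤ 9 * 10 ^ 9 * B1 / (lam0 * l ^ 3) by positivity)
  refine h1.trans ?_
  rw [mul_div_assoc', div_le_div_iff₀ (by positivity) h0]
  have h2 := N.h4
  have h3 : 0 ≤ l * l := by positivity
  nlinarith [mul_le_mul_of_nonneg_right h2 h3]

end

end Vale.Agent.P042.H482
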