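import Vale.Agent.P042.H482.Dyad
import Vale.Agent.P042.H482.Pe
import Vale.Agent.P042.H482.Bil1

/-! The planted mass is small for logarithmic power parameters: numerical part. -/

namespace Vale.Agent.P042.H482

open Finset Vale.Agent.P042.H779.Ab
open Vale.Agent.P042.H779 (marg m1 IsProb bw)

set_option linter.unusedSectionVars false

/-- the numerical conditions on `l = log P` -/
structure NumS (l C1 gH lam0 th a0 B1 : ℝ) : Prop where
  hl : 200 ≤ l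
  hC1 : 0 < C1
  hgH : 0 ≤ gH
  hlam : 0 < lam0
  hth : 0 < th
  ha0 : 0 ≤ a0
  hB1 : B1 = 256 * C1 * Real.exp (2 * gH + 1)
  h2 : 2 * 10 ^ 9 * B1 ≤ l
  h3 : 10 ^ 13 * B1 ≤ th * l
  h4 : 10 ^ 11 * B1 ≤ lam0 * l
  h5 : 200 ≤ th * l
  h6 : 1000 * gH ≤ l
  h7 : a0 + 2 ≤ l
  h8 : 10 ^ 22 * B1 ^ 2 ≤ lam0 * l

/-- the noise parameter -/
noncomputable def tauS (l gH : ℝ) : ℝ := Real.exp (-(2 * gH + 1)) / (128 * l)

namespace NumS

variable {l C1 gH lam0 th a0 B1 : ℝ}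

lemma l0 (N : NumS l C1 gH lam0 th a0 B1) : 0 < l := by linarith [N.hl]

lemma l1 (N : NumS l C1 gH lam0 th a0 B1) : 1 ≤ l := by linarith [N.hl]

lemma B0 (N : NumS l C1 gH lam0 th a0 B1) : 0 < B1 := by
  rw [N.hB1]
  have := N.hC1
  positivity

lemma lpow (N : NumS l C1 gH lam0 th a0 B1) (n : ℕ) (hn : 1 ≤ n) : l ≤ l ^ n :=
  le_self_pow₀ N.l1 (by omega)

lemma exp_ge_sq (N : NumS l C1 gH lam0 th a0 B1) : l ^ 2 / 2 ≤ Real.exp l := by
  have h := Real.pow_div_factorial_le_exp l N.l0.le 2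
  norm_num [Nat.factorial] at h
  exact h

lemma exp_ge_cube (N : NumS l C1 gH lam0 th a0 B1) : l ^ 3 / 6 ≤ Real.exp l := by
  have h := Real.pow_div_factorial_le_exp l N.l0.le 3
  norm_num [Nat.factorial] at h
  exact h

lemma exp_ge (N : NumS l C1 gH lam0 th a0 B1) : l ≤ Real.exp l := by
  have := Real.add_one_le_exp l
  linarith

lemma exp_neg_le (N : NumS l C1 gH lam0 th a0 B1) : Real.exp (-l) ≤ 1 / l := by
  rw [Real.exp_neg, one_div]
  exact inv_anti₀ N.l0 N.exp_ge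

lemma tau0 (N : NumS l C1 gH lam0 th a0 B1) : 0 < tauS l gH := by
  unfold tauS
  have := N.l0
  positivity

lemma tau_le (N : NumS l C1 gH lam0 th a0 B1) : tauS l gH ≤ 1 / (128 * l) := by
  unfold tauS
  have := N.l0
  have h1 : Real.exp (-(2 * gH + 1)) ≤ 1 := by
    rw [Real.exp_le_one_iff]
    linarith [N.hgH]
  exact div_le_div_of_nonneg_right h1 (by positivity)

lemma tau15 (N : NumS l C1 gH lam0 th a0 B1) : 15 * tauS l gH ≤ 1 / 2 := by
  have h1 := N.tau_le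
  have h2 : 1 / (128 * l) ≤ 1 / 128 := by
    apply one_div_le_one_div_of_le (by norm_num)
    nlinarith [N.hl]
  linarith

lemma tau_inv (N : NumS l C1 gH lam0 th a0 B1) (x : ℝ) :
    2 * x / tauS l gH = 256 * Real.exp (2 * gH + 1) * l * x := by
  unfold tauS
  rw [Real.exp_neg]
  have := N.l0
  have h1 := Real.exp_pos (2 * gH + 1)
  field_simp
  ring

/-- number of replicas -/
noncomputable def mS (l : ℝ) : ℕ := ⌈4 * l⌉₊

lemma m_ge (N : NumS l C1 gH lam0 th a0 B1) : 4 * l ≤ mS l := Nat.le_ceil _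

lemma m_le (N : NumS l C1 gH lam0 th a0 B1) : (mS l : ℝ) ≤ 5 * l := by
  have h1 := Nat.ceil_lt_add_one (a := 4 * l) (by linarith [N.l0])
  have h2 := N.hl
  unfold mS
  linarith

lemma m_one (N : NumS l C1 gH lam0 th a0 B1) : 1 ≤ mS l := by
  have h1 := N.m_ge
  have h2 := N.hl
  have h3 : (1 : ℝ) ≤ mS l := by linarith
  exact_mod_cast h3

lemma mtau (N : NumS l C1 gH lam0 th a0 B1) : 16 * (mS l : ℝ) * tauS l gH ≤ 1 := by
  have h1 := N.m_le
  have h2 := N.tau_le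
  have h0 := N.l0
  have h3 : 16 * (mS l : ℝ) * tauS l gH ≤ 16 * (5 * l) * (1 / (128 * l)) :=
    mul_le_mul (by linarith) h2 N.tau0.le (by linarith)
  have h4 : 16 * (5 * l) * (1 / (128 * l)) = 80 / 128 := by field_simp; norm_num
  rw [h4] at h3
  linarith

lemma big (N : NumS l C1 gH lam0 th a0 B1) :
    2 * gH + 1 ≤ Real.log ((1 / 2) / tauS l gH) := by
  have h0 := N.l0
  have h1 : (1 / 2) / tauS l gH = (64 * l) * Real.exp (2 * gH + 1) := by
    have := N.tau_inv (1 / 4)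
    have h2 : 2 * (1 / 4 : ℝ) / tauS l gH = (1 / 2) / tauS l gH := by ring
    rw [← h2, this]
    ring
  rw [h1, Real.log_mul (by positivity) (Real.exp_pos _).ne', Real.log_exp]
  have : 0 ≤ Real.log (64 * l) := Real.log_nonneg (by linarith [N.hl])
  linarith

lemma half_pow (N : NumS l C1 gH lam0 th a0 B1) : (1 / 2 : ℝ) ^ mS l ≤ Real.exp (-(2 * l)) := by
  have h1 : (1 / 2 : ℝ) = Real.exp (-Real.log 2) := by
    rw [Real.exp_neg, Real.exp_log (by norm_num)]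
    norm_num
  rw [h1, ← Real.exp_nat_mul]
  apply Real.exp_le_exp.mpr
  have h2 := N.m_ge
  have h3 : (1 / 2 : ℝ) ≤ Real.log 2 := by
    have := Real.log_two_gt_d9; linarith
  have h4 := N.l0
  nlinarith

lemma exp_neg2 (N : NumS l C1 gH lam0 th a0 B1) : Real.exp (-(2 * l)) * Real.exp l ≤ 1 / l := by
  rw [← Real.exp_add]
  have : -(2 * l) + l = -l := by ring
  rw [this]
  exact N.exp_neg_le

/-- `Y ≥ 1` -/
lemma Y_ge (N : NumS l C1 gH lam0 th a0 B1) : 1 ≤ Real.exp (2 * l) / l ^ 20 := by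
  rw [one_le_div (pow_pos N.l0 20)]
  have h1 : Real.exp (2 * l) = Real.exp (l / 10) ^ 20 := by
    rw [← Real.exp_nat_mul]
    congr 1
    push_cast
    ring
  rw [h1]
  refine pow_le_pow_left₀ N.l0.le ?_ 20
  have h2 := Real.pow_div_factorial_le_exp (l / 10) (by linarith [N.l0]) 2
  norm_num [Nat.factorial] at h2
  have h3 := N.hl
  nlinarith

/-- number of scales -/
noncomputable def nS (l : ℝ) : ℕ := Nat.log 2 ⌊Real.exp (2 * l) / l ^ 20⌋₊ + 1

lemma floor_ne (N : NumS l C1 gH lam0 th a0 B1) : ⌊Real.exp (2 * l) / l ^ 20⌋₊ ≠ 0 := by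
  have := Nat.le_floor (α := ℝ) (n := 1) (by exact_mod_cast N.Y_ge)
  omega

lemma two_pow_le (N : NumS l C1 gH lam0 th a0 B1) :
    (2 : ℝ) ^ (Nat.log 2 ⌊Real.exp (2 * l) / l ^ 20⌋₊) ≤ Real.exp (2 * l) / l ^ 20 := by
  have h1 := Nat.pow_log_le_self 2 N.floor_ne
  have h2 : ((2 ^ (Nat.log 2 ⌊Real.exp (2 * l) / l ^ 20⌋₊) : ℕ) : ℝ)
      ≤ (⌊Real.exp (2 * l) / l ^ 20⌋₊ : ℝ) := by exact_mod_cast h1
  have h3 := Nat.floor_le (a := Real.exp (2 * l) / l ^ 20) (by linarith [N.Y_ge])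
  push_cast at h2
  linarith

lemma r2_nS (N : NumS l C1 gH lam0 th a0 B1) :
    r2 ^ nS l ≤ 1.5 * (Real.exp l / l ^ 10) := by
  have h1 := N.two_pow_le
  unfold nS
  obtain ⟨k, hk⟩ : ∃ k, k = Nat.log 2 ⌊Real.exp (2 * l) / l ^ 20⌋₊ := ⟨_, rfl⟩
  rw [← hk] at h1 ⊢
  rw [pow_succ, mul_comm]
  refine mul_le_mul r2_lt.le ?_ (pow_pos r2_pos _).le (by norm_num)
  rw [← r2_pow_sq] at h1
  have h2 : Real.exp (2 * l) / l ^ 20 = (Real.exp l / l ^ 10) ^ 2 := by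
    rw [div_pow, ← pow_mul, ← Real.exp_nat_mul]
    norm_num
  rw [h2, ← sq] at h1
  have h3 : 0 ≤ Real.exp l / l ^ 10 := by have := N.l0; positivity
  exact (pow_le_pow_iff_left₀ (pow_pos r2_pos k).le h3 two_ne_zero).mp h1

lemma nS_le (N : NumS l C1 gH lam0 th a0 B1) : (nS l : ℝ) ≤ 4 * l := by
  have h1 := N.two_pow_le
  have h2 : Real.exp (2 * l) / l ^ 20 ≤ Real.exp (2 * l) :=
    div_le_self (Real.exp_pos _).le (one_le_pow₀ N.l1)
  have h3 := h1.trans h2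
  have h4 := Real.log_le_log (by positivity) h3
  rw [Real.log_exp, Real.log_pow] at h4
  have h5 : (0.69 : ℝ) < Real.log 2 := by have := Real.log_two_gt_d9; linarith
  unfold nS
  push_cast
  have h6 : (0 : ℝ) ≤ (Nat.log 2 ⌊Real.exp (2 * l) / l ^ 20⌋₊ : ℝ) := by positivity
  have h7 := N.hl
  nlinarith

lemma two_pow_lt_nS (N : NumS l C1 gH lam0 th a0 B1) {s : ℕ} (hs : s < nS l) :
    (2 : ℝ) ^ s ≤ Real.exp (2 * l) := by
  have h1 : (2 : ℝ) ^ s ≤ 2 ^ (Nat.log 2 ⌊Real.exp (2 * l) / l ^ 20⌋₊) :=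
    pow_le_pow_right₀ (by norm_num) (by unfold nS at hs; omega)
  refine h1.trans (N.two_pow_le.trans ?_)
  exact div_le_self (Real.exp_pos _).le (one_le_pow₀ N.l1)

end NumS

section
variable {l C1 gH lam0 th a0 B1 : ℝ} {ι : Type*} [Fintype ι] [DecidableEq ι] {pr : ι → ℕ}

/-- harmonic number of a scale -/
lemma Hn_At_le (N : NumS l C1 gH lam0 th a0 B1) (hinj : Function.Injective pr)
    (hpos : ∀ i, 1 ≤ pr i) {s : ℕ} (hs : s < NumS.nS l) :
    Hn (At (dsc pr) s).card ≤ 3 * l := by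
  refine (Hn_le _).trans ?_
  have h1 : Real.log ((At (dsc pr) s).card : ℝ) ≤ 2 * l := by
    rcases Nat.eq_zero_or_pos (At (dsc pr) s).card with h | h
    · rw [h]; simp; linarith [N.l0]
    · have h2 : ((At (dsc pr) s).card : ℝ) ≤ Real.exp (2 * l) := by
        refine le_trans ?_ (N.two_pow_lt_nS hs)
        exact_mod_cast card_At_le hinj hpos s
      have h3 := Real.log_le_log (by exact_mod_cast h) h2
      rwa [Real.log_exp] at h3
  linarith [N.hl]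

lemma dsc_lt (_N : NumS l C1 gH lam0 th a0 B1)
    (hhi : ∀ i, (pr i : ℝ) ≤ Real.exp (2 * l) / l ^ 20) (i : ι) : dsc pr i < NumS.nS l := by
  unfold dsc NumS.nS
  have h1 : pr i ≤ ⌊Real.exp (2 * l) / l ^ 20⌋₊ := Nat.le_floor (hhi i)
  have h2 := Nat.log_mono_right (b := 2) h1
  omega

lemma sqrt_ge (hlo : ∀ i, l ^ 20 ≤ (pr i : ℝ)) (i : ι) :
    l ^ 10 ≤ √(pr i) := by
  apply Real.le_sqrt_of_sq_le
  rw [← pow_mul]
  exact hlo i

lemma pr_pos (N : NumS l C1 gH lam0 th a0 B1) (hlo : ∀ i, l ^ 20 ≤ (pr i : ℝ)) (i : ι) :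
    1 ≤ pr i := by
  have h1 : (1 : ℝ) ≤ pr i := (one_le_pow₀ N.l1).trans (hlo i)
  exact_mod_cast h1

end

end Vale.Agent.P042.H482
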